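import Vale.Agent.P192.H567.Enc
import Vale.Agent.P192.H630.Wob
import Vale.Agent.P192.H437.Free

set_option linter.all false

/-! Two-colourings of free groups and of virtually free groups. -/

namespace Vale.Agent.P192.H567

open FreeGroup Vale.Agent.P192

theorem nat_div_eq {a b ℓ : ℕ} (h1 : a ≤ b + (ℓ - 1)) (h2 : b ≤ a + (ℓ - 1)) (hℓ : 0 < ℓ)
    (h : Even (a / ℓ) ↔ Even (b / ℓ)) : a / ℓ = b / ℓ := by
  have ha := Nat.div_add_mod a ℓ
  have hb := Nat.div_add_mod b ℓ
  have ha' := Nat.mod_lt a hℓ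
  have hb' := Nat.mod_lt b hℓ
  have h3 : a / ℓ ≤ b / ℓ + 1 := by
    by_contra hcon
    push Not at hcon
    have : ℓ * (b / ℓ + 2) ≤ ℓ * (a / ℓ) := Nat.mul_le_mul_left ℓ hcon
    rw [Nat.mul_add] at this
    omega
  have h4 : b / ℓ ≤ a / ℓ + 1 := by
    by_contra hcon
    push Not at hcon
    have : ℓ * (a / ℓ + 2) ≤ ℓ * (b / ℓ) := Nat.mul_le_mul_left ℓ hcon
    rw [Nat.mul_add] at this
    omega
  have h5 : a / ℓ = b / ℓ ∨ a / ℓ = b / ℓ + 1 ∨ b / ℓ = a / ℓ + 1 := by omega
  rcases h5 with h5 | h5 | h5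
  · exact h5
  · rw [h5, Nat.even_add_one] at h; tauto
  · rw [h5, Nat.even_add_one] at h; tauto

/-- free groups of finite rank -/
theorem ad_free (E : Type) [Finite E] [DecidableEq E] (c : ℕ) :
    ∃ m : ℕ, ∃ C : Set (FreeGroup E), ∀ x : FreeGroup E,
      {y | Relation.ReflTransGen (fun a b => (a ∈ C ↔ b ∈ C) ∧
        ∃ e : FreeGroup E, e.norm ≤ c ∧ b = e * a) x y}.encard ≤ m := by
  classical
  obtain ⟨F, hF⟩ := exists_enc E c
  set ℓ := c + 1 with hℓ
  have hWfin := List.finite_length_le (E × Bool) (ℓ + c)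
  refine ⟨hWfin.toFinset.card, {f | Even (f.norm / ℓ)}, ?_⟩
  intro x
  set q := x.norm / ℓ with hq
  set s := x.toWord.drop (x.norm - (q * ℓ - c)) with hs
  have hxn : x.toWord.length = x.norm := rfl
  have hqx : q * ℓ ≤ x.norm := Nat.div_mul_le_self _ _
  have hslen : s.length = q * ℓ - c := by
    rw [hs, List.length_drop, hxn]; omega
  have key : ∀ y, Relation.ReflTransGen (fun a b => (a ∈ {f : FreeGroup E | Even (f.norm / ℓ)} ↔
        b ∈ {f : FreeGroup E | Even (f.norm / ℓ)}) ∧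
        ∃ e : FreeGroup E, e.norm ≤ c ∧ b = e * a) x y →
        y.norm / ℓ = q ∧ ∃ w, y.toWord = w ++ s := by
    intro y hy
    induction hy with
    | refl => exact ⟨rfl, x.toWord.take (x.norm - (q * ℓ - c)), by rw [hs, List.take_append_drop]⟩
    | @tail a b _ hst ih =>
      obtain ⟨hab, e, he, rfl⟩ := hst
      obtain ⟨ih1, w, hw⟩ := ih
      have h1 := FreeGroup.norm_mul_le e a
      have h2 : a.norm ≤ (e * a).norm + c := by
        have h3 := FreeGroup.norm_mul_le e⁻¹ (e * a)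
        rw [inv_mul_cancel_left, FreeGroup.norm_inv_eq] at h3
        omega
      have h4 : (e * a).norm / ℓ = q := by
        rw [← ih1]
        symm
        apply nat_div_eq _ _ (Nat.succ_pos c) hab
        · omega
        · omega
      refine ⟨h4, ?_⟩
      obtain ⟨f1, f2, f3⟩ := hF e (a.toWord.take c)
      have f4 := f3 a rfl he
      have h5 : w.length + s.length = a.norm := by
        rw [← List.length_append, ← hw]; rfl
      have h6 : q * ℓ ≤ a.norm := by
        rw [← ih1]; exact Nat.div_mul_le_self _ _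
      refine ⟨(F e (a.toWord.take c)).2 ++ w.drop (F e (a.toWord.take c)).1, ?_⟩
      rw [f4]
      generalize (F e (a.toWord.take c)) = p at *
      rw [hw, List.drop_append, List.append_assoc]
      congr 2
      by_cases h7 : c ≤ q * ℓ
      · have h8 : p.1 - w.length = 0 := by omega
        rw [h8, List.drop_zero]
      · have h8 : s = [] := List.length_eq_zero_iff.1 (by omega)
        rw [h8, List.drop_nil]
  have hsub : (FreeGroup.toWord '' {y | Relation.ReflTransGen
      (fun a b => (a ∈ {f : FreeGroup E | Even (f.norm / ℓ)} ↔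
        b ∈ {f : FreeGroup E | Even (f.norm / ℓ)}) ∧
        ∃ e : FreeGroup E, e.norm ≤ c ∧ b = e * a) x y}) ⊆
      (fun w => w ++ s) '' {w | w.length ≤ ℓ + c} := by
    rintro _ ⟨y, hy, rfl⟩
    obtain ⟨h1, w, hw⟩ := key y hy
    refine ⟨w, ?_, hw.symm⟩
    have h5 : w.length + s.length = y.norm := by
      rw [← List.length_append, ← hw]; rfl
    have h6 := Nat.div_add_mod y.norm ℓ
    have h7 := Nat.mod_lt y.norm (show 0 < ℓ by omega)
    rw [h1, mul_comm] at h6
    show w.length ≤ ℓ + c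
    omega
  rw [← FreeGroup.toWord_injective.encard_image]
  refine (Set.encard_le_encard hsub).trans ((Set.encard_image_le _ _).trans ?_)
  rw [hWfin.encard_eq_coe_toFinset_card]

/-- groups with a free subgroup of finite rank and finite index -/
theorem ad_vfree (L : Type) [Group L] (Γ : Subgroup L) [Γ.FiniteIndex] (k : ℕ)
    (e : Γ ≃* FreeGroup (Fin k)) (K : Set L) (hK : K.Finite) :
    ∃ m : ℕ, ∃ C : Set L, ∀ x : L,
      {y | Relation.ReflTransGen (fun a b => (a ∈ C ↔ b ∈ C) ∧ ∃ e ∈ K, b = e * a) x y}.encard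
        ≤ m := by
  classical
  let I : Type := L ⧸ Γ
  have hI : Finite I := inferInstance
  have hmem : ∀ x : L, ((QuotientGroup.mk x : I).out)⁻¹ * x ∈ Γ := by
    intro x
    have h1 : (QuotientGroup.mk ((QuotientGroup.mk x : I).out) : I) = QuotientGroup.mk x :=
      Quotient.out_eq _
    exact QuotientGroup.eq.1 h1
  obtain ⟨c, hc⟩ : ∃ c : ℕ, ∀ κ ∈ K, ∀ i : I,
      (e ⟨((QuotientGroup.mk (κ * i.out) : I).out)⁻¹ * (κ * i.out), hmem _⟩).norm ≤ c := by
    have hfin : (Set.image2 (fun (κ : L) (i : I) =>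
      (e ⟨((QuotientGroup.mk (κ * i.out) : I).out)⁻¹ * (κ * i.out), hmem _⟩).norm)
        K Set.univ).Finite := hK.image2 _ Set.finite_univ
    obtain ⟨c, hc⟩ := hfin.bddAbove
    exact ⟨c, fun κ hκ i => hc ⟨κ, hκ, i, trivial, rfl⟩⟩
  obtain ⟨m, C, hC⟩ := ad_free (Fin k) c
  let f : L → FreeGroup (Fin k) := fun x => e ⟨((QuotientGroup.mk x : I).out)⁻¹ * x, hmem x⟩
  refine ⟨m * Nat.card I, {x | f x ∈ C}, ?_⟩
  intro x
  have hf : ∀ (κ : L), κ ∈ K → ∀ a : L, ∃ e' : FreeGroup (Fin k), e'.norm ≤ c ∧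
      f (κ * a) = e' * f a := by
    intro κ hκ a
    refine ⟨_, hc κ hκ (QuotientGroup.mk a), ?_⟩
    show e _ = _ * e _
    refine Eq.trans ?_ (map_mul e _ _)
    congr 1
    apply Subtype.ext
    rw [Subgroup.coe_mul]
    have h1 : (QuotientGroup.mk (κ * (QuotientGroup.mk a : I).out) : I) =
        QuotientGroup.mk (κ * a) := by
      apply QuotientGroup.eq.2
      have h2 := hmem a
      simpa [mul_assoc] using h2
    show ((QuotientGroup.mk (κ * a) : I).out)⁻¹ * (κ * a) =
      (((QuotientGroup.mk (κ * (QuotientGroup.mk a : I).out) : I).out)⁻¹ *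
        (κ * (QuotientGroup.mk a : I).out)) * (((QuotientGroup.mk a : I).out)⁻¹ * a)
    rw [h1]
    group
  have key : ∀ y, Relation.ReflTransGen (fun a b => (a ∈ {x | f x ∈ C} ↔ b ∈ {x | f x ∈ C}) ∧
      ∃ e ∈ K, b = e * a) x y → Relation.ReflTransGen (fun a b => (a ∈ C ↔ b ∈ C) ∧
        ∃ e : FreeGroup (Fin k), e.norm ≤ c ∧ b = e * a) (f x) (f y) := by
    intro y hy
    induction hy with
    | refl => exact Relation.ReflTransGen.refl
    | @tail a b _ hst ih =>
      obtain ⟨hab, κ, hκ, rfl⟩ := hst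
      obtain ⟨e', he', he''⟩ := hf κ hκ a
      exact ih.tail ⟨hab, e', he', he''⟩
  have hsub : {y | Relation.ReflTransGen (fun a b => (a ∈ {x | f x ∈ C} ↔ b ∈ {x | f x ∈ C}) ∧
      ∃ e ∈ K, b = e * a) x y} ⊆
      ⋃ a ∈ {a | Relation.ReflTransGen (fun a b => (a ∈ C ↔ b ∈ C) ∧
        ∃ e : FreeGroup (Fin k), e.norm ≤ c ∧ b = e * a) (f x) a},
        (fun i : I => i.out * (e.symm a : L)) '' Set.univ := by
    intro y hy
    refine Set.mem_biUnion (key y hy) ⟨QuotientGroup.mk y, trivial, ?_⟩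
    show (QuotientGroup.mk y : I).out * (e.symm (e _) : L) = y
    rw [MulEquiv.symm_apply_apply]
    show (QuotientGroup.mk y : I).out * (((QuotientGroup.mk y : I).out)⁻¹ * y) = y
    rw [mul_inv_cancel_left]
  refine (Set.encard_le_encard hsub).trans ?_
  apply H630.biUnion_le _ _ _ _ (hC _)
  intro a _
  refine (Set.encard_image_le _ _).trans ?_
  rw [Set.encard_univ, ENat.card_eq_coe_natCard]

end Vale.Agent.P192.H567
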