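import Mathlib

set_option linter.all false

/-! Infinite words: tails and displacements in the free group. -/

namespace Vale.Agent.P192.H567

/-- the first `n` letters of the infinite word `ξ` are replaced by the word `p` -/
def rep {X : Type} (p : List X) (n : ℕ) (ξ : ℕ → X) : ℕ → X := fun i =>
  (p[i]?).getD (ξ (n + (i - p.length)))

/-- the infinite word `ξ` is not eventually periodic -/
def Aper {X : Type} (ξ : ℕ → X) : Prop := ∀ a b : ℕ, (∀ i, ξ (a + i) = ξ (b + i)) → a = b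

/-- the first `n` letters -/
def pre {X : Type} (n : ℕ) (ξ : ℕ → X) : List X := (List.range n).map ξ

section

variable {X : Type}

theorem pre_length (n : ℕ) (ξ : ℕ → X) : (pre n ξ).length = n := by simp [pre]

theorem pre_take {n m : ℕ} (h : n ≤ m) (ξ : ℕ → X) : (pre m ξ).take n = pre n ξ := by
  unfold pre
  rw [← List.map_take, List.take_range, min_eq_left h]

theorem pre_add (a d : ℕ) (ξ : ℕ → X) : pre (a + d) ξ = pre a ξ ++ pre d (fun i => ξ (a + i)) := by
  unfold pre
  rw [List.range_add, List.map_append, List.map_map]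
  rfl

theorem pre_congr {n : ℕ} {ξ ξ' : ℕ → X} (h : ∀ i < n, ξ i = ξ' i) : pre n ξ = pre n ξ' := by
  unfold pre
  apply List.map_congr_left
  intro i hi
  exact h i (List.mem_range.1 hi)

theorem pre_inj {n : ℕ} {ξ ξ' : ℕ → X} (h : pre n ξ = pre n ξ') : ∀ i < n, ξ i = ξ' i := by
  intro i hi
  unfold pre at h
  have h1 := List.map_inj_left.1 h i (List.mem_range.2 hi)
  exact h1

theorem rep_lt {p : List X} {n : ℕ} {ξ : ℕ → X} {i : ℕ} (h : i < p.length) :
    rep p n ξ i = p[i] := by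
  unfold rep
  rw [List.getElem?_eq_getElem h]
  rfl

theorem rep_ge (p : List X) (n : ℕ) (ξ : ℕ → X) (i : ℕ) :
    rep p n ξ (p.length + i) = ξ (n + i) := by
  unfold rep
  rw [List.getElem?_eq_none (by omega), Nat.add_sub_cancel_left]
  rfl

theorem pre_rep (p : List X) (n : ℕ) (ξ : ℕ → X) (d : ℕ) :
    pre (p.length + d) (rep p n ξ) = p ++ pre d (fun i => ξ (n + i)) := by
  rw [pre_add]
  congr 1
  · apply List.ext_getElem
    · rw [pre_length]
    · intro i h1 h2
      have h3 : (pre p.length (rep p n ξ))[i] = rep p n ξ i := by simp [pre]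
      rw [h3]
      exact rep_lt h2
  · apply pre_congr
    intro i _
    exact rep_ge p n ξ i

/-- positive words in the free group -/
def pw (L : List X) : FreeGroup X := FreeGroup.mk (L.map fun x => (x, true))

theorem pw_append (L L' : List X) : pw (L ++ L') = pw L * pw L' := by
  unfold pw
  rw [FreeGroup.mul_mk, List.map_append]

theorem pw_inj {L L' : List X} (h : pw L = pw L') : L = L' := by
  classical
  have key : ∀ L : List X, FreeGroup.reduce (L.map fun x => (x, true)) = L.map fun x => (x, true) := by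
    intro L
    induction L with
    | nil => rfl
    | cons x L ih =>
      rw [List.map_cons, FreeGroup.reduce.cons, ih]
      cases L with
      | nil => rfl
      | cons y L => simp
  have h1 := congrArg FreeGroup.toWord h
  unfold pw at h1
  rw [FreeGroup.toWord_mk, FreeGroup.toWord_mk, key, key] at h1
  exact List.map_injective_iff.2 (fun x y h => congrArg Prod.fst h) h1

theorem pw_norm [DecidableEq X] (L : List X) : (pw L).norm ≤ L.length := by
  unfold pw
  refine FreeGroup.norm_mk_le.trans ?_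
  rw [List.length_map]

/-- after `a` letters `ξ'` continues like `ξ` after `b` letters -/
def Tail (ξ' ξ : ℕ → X) (a b : ℕ) : Prop := ∀ i, ξ' (a + i) = ξ (b + i)

theorem Tail.add {ξ' ξ : ℕ → X} {a b : ℕ} (h : Tail ξ' ξ a b) (d : ℕ) :
    Tail ξ' ξ (a + d) (b + d) := by
  intro i
  rw [Nat.add_assoc, Nat.add_assoc]
  exact h _

theorem tail_val {ξ' ξ : ℕ → X} {a b : ℕ} (h : Tail ξ' ξ a b) (d : ℕ) :
    pw (pre (a + d) ξ') * (pw (pre (b + d) ξ))⁻¹ = pw (pre a ξ') * (pw (pre b ξ))⁻¹ := by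
  rw [pre_add, pre_add, pw_append, pw_append]
  have h1 : pre d (fun i => ξ' (a + i)) = pre d (fun i => ξ (b + i)) :=
    pre_congr fun i _ => h i
  rw [h1]
  group

theorem tail_indep {ξ' ξ : ℕ → X} (hξ : Aper ξ) {a b a' b' : ℕ} (h : Tail ξ' ξ a b)
    (h' : Tail ξ' ξ a' b') :
    pw (pre a ξ') * (pw (pre b ξ))⁻¹ = pw (pre a' ξ') * (pw (pre b' ξ))⁻¹ := by
  wlog hle : a ≤ a' generalizing a b a' b'
  · exact (this h' h (le_of_not_ge hle)).symm
  obtain ⟨d, rfl⟩ := Nat.exists_eq_add_of_le hle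
  have h1 := h.add d
  have h2 : b' = b + d := by
    apply hξ
    intro i
    rw [← h' i, h1 i]
  rw [h2, tail_val h d]

open Classical in
/-- the displacement of `ξ'` with respect to `ξ` -/
noncomputable def kap (ξ ξ' : ℕ → X) : FreeGroup X :=
  if h : ∃ ab : ℕ × ℕ, Tail ξ' ξ ab.1 ab.2 then
    pw (pre h.choose.1 ξ') * (pw (pre h.choose.2 ξ))⁻¹ else 1

theorem kap_eq {ξ' ξ : ℕ → X} (hξ : Aper ξ) {a b : ℕ} (h : Tail ξ' ξ a b) :
    kap ξ ξ' = pw (pre a ξ') * (pw (pre b ξ))⁻¹ := by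
  have h' : ∃ ab : ℕ × ℕ, Tail ξ' ξ ab.1 ab.2 := ⟨(a, b), h⟩
  rw [kap, dif_pos h']
  exact tail_indep hξ h'.choose_spec h

theorem kap_inj {ξ' ξ'' ξ : ℕ → X} (hξ : Aper ξ) {a b a' b' : ℕ} (h : Tail ξ' ξ a b)
    (h' : Tail ξ'' ξ a' b') (hk : kap ξ ξ' = kap ξ ξ'') : ξ' = ξ'' := by
  wlog hle : b ≤ b' generalizing a b a' b' ξ' ξ''
  · exact (this h' h hk.symm (le_of_not_ge hle)).symm
  obtain ⟨d, rfl⟩ := Nat.exists_eq_add_of_le hle
  have h1 := h.add d
  rw [kap_eq hξ h1, kap_eq hξ h'] at hk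
  have h2 := pw_inj (mul_right_cancel hk)
  have h3 : a + d = a' := by
    have := congrArg List.length h2
    rwa [pre_length, pre_length] at this
  subst h3
  funext i
  by_cases hi : i < a + d
  · exact pre_inj h2 i hi
  · obtain ⟨j, rfl⟩ := Nat.exists_eq_add_of_le (not_lt.1 hi)
    rw [h1 j, h' j]

theorem Tail.rep {ξ' ξ : ℕ → X} {a b : ℕ} (h : Tail ξ' ξ a b) (p : List X) (n : ℕ) :
    Tail (rep p n ξ') ξ (p.length + a) (b + n) := by
  intro i
  rw [Nat.add_assoc, rep_ge, show n + (a + i) = a + (n + i) by omega, h, Nat.add_assoc]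

theorem kap_rep {ξ' ξ : ℕ → X} (hξ : Aper ξ) {a b : ℕ} (h : Tail ξ' ξ a b) (p : List X) (n : ℕ) :
    kap ξ (rep p n ξ') = pw p * (pw (pre n ξ'))⁻¹ * kap ξ ξ' := by
  have h1 : Tail ξ' ξ (n + a) (b + n) := by
    rw [Nat.add_comm n a]; exact h.add n
  rw [kap_eq hξ (h.rep p n), kap_eq hξ h1, pre_rep, pre_add n a ξ', pw_append,
    pw_append]
  group

/-- aperiodic words -/
theorem exists_aper [Nontrivial X] (ξ : ℕ → X) (n : ℕ) :
    ∃ ξ' : ℕ → X, Aper ξ' ∧ ∀ i < n, ξ' i = ξ i := by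
  classical
  obtain ⟨x, y, hxy⟩ := exists_pair_ne X
  let f : ℕ → X := fun i => if i < n then ξ i else if ∃ k, i = 2 ^ k then x else y
  refine ⟨f, ?_, fun i hi => by simp only [f, if_pos hi]⟩
  intro a b h
  by_contra hne
  wlog hlt : a < b generalizing a b
  · exact this b a (fun i => (h i).symm) (Ne.symm hne) (by omega)
  have h2 : b + n < 2 ^ (b + n) := Nat.lt_two_pow_self
  have h3 := h (2 ^ (b + n) - a)
  have e1 : a + (2 ^ (b + n) - a) = 2 ^ (b + n) := by omega
  rw [e1] at h3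
  have e2 : f (2 ^ (b + n)) = x := by
    simp only [f]
    rw [if_neg (by omega), if_pos ⟨_, rfl⟩]
  have e3 : f (b + (2 ^ (b + n) - a)) = y := by
    simp only [f]
    rw [if_neg (by omega), if_neg]
    rintro ⟨k, hk⟩
    have h4 : 2 ^ (b + n) < 2 ^ k := by omega
    have h5 : 2 ^ k < 2 ^ (b + n + 1) := by rw [pow_succ]; omega
    have h6 : b + n < k := (Nat.pow_lt_pow_iff_right (by norm_num)).1 h4
    have h7 : k < b + n + 1 := (Nat.pow_lt_pow_iff_right (by norm_num)).1 h5
    omega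
  rw [e2, e3] at h3
  exact hxy h3

end

end Vale.Agent.P192.H567
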