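import Vale.Agent.P192.H567.MainFree
import Vale.Agent.P192.H567.AD
import Vale.Agent.P192.H567.Seq
import Vale.Agent.P192.H630.Full

set_option linter.all false

/-! Groups of piecewise replacements on products of two sets of infinite words. -/

namespace Vale.Agent.P192.H567

open Vale.Agent.P192 Vale.Agent.P192.H593 Vale.Agent.P192.H437

theorem twoV (G : Type) [Group G] [Group.IsFinitelyPresented G] (hG : IsMulTorsion G)
    (X Y : Type) [Finite X] [Finite Y] (Ω₁ Ω₂ : Type) (p₁ : Ω₁ → ℕ → X) (p₂ : Ω₂ → ℕ → Y)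
    (hp₁ : Function.Injective p₁) (hp₂ : Function.Injective p₂)
    (hd₁ : ∀ ω n, ∃ ω', Aper (p₁ ω') ∧ ∀ i < n, p₁ ω' i = p₁ ω i)
    (hd₂ : ∀ ω n, ∃ ω', Aper (p₂ ω') ∧ ∀ i < n, p₂ ω' i = p₂ ω i)
    (ρ : G →* Equiv.Perm (Ω₁ × Ω₂))
    (hρ : ∀ g, ∃ (n : ℕ) (P : List X → List Y → List X × List Y), ∀ z,
      p₁ (ρ g z).1 = rep (P (pre n (p₁ z.1)) (pre n (p₂ z.2))).1 n (p₁ z.1) ∧
      p₂ (ρ g z).2 = rep (P (pre n (p₁ z.1)) (pre n (p₂ z.2))).2 n (p₂ z.2)) :
    Finite ρ.range := by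
  classical
  obtain ⟨S, hSf, hS⟩ := H630.exists_gens G
  obtain ⟨M, σ, hσS, hσ, -⟩ := exists_tuple G S hS
  choose nn P hP using hρ
  obtain ⟨nm, hnm⟩ : ∃ nm, ∀ l : Fin M × Bool, nn (gen σ l) ≤ nm := by
    obtain ⟨c, hc⟩ := (Set.finite_range (fun l : Fin M × Bool => nn (gen σ l))).bddAbove
    exact ⟨c, fun l => hc ⟨l, rfl⟩⟩
  -- bound for the words
  obtain ⟨c, hc⟩ : ∃ c, ∀ l : Fin M × Bool, ∀ w : List X, w.length ≤ nm → ∀ w' : List Y,
      w'.length ≤ nm → (P (gen σ l) w w').1.length + (P (gen σ l) w w').2.length + nm ≤ c := by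
    have hfin : ((fun q : (Fin M × Bool) × List X × List Y =>
        (P (gen σ q.1) q.2.1 q.2.2).1.length + (P (gen σ q.1) q.2.1 q.2.2).2.length + nm) ''
        (Set.univ ×ˢ ({w : List X | w.length ≤ nm} ×ˢ {w : List Y | w.length ≤ nm}))).Finite :=
      (Set.finite_univ.prod ((List.finite_length_le X nm).prod (List.finite_length_le Y nm))).image _
    obtain ⟨c, hc⟩ := hfin.bddAbove
    exact ⟨c, fun l w hw w' hw' => hc ⟨(l, w, w'), ⟨trivial, hw, hw'⟩, rfl⟩⟩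
  let A : Type := {w : List Y // w.length ≤ nm}
  have hA : Finite A := (List.finite_length_le Y nm).to_subtype
  obtain ⟨R, hR⟩ := main_free.{0, 0} G hG σ hσ A Y c
  obtain ⟨D, C, hC⟩ := ad_free X (R * c)
  obtain ⟨N, hN1, hN2, hN3⟩ := hR D
  letI : MulAction G (Ω₁ × Ω₂) := MulAction.compHom (Ω₁ × Ω₂) ρ
  have hsm : ∀ (g : G) (z : Ω₁ × Ω₂), g • z = ρ g z := fun _ _ => rfl
  -- aperiodic points are fixed
  have hfix : ∀ g ∈ N, ∀ ω₁ ω₂, Aper (p₁ ω₁) → Aper (p₂ ω₂) → g • ((ω₁, ω₂) : Ω₁ × Ω₂) = (ω₁, ω₂) := by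
    intro g hg ω₁ ω₂ ha₁ ha₂
    let U : Type := {x : Ω₁ // ∃ a b, Tail (p₁ x) (p₁ ω₁) a b}
    let V : Type := {x : Ω₂ // ∃ a b, Tail (p₂ x) (p₂ ω₂) a b}
    let j : U × V → Ω₁ × Ω₂ := fun z => (z.1.1, z.2.1)
    have hj : Function.Injective j := by
      rintro ⟨u, v⟩ ⟨u', v'⟩ h
      have e1 : u = u' := Subtype.ext (congrArg Prod.fst h)
      have e2 : v = v' := Subtype.ext (congrArg Prod.snd h)
      rw [e1, e2]
    have hinv : ∀ (g : G) (y : U × V), ∃ y', j y' = g • j y := by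
      rintro g ⟨⟨u, a, b, hu⟩, ⟨v, a', b', hv⟩⟩
      obtain ⟨e1, e2⟩ := hP g (u, v)
      have g1 : ∃ a b, Tail (p₁ (ρ g (u, v)).1) (p₁ ω₁) a b := by
        rw [e1]; exact ⟨_, _, hu.rep _ _⟩
      have g2 : ∃ a b, Tail (p₂ (ρ g (u, v)).2) (p₂ ω₂) a b := by
        rw [e2]; exact ⟨_, _, hv.rep _ _⟩
      exact ⟨(⟨(ρ g (u, v)).1, g1⟩, ⟨(ρ g (u, v)).2, g2⟩), rfl⟩
    obtain ⟨inst, hinst⟩ := exists_restrict j hj hinv
    have hact1 : ∀ (g : G) (u : U) (v : V), p₁ (g • ((u, v) : U × V)).1.1 =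
        rep (P g (pre (nn g) (p₁ u.1)) (pre (nn g) (p₂ v.1))).1 (nn g) (p₁ u.1) := by
      intro g u v
      rw [← (hP g (u.1, v.1)).1]
      exact congrArg (fun z : Ω₁ × Ω₂ => p₁ z.1) (hinst g (u, v))
    have hact2 : ∀ (g : G) (u : U) (v : V), p₂ (g • ((u, v) : U × V)).2.1 =
        rep (P g (pre (nn g) (p₁ u.1)) (pre (nn g) (p₂ v.1))).2 (nn g) (p₂ v.1) := by
      intro g u v
      rw [← (hP g (u.1, v.1)).2]
      exact congrArg (fun z : Ω₁ × Ω₂ => p₂ z.2) (hinst g (u, v))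
    let b : V → A := fun v => ⟨pre nm (p₂ v.1), by rw [pre_length]⟩
    let φ : Fin M × Bool → U → A → U := fun l u β =>
      if h : ∃ v, b v = β then (gen σ l • ((u, h.choose) : U × V)).1 else u
    let hh : Fin M × Bool → U → A → FreeGroup Y := fun l u β =>
      pw (P (gen σ l) (pre (nn (gen σ l)) (p₁ u.1)) (β.1.take (nn (gen σ l)))).2 *
        (pw (β.1.take (nn (gen σ l))))⁻¹
    have hpre : ∀ l (v : V), ((b v).1.take (nn (gen σ l))) = pre (nn (gen σ l)) (p₂ v.1) := by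
      intro l v
      exact pre_take (hnm l) _
    have hφ : ∀ l u v, (gen σ l • ((u, v) : U × V)).1 = φ l u (b v) := by
      intro l u v
      have h : ∃ v', b v' = b v := ⟨v, rfl⟩
      show _ = dite _ _ _
      rw [dif_pos h]
      apply Subtype.ext
      apply hp₁
      rw [hact1, hact1]
      have e1 : pre (nn (gen σ l)) (p₂ v.1) = pre (nn (gen σ l)) (p₂ h.choose.1) := by
        rw [← hpre l v, ← hpre l h.choose, h.choose_spec]
      rw [e1]
    let κ₁ : U → FreeGroup X := fun u => kap (p₁ ω₁) (p₁ u.1)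
    let κ₂ : V → FreeGroup Y := fun v => kap (p₂ ω₂) (p₂ v.1)
    have hκ₁ : Function.Injective κ₁ := by
      intro u u' h
      obtain ⟨a, b, hu⟩ := u.2
      obtain ⟨a', b', hu'⟩ := u'.2
      exact Subtype.ext (hp₁ (kap_inj ha₁ hu hu' h))
    have hκ₂ : Function.Injective κ₂ := by
      intro u u' h
      obtain ⟨a, b, hu⟩ := u.2
      obtain ⟨a', b', hu'⟩ := u'.2
      exact Subtype.ext (hp₂ (kap_inj ha₂ hu hu' h))
    have hmove : ∀ l u (β : A), ∃ k : FreeGroup X, k.norm ≤ c ∧ κ₁ (φ l u β) = k * κ₁ u := by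
      intro l u β
      by_cases h : ∃ v, b v = β
      · obtain ⟨v, rfl⟩ := h
        rw [← hφ]
        obtain ⟨a, b', hu⟩ := u.2
        refine ⟨pw (P (gen σ l) (pre (nn (gen σ l)) (p₁ u.1)) (pre (nn (gen σ l)) (p₂ v.1))).1 *
          (pw (pre (nn (gen σ l)) (p₁ u.1)))⁻¹, ?_, ?_⟩
        · refine (FreeGroup.norm_mul_le _ _).trans ?_
          rw [FreeGroup.norm_inv_eq]
          have h1 := pw_norm (P (gen σ l) (pre (nn (gen σ l)) (p₁ u.1))
            (pre (nn (gen σ l)) (p₂ v.1))).1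
          have h2 := pw_norm (pre (nn (gen σ l)) (p₁ u.1))
          have h3 := hc l (pre (nn (gen σ l)) (p₁ u.1)) (by rw [pre_length]; exact hnm l)
            (pre (nn (gen σ l)) (p₂ v.1)) (by rw [pre_length]; exact hnm l)
          have h4 := hnm l
          rw [pre_length] at h2
          omega
        · show kap (p₁ ω₁) (p₁ (gen σ l • ((u, v) : U × V)).1.1) = _ * kap (p₁ ω₁) (p₁ u.1)
          rw [hact1, kap_rep ha₁ hu]
      · refine ⟨1, by simp, ?_⟩
        have : φ l u β = u := dif_neg h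
        rw [this, one_mul]
    have key := hN3 U V κ₂ b φ hh hκ₂ ?_ ?_ {u | κ₁ u ∈ C} ?_ g hg
      (⟨ω₁, 0, 0, fun _ => rfl⟩, ⟨ω₂, 0, 0, fun _ => rfl⟩)
    · have h1 := hinst g (⟨ω₁, 0, 0, fun _ => rfl⟩, ⟨ω₂, 0, 0, fun _ => rfl⟩)
      rw [key] at h1
      exact h1.symm
    · intro l u β
      refine (FreeGroup.norm_mul_le _ _).trans ?_
      rw [FreeGroup.norm_inv_eq]
      have h1 := pw_norm (P (gen σ l) (pre (nn (gen σ l)) (p₁ u.1)) (β.1.take (nn (gen σ l)))).2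
      have h2 := pw_norm (β.1.take (nn (gen σ l)))
      have h5 : (β.1.take (nn (gen σ l))).length ≤ nm := by
        rw [List.length_take]; exact (min_le_right _ _).trans β.2
      have h3 := hc l (pre (nn (gen σ l)) (p₁ u.1)) (by rw [pre_length]; exact hnm l)
        (β.1.take (nn (gen σ l))) h5
      omega
    · intro l u v
      refine ⟨hφ l u v, ?_⟩
      obtain ⟨a, b', hv⟩ := v.2
      show kap (p₂ ω₂) (p₂ (gen σ l • ((u, v) : U × V)).2.1) =
        (pw (P (gen σ l) (pre (nn (gen σ l)) (p₁ u.1)) ((b v).1.take (nn (gen σ l)))).2 *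
        (pw ((b v).1.take (nn (gen σ l))))⁻¹) * kap (p₂ ω₂) (p₂ v.1)
      rw [hact2, kap_rep ha₂ hv, hpre]
    · intro u
      have hhop : ∀ n x y, hopN (fun x y => ∃ l α, y = φ l x α) n x y →
          ∃ k : FreeGroup X, k.norm ≤ n * c ∧ κ₁ y = k * κ₁ x := by
        intro n x
        induction n with
        | zero =>
          intro y h
          have h' : y = x := h
          exact ⟨1, by simp, by rw [h', one_mul]⟩
        | succ n ih =>
          rintro y ⟨x', h1, h2⟩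
          obtain ⟨k, hk, hk'⟩ := ih _ h1
          rcases h2 with rfl | ⟨l, α, rfl⟩
          · refine ⟨k, hk.trans ?_, hk'⟩
            exact Nat.mul_le_mul_right c (Nat.le_succ n)
          · obtain ⟨k', h3, h4⟩ := hmove l x' α
            refine ⟨k' * k, ?_, by rw [h4, hk', mul_assoc]⟩
            have h5 := FreeGroup.norm_mul_le k' k
            rw [Nat.succ_mul]; omega
      rw [← hκ₁.encard_image]
      refine (Set.encard_le_encard ?_).trans (hC (κ₁ u))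
      rintro _ ⟨u', hu', rfl⟩
      have hu'' : Relation.ReflTransGen (fun x y => (x ∈ {u | κ₁ u ∈ C} ↔ y ∈ {u | κ₁ u ∈ C}) ∧
        hopN (fun x y => ∃ l α, y = φ l x α) R x y) u u' := hu'
      show Relation.ReflTransGen _ (κ₁ u) (κ₁ u')
      clear hu'
      induction hu'' with
      | refl => exact Relation.ReflTransGen.refl
      | @tail x y _ hst ih =>
        obtain ⟨hab, h1⟩ := hst
        obtain ⟨k, hk, hk'⟩ := hhop R x y h1
        exact ih.tail ⟨hab, k, hk, hk'⟩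
  refine range_finite_of_kernel ρ N hN2 ?_
  intro g hg
  ext1 z
  obtain ⟨x₁, hx₁, hx₁'⟩ := hd₁ z.1 (nn g)
  obtain ⟨x₂, hx₂, hx₂'⟩ := hd₂ z.2 (nn g)
  have h1 := hfix g hg x₁ x₂ hx₁ hx₂
  obtain ⟨e1, e2⟩ := hP g (x₁, x₂)
  rw [← hsm, h1] at e1 e2
  have e1' : p₁ x₁ = rep (P g (pre (nn g) (p₁ x₁)) (pre (nn g) (p₂ x₂))).1 (nn g) (p₁ x₁) := e1
  have e2' : p₂ x₂ = rep (P g (pre (nn g) (p₁ x₁)) (pre (nn g) (p₂ x₂))).2 (nn g) (p₂ x₂) := e2
  rw [pre_congr hx₁', pre_congr hx₂'] at e1' e2'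
  obtain ⟨f1, f2⟩ := hP g z
  -- a replacement fixing an aperiodic word is trivial
  have triv : ∀ {T : Type} (x y : ℕ → T) (p : List T) (n : ℕ), Aper x → (∀ i < n, x i = y i) →
      x = rep p n x → rep p n y = y := by
    intro T x y p n hx hxy hrep
    have g1 : p.length = n := by
      apply hx
      intro i
      rw [← rep_ge p n x i, ← hrep]
    funext i
    by_cases hi : i < p.length
    · rw [rep_lt hi, ← hxy i (by omega), ← rep_lt (ξ := x) (n := n) hi, ← hrep]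
    · obtain ⟨k, rfl⟩ := Nat.exists_eq_add_of_le (not_lt.1 hi)
      rw [rep_ge, g1]
  apply Prod.ext
  · apply hp₁
    rw [f1]
    exact triv _ _ _ _ hx₁ hx₁' e1'
  · apply hp₂
    rw [f2]
    exact triv _ _ _ _ hx₂ hx₂' e2'

end Vale.Agent.P192.H567
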