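import Vale.Agent.P192.H567.CtPart
import Vale.Agent.P192.H567.TwoV

set_option linter.all false

/-! Groups of piecewise replacements on products of two sets of infinite words, with counters. -/

namespace Vale.Agent.P192.H567

open Vale.Agent.P192 Vale.Agent.P192.H593 Vale.Agent.P192.H437

theorem ad_free_fin (X : Type) [Finite X] (E : Set (FreeGroup X)) (hE : E.Finite) :
    ∃ m : ℕ, ∃ C : Set (FreeGroup X), ∀ x : FreeGroup X,
      {y | Relation.ReflTransGen (fun a b => (a ∈ C ↔ b ∈ C) ∧ ∃ e ∈ E, b = e * a) x y}.encard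
        ≤ m := by
  classical
  obtain ⟨c, hc⟩ : ∃ c : ℕ, ∀ e ∈ E, e.norm ≤ c := by
    obtain ⟨c, hc⟩ := (hE.image FreeGroup.norm).bddAbove
    exact ⟨c, fun e he => hc ⟨e, he, rfl⟩⟩
  obtain ⟨m, C, hC⟩ := ad_free X c
  refine ⟨m, C, fun x => (Set.encard_le_encard ?_).trans (hC x)⟩
  intro y hy
  refine Relation.ReflTransGen.mono ?_ _ _ hy
  rintro a b ⟨h1, e, he, h2⟩
  exact ⟨h1, e, hc e he, h2⟩

theorem exists_free_rank (Y : Type) [Finite Y] :
    ∃ rk : ℕ, Nonempty ((⊤ : Subgroup (FreeGroup Y)) ≃* FreeGroup (Fin rk)) := by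
  obtain ⟨n, ⟨e⟩⟩ := Finite.exists_equiv_fin Y
  exact ⟨n, ⟨Subgroup.topEquiv.trans (FreeGroup.freeGroupCongr e)⟩⟩

/-- a replacement fixing an aperiodic word is trivial -/
theorem rep_triv {T : Type} (x y : ℕ → T) (p : List T) (n : ℕ) (hx : Aper x)
    (hxy : ∀ i < n, x i = y i) (hrep : x = rep p n x) : rep p n y = y := by
  have g1 : p.length = n := by
    apply hx
    intro i
    rw [← rep_ge p n x i, ← hrep]
  funext i
  by_cases hi : i < p.length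
  · rw [rep_lt hi, ← hxy i (by omega), ← rep_lt (ξ := x) (n := n) hi, ← hrep]
  · obtain ⟨k, rfl⟩ := Nat.exists_eq_add_of_le (not_lt.1 hi)
    rw [rep_ge, g1]

theorem ctV (G : Type) [Group G] [Group.IsFinitelyPresented G] (hG : IsMulTorsion G)
    (X Y : Type) [Finite X] [Finite Y] (Ω₁ Ω₂ : Type) (p₁ : Ω₁ → ℕ → X) (p₂ : Ω₂ → ℕ → Y)
    (hp₁ : Function.Injective p₁) (hp₂ : Function.Injective p₂)
    (hd₁ : ∀ ω n, ∃ ω', Aper (p₁ ω') ∧ ∀ i < n, p₁ ω' i = p₁ ω i)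
    (hd₂ : ∀ ω n, ∃ ω', Aper (p₂ ω') ∧ ∀ i < n, p₂ ω' i = p₂ ω i)
    (k : ℕ) (W : Fin k → Type) (T : ∀ i, Equiv.Perm (W i))
    (ρ : G →* Equiv.Perm (Ω₁ × (∀ i, W i) × Ω₂))
    (hρ : ∀ g, ∃ (n : ℕ) (a : ∀ i, W i → Fin n)
      (P : List X → (Fin k → Fin n) → List Y → List X × (Fin k → ℤ) × List Y), ∀ z,
      p₁ (ρ g z).1 = rep (P (pre n (p₁ z.1)) (fun i => a i (z.2.1 i)) (pre n (p₂ z.2.2))).1
        n (p₁ z.1) ∧
      (ρ g z).2.1 = (fun i => (T i ^ (P (pre n (p₁ z.1)) (fun i => a i (z.2.1 i))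
        (pre n (p₂ z.2.2))).2.1 i) (z.2.1 i)) ∧
      p₂ (ρ g z).2.2 = rep (P (pre n (p₁ z.1)) (fun i => a i (z.2.1 i)) (pre n (p₂ z.2.2))).2.2
        n (p₂ z.2.2)) :
    Finite ρ.range := by
  classical
  obtain ⟨S, hSf, hS⟩ := H630.exists_gens G
  choose nn a P hP using hρ
  set S' : Set G := S ∪ S⁻¹ with hS'
  have hS'f : S'.Finite := hSf.union hSf.inv
  obtain ⟨nm, hnm⟩ := H630.exists_bound hS'f nn
  let A : Type := {w : List Y // w.length ≤ nm}
  have hA : Finite A := (List.finite_length_le Y nm).to_subtype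
  let m : ℕ := nm + Nat.card A
  let εA : A → Fin m := fun x => Fin.castLE (Nat.le_add_left _ _) (Finite.equivFin A x)
  have hεA : Function.Injective εA := (Fin.castLE_injective _).comp (Finite.equivFin A).injective
  have hnm' : ∀ s ∈ S', nn s ≤ m := fun s hs => (hnm s hs).trans (Nat.le_add_right _ _)
  let one : FreeGroup X × (Fin k → ℤ) × FreeGroup Y := (1, 0, 1)
  let val : ∀ s : G, List X → (Fin k → Fin (nn s)) → List Y →
      FreeGroup X × (Fin k → ℤ) × FreeGroup Y := fun s w α w' =>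
    (pw (P s w α w').1 * (pw w)⁻¹, (P s w α w').2.1, pw (P s w α w').2.2 * (pw w')⁻¹)
  let K : Set (FreeGroup X × (Fin k → ℤ) × FreeGroup Y) := insert one (⋃ s ∈ S',
    (fun q : List X × (Fin k → Fin (nn s)) × List Y => val s q.1 q.2.1 q.2.2) ''
      ({w : List X | w.length ≤ nm} ×ˢ (Set.univ ×ˢ {w : List Y | w.length ≤ nm})))
  have hK : K.Finite := by
    refine (hS'f.biUnion fun s _ => ?_).insert _
    refine Set.Finite.image _ ?_
    exact (List.finite_length_le X nm).prod (Set.finite_univ.prod (List.finite_length_le Y nm))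
  obtain ⟨rk, ⟨e⟩⟩ := exists_free_rank Y
  obtain ⟨N, hN1, hN2, hN3⟩ := ct_part G hG S hS (FreeGroup X) (FreeGroup Y)
    (fun E hE => ad_free_fin X E hE) ⊤ rk e k m K hK
  letI : MulAction G (Ω₁ × (∀ i, W i) × Ω₂) := MulAction.compHom _ ρ
  have hsm : ∀ (g : G) (z : Ω₁ × (∀ i, W i) × Ω₂), g • z = ρ g z := fun _ _ => rfl
  -- aperiodic points are fixed
  have hfix : ∀ g ∈ N, ∀ ω₁ (w₀ : ∀ i, W i) ω₂, Aper (p₁ ω₁) → Aper (p₂ ω₂) →
      g • ((ω₁, w₀, ω₂) : Ω₁ × (∀ i, W i) × Ω₂) = (ω₁, w₀, ω₂) := by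
    intro g hg ω₁ w₀ ω₂ ha₁ ha₂
    let U : Type := {x : Ω₁ // ∃ a b, Tail (p₁ x) (p₁ ω₁) a b}
    let V : Type := {x : Ω₂ // ∃ a b, Tail (p₂ x) (p₂ ω₂) a b}
    let j : U × (∀ i, W i) × V → Ω₁ × (∀ i, W i) × Ω₂ := fun z => (z.1.1, z.2.1, z.2.2.1)
    have hj : Function.Injective j := by
      rintro ⟨u, w, v⟩ ⟨u', w', v'⟩ h
      have e1 : u = u' := Subtype.ext (congrArg Prod.fst h)
      have e2 : w = w' := congrArg (fun q : Ω₁ × (∀ i, W i) × Ω₂ => q.2.1) h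
      have e3 : v = v' := Subtype.ext (congrArg (fun q : Ω₁ × (∀ i, W i) × Ω₂ => q.2.2) h)
      rw [e1, e2, e3]
    have hinv : ∀ (g : G) (y : U × (∀ i, W i) × V), ∃ y', j y' = g • j y := by
      rintro g ⟨⟨u, a, b, hu⟩, w, ⟨v, a', b', hv⟩⟩
      obtain ⟨e1, e2, e3⟩ := hP g (u, w, v)
      have g1 : ∃ a b, Tail (p₁ (ρ g (u, w, v)).1) (p₁ ω₁) a b := by
        rw [e1]; exact ⟨_, _, hu.rep _ _⟩
      have g2 : ∃ a b, Tail (p₂ (ρ g (u, w, v)).2.2) (p₂ ω₂) a b := by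
        rw [e3]; exact ⟨_, _, hv.rep _ _⟩
      exact ⟨(⟨(ρ g (u, w, v)).1, g1⟩, (ρ g (u, w, v)).2.1, ⟨(ρ g (u, w, v)).2.2, g2⟩), rfl⟩
    obtain ⟨inst, hinst⟩ := exists_restrict j hj hinv
    have hact1 : ∀ (g : G) (u : U) (w : ∀ i, W i) (v : V),
        p₁ (g • ((u, w, v) : U × (∀ i, W i) × V)).1.1 =
        rep (P g (pre (nn g) (p₁ u.1)) (fun i => a g i (w i)) (pre (nn g) (p₂ v.1))).1
          (nn g) (p₁ u.1) := by
      intro g u w v
      rw [← (hP g (u.1, w, v.1)).1]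
      exact congrArg (fun z : Ω₁ × (∀ i, W i) × Ω₂ => p₁ z.1) (hinst g (u, w, v))
    have hact2 : ∀ (g : G) (u : U) (w : ∀ i, W i) (v : V),
        (g • ((u, w, v) : U × (∀ i, W i) × V)).2.1 =
        (fun i => (T i ^ (P g (pre (nn g) (p₁ u.1)) (fun i => a g i (w i))
          (pre (nn g) (p₂ v.1))).2.1 i) (w i)) := by
      intro g u w v
      rw [← (hP g (u.1, w, v.1)).2.1]
      exact congrArg (fun z : Ω₁ × (∀ i, W i) × Ω₂ => z.2.1) (hinst g (u, w, v))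
    have hact3 : ∀ (g : G) (u : U) (w : ∀ i, W i) (v : V),
        p₂ (g • ((u, w, v) : U × (∀ i, W i) × V)).2.2.1 =
        rep (P g (pre (nn g) (p₁ u.1)) (fun i => a g i (w i)) (pre (nn g) (p₂ v.1))).2.2
          (nn g) (p₂ v.1) := by
      intro g u w v
      rw [← (hP g (u.1, w, v.1)).2.2]
      exact congrArg (fun z : Ω₁ × (∀ i, W i) × Ω₂ => p₂ z.2.2) (hinst g (u, w, v))
    let κ₁ : U → FreeGroup X := fun u => kap (p₁ ω₁) (p₁ u.1)
    let κ₂ : V → FreeGroup Y := fun v => kap (p₂ ω₂) (p₂ v.1)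
    have hκ₁ : Function.Injective κ₁ := by
      intro u u' h
      obtain ⟨a, b, hu⟩ := u.2
      obtain ⟨a', b', hu'⟩ := u'.2
      exact Subtype.ext (hp₁ (kap_inj ha₁ hu hu' h))
    have hκ₂ : Function.Injective κ₂ := by
      intro u u' h
      obtain ⟨a, b, hu⟩ := u.2
      obtain ⟨a', b', hu'⟩ := u'.2
      exact Subtype.ext (hp₂ (kap_inj ha₂ hu hu' h))
    let b : V → A := fun v => ⟨pre nm (p₂ v.1), by rw [pre_length]⟩
    have hfree : ∀ (E : Type) (l : FreeGroup E) (u : FreeGroup E), l • u = u → l = 1 := by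
      intro E l u h
      exact mul_eq_right.1 h
    have key := hN3 (FreeGroup X) (FreeGroup Y) W T (hfree X) (hfree Y) U V κ₁ κ₂ hκ₁ hκ₂
      (MulAction.toPermHom G (U × (∀ i, W i) × V)) ?_ g hg
    · have h1 := hinst g (⟨ω₁, 0, 0, fun _ => rfl⟩, w₀, ⟨ω₂, 0, 0, fun _ => rfl⟩)
      have h2 : g • ((⟨ω₁, 0, 0, fun _ => rfl⟩, w₀, ⟨ω₂, 0, 0, fun _ => rfl⟩) :
          U × (∀ i, W i) × V) = MulAction.toPermHom G (U × (∀ i, W i) × V) g
            (⟨ω₁, 0, 0, fun _ => rfl⟩, w₀, ⟨ω₂, 0, 0, fun _ => rfl⟩) := rfl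
      rw [h2, key] at h1
      exact h1.symm
    · intro s hs
      have hsS : s ∈ S' := hs.imp id (fun h => h)
      have hns := hnm s hsS
      let a' : ∀ i, W i → Fin m := fun i x => Fin.castLE (hnm' s hsS) (a s i x)
      let fz : U × (∀ i, W i) × V → FreeGroup X × (Fin k → ℤ) × FreeGroup Y := fun z =>
        val s (pre (nn s) (p₁ z.1.1)) (fun i => a s i (z.2.1 i)) (pre (nn s) (p₂ z.2.2.1))
      have hfz : ∀ z, fz z ∈ K := by
        intro z
        refine Or.inr (Set.mem_biUnion hsS ⟨(pre (nn s) (p₁ z.1.1), (fun i => a s i (z.2.1 i)),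
          pre (nn s) (p₂ z.2.2.1)), ⟨?_, trivial, ?_⟩, rfl⟩)
        · show (pre (nn s) (p₁ z.1.1)).length ≤ nm
          rw [pre_length]; exact hns
        · show (pre (nn s) (p₂ z.2.2.1)).length ≤ nm
          rw [pre_length]; exact hns
      refine ⟨a', fun v => εA (b v), fun u α β =>
        if h : ∃ z : U × (∀ i, W i) × V, z.1 = u ∧ (fun i => a' i (z.2.1 i)) = α ∧
          εA (b z.2.2) = β then fz h.choose else one, ?_, ?_⟩
      · intro u α β
        by_cases h : ∃ z : U × (∀ i, W i) × V, z.1 = u ∧ (fun i => a' i (z.2.1 i)) = α ∧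
          εA (b z.2.2) = β
        · simp only [dif_pos h]; exact hfz _
        · simp only [dif_neg h]; exact Or.inl rfl
      · intro u w v
        have h : ∃ z : U × (∀ i, W i) × V, z.1 = u ∧ (fun i => a' i (z.2.1 i)) =
          (fun i => a' i (w i)) ∧ εA (b z.2.2) = εA (b v) := ⟨(u, w, v), rfl, rfl, rfl⟩
        simp only [dif_pos h]
        have h1 : fz h.choose = fz (u, w, v) := by
          obtain ⟨g1, g2, g3⟩ := h.choose_spec
          generalize h.choose = z₀ at g1 g2 g3 ⊢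
          have g4 : (fun i => a s i (z₀.2.1 i)) = (fun i => a s i (w i)) := by
            funext i
            exact Fin.castLE_injective _ (congrFun g2 i)
          have g5 : pre (nn s) (p₂ z₀.2.2.1) = pre (nn s) (p₂ v.1) := by
            have g6 : pre nm (p₂ z₀.2.2.1) = pre nm (p₂ v.1) := congrArg Subtype.val (hεA g3)
            rw [← pre_take hns, ← pre_take hns (p₂ v.1), g6]
          show val s _ _ _ = val s _ _ _
          rw [g1, g4, g5]
        rw [h1]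
        obtain ⟨a₁, b₁, hu⟩ := u.2
        obtain ⟨a₂, b₂, hv⟩ := v.2
        refine ⟨?_, ?_, ?_⟩
        · show kap (p₁ ω₁) (p₁ (s • ((u, w, v) : U × (∀ i, W i) × V)).1.1) = _
          rw [hact1, kap_rep ha₁ hu]
          rfl
        · show (s • ((u, w, v) : U × (∀ i, W i) × V)).2.1 = _
          rw [hact2]
        · show kap (p₂ ω₂) (p₂ (s • ((u, w, v) : U × (∀ i, W i) × V)).2.2.1) = _
          rw [hact3, kap_rep ha₂ hv]
          rfl
  refine range_finite_of_kernel ρ N hN2 ?_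
  intro g hg
  ext1 z
  obtain ⟨x₁, hx₁, hx₁'⟩ := hd₁ z.1 (nn g)
  obtain ⟨x₂, hx₂, hx₂'⟩ := hd₂ z.2.2 (nn g)
  have h1 := hfix g hg x₁ z.2.1 x₂ hx₁ hx₂
  obtain ⟨e1, e2, e3⟩ := hP g (x₁, z.2.1, x₂)
  rw [← hsm, h1] at e1 e2 e3
  have e1' : p₁ x₁ = rep (P g (pre (nn g) (p₁ x₁)) (fun i => a g i (z.2.1 i))
    (pre (nn g) (p₂ x₂))).1 (nn g) (p₁ x₁) := e1
  have e2' : z.2.1 = (fun i => (T i ^ (P g (pre (nn g) (p₁ x₁)) (fun i => a g i (z.2.1 i))
    (pre (nn g) (p₂ x₂))).2.1 i) (z.2.1 i)) := e2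
  have e3' : p₂ x₂ = rep (P g (pre (nn g) (p₁ x₁)) (fun i => a g i (z.2.1 i))
    (pre (nn g) (p₂ x₂))).2.2 (nn g) (p₂ x₂) := e3
  rw [pre_congr hx₁', pre_congr hx₂'] at e1' e2' e3'
  obtain ⟨f1, f2, f3⟩ := hP g z
  refine Prod.ext ?_ (Prod.ext ?_ ?_)
  · apply hp₁
    rw [f1]
    exact rep_triv _ _ _ _ hx₁ hx₁' e1'
  · rw [f2]
    exact e2'.symm
  · apply hp₂
    rw [f3]
    exact rep_triv _ _ _ _ hx₂ hx₂' e3'

end Vale.Agent.P192.H567
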