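import Vale.Agent.P192.H567.ZStepC
import Vale.Agent.P192.H437.Free

set_option linter.all false

/-! Products with a set with a permutation. -/

namespace Vale.Agent.P192.H567

open Vale.Agent.P192 Vale.Agent.P192.H593 Vale.Agent.P192.H437 Vale.Agent.P192.R2.H360

theorem exists_pres (G : Type) [Group G] [Group.IsFinitelyPresented G] {M : ℕ} (σ : Fin M → G)
    (hσ : Subgroup.closure (Set.range σ) = ⊤) : ∃ (R : Set (FreeGroup (Fin M))) (r : ℕ), 2 ≤ r ∧
      (∀ w ∈ R, w.norm ≤ r) ∧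
      Subgroup.normalClosure R = (FreeGroup.lift σ : FreeGroup (Fin M) →* G).ker := by
  obtain ⟨R, hRfin, hRker⟩ := pres_of_gen G σ hσ
  obtain ⟨r0, hr0⟩ : ∃ r0, ∀ w ∈ R, w.norm ≤ r0 := by
    obtain ⟨b, hb⟩ := (hRfin.image FreeGroup.norm).bddAbove
    exact ⟨b, fun w hw => hb ⟨w, hw, rfl⟩⟩
  exact ⟨R, max 2 r0, le_max_left _ _, fun w hw => (hr0 w hw).trans (le_max_right _ _), hRker⟩

theorem stepD {L : Type} [Group L] (c : Cls L) (hUF : UF c) (G : Type) [Group G]
    [Group.IsFinitelyPresented G] (hG : IsMulTorsion G) {M : ℕ} (σ : Fin M → G)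
    (hσ : Subgroup.closure (Set.range σ) = ⊤) (n m κ : ℕ) (A : Type) [Finite A] (K : Set L)
    (hK : K.Finite) :
    ∃ N : Subgroup G, N.Normal ∧ N.FiniteIndex ∧
      ∀ (I : Type) [Finite I], Nat.card I ≤ n →
      ∀ (Y : Type) [MulAction L Y] (b : Y → c.C m), c.P m Y b →
      ∀ (f : Fin M × Bool → I → A → c.C m → I × ℤ × L), (∀ l i β γ, |(f l i β γ).2.1| ≤ κ) →
      (∀ l i β γ, (f l i β γ).2.2 ∈ K) → ∀ (α : ℤ → A) (ρ : G →* Equiv.Perm (I × ℤ × Y)),
      (∀ l q, ρ (gen σ l) q = zst f α b l q) → ∀ g ∈ N, ρ g = 1 := by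
  classical
  obtain ⟨R, r, hr, hR, hRk⟩ := exists_pres G σ hσ
  obtain ⟨R₁, hR₁⟩ := uniform_colour.{0, 0} G hG (Set.range σ) hσ
  set ℓ : ℕ := κ * R₁ + 1 with hℓ
  obtain ⟨KC, hKC⟩ := stepC c hUF G hG σ hσ R r hr hR hRk n m κ (ℓ + 2 * (κ * R₁)) A K hK
  obtain ⟨N, hN1, hN2, hN3⟩ := hR₁ KC
  refine ⟨N, hN1, hN2, ?_⟩
  intro I _ hI Y _ b hb f hf1 hf2 α ρ hρ g hg
  have hgood : SGood R (zst f α b) := good_of_hom σ hRk ρ hρ
  letI : MulAction G (I × ℤ × Y) := MulAction.compHom _ ρ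
  have hsm : ∀ (g : G) (q : I × ℤ × Y), g • q = ρ g q := fun _ _ => rfl
  ext1 q
  refine hN3 (I × ℤ × Y) {q | Even (q.2.1 / (ℓ : ℤ))} ?_ g hg q
  clear hg g q
  intro q
  have hℓ0 : (0 : ℤ) < ℓ := by exact_mod_cast Nat.succ_pos _
  set x : ℤ := (q.2.1 / ℓ) * ℓ - κ * R₁ with hx
  set y : ℤ := (q.2.1 / ℓ) * ℓ + ℓ + κ * R₁ with hy
  have hκR : (0 : ℤ) ≤ κ * R₁ := by positivity
  refine le_trans (Set.encard_le_encard ?_)
    (hKC I hI Y b hb f hf1 hf2 α hgood x y (by omega) (by rw [hx, hy]; push_cast; linarith) q)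
  -- one element of a list
  have hlist : ∀ (a : I × ℤ × Y), a.2.1 / (ℓ : ℤ) = q.2.1 / ℓ → ∀ w : List G,
      (∀ s ∈ w, s ∈ Set.range σ ∨ s⁻¹ ∈ Set.range σ) → w.length ≤ R₁ →
      |(w.prod • a).2.1 - a.2.1| ≤ (κ * w.length : ℕ) ∧
      Relation.ReflTransGen (fun a a' : I × ℤ × Y => (x ≤ a.2.1 ∧ a.2.1 ≤ y) ∧
        ∃ l, zst f α b l a = a') a (w.prod • a) := by
    intro a ha w
    induction w with
    | nil => intro _ _; simp [Relation.ReflTransGen.refl]
    | cons s w ih =>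
      intro hw hlen
      rw [List.length_cons] at hlen
      obtain ⟨h1, h2⟩ := ih (fun t ht => hw t (by simp [ht])) (by omega)
      obtain ⟨l, hl⟩ : ∃ l, s = gen σ l := by
        rcases hw s (by simp) with ⟨i, hi⟩ | ⟨i, hi⟩
        · exact ⟨(i, true), hi.symm⟩
        · refine ⟨(i, false), ?_⟩
          show s = (σ i)⁻¹
          rw [hi, inv_inv]
      rw [List.prod_cons, mul_smul, hl, hsm, hρ]
      have h3 := hf1 l (w.prod • a).1 (α (w.prod • a).2.1) (b (w.prod • a).2.2)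
      constructor
      · have e : (zst f α b l (w.prod • a)).2.1 - a.2.1 = ((w.prod • a).2.1 - a.2.1) +
            (f l (w.prod • a).1 (α (w.prod • a).2.1) (b (w.prod • a).2.2)).2.1 := by
          unfold zst; simp only; ring
        rw [e]
        refine (abs_add_le _ _).trans ?_
        have h2' : ((κ * (s :: w).length : ℕ) : ℤ) = (κ * w.length : ℕ) + κ := by
          rw [List.length_cons]; push_cast; ring
        rw [List.length_cons] at h2' ⊢
        rw [h2']
        exact add_le_add h1 h3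
      · refine h2.tail ⟨?_, l, rfl⟩
        have h4 : ((κ * w.length : ℕ) : ℤ) ≤ κ * R₁ := by
          exact_mod_cast Nat.mul_le_mul_left κ (by omega)
        have h5 := Int.emod_add_mul_ediv a.2.1 ℓ
        have h6 := Int.emod_nonneg a.2.1 hℓ0.ne'
        have h7 := Int.emod_lt_of_pos a.2.1 hℓ0
        rw [ha] at h5
        rw [abs_le] at h1
        rw [hx, hy]
        constructor <;> nlinarith
  intro q' hq'
  have hq'' : mono (Set.range σ) R₁ {q : I × ℤ × Y | Even (q.2.1 / (ℓ : ℤ))} q q' := hq'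
  clear hq'
  have key : q'.2.1 / (ℓ : ℤ) = q.2.1 / ℓ ∧
      Relation.ReflTransGen (fun a a' : I × ℤ × Y => (x ≤ a.2.1 ∧ a.2.1 ≤ y) ∧
        ∃ l, zst f α b l a = a') q q' := by
    induction hq'' with
    | refl => exact ⟨rfl, Relation.ReflTransGen.refl⟩
    | @tail a a' _ hst ih =>
      obtain ⟨hab, w, hw, hwR, rfl⟩ := hst
      obtain ⟨h1, h2⟩ := hlist a ih.1 w hw hwR
      refine ⟨?_, ih.2.trans h2⟩
      rw [← ih.1]
      apply ediv_eq_of_close hℓ0 _ hab
      have h4 : ((κ * w.length : ℕ) : ℤ) ≤ κ * R₁ := by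
        exact_mod_cast Nat.mul_le_mul_left κ hwR
      have h5 : ((ℓ : ℕ) : ℤ) = κ * R₁ + 1 := by rw [hℓ]; push_cast; ring
      linarith
  exact key.2

/-- products with a set with a permutation -/
theorem stepZ {L : Type} [Group L] (c : Cls L) (hUF : UF c) (G : Type) [Group G]
    [Group.IsFinitelyPresented G] (hG : IsMulTorsion G) {M : ℕ} (σ : Fin M → G)
    (hσ : Subgroup.closure (Set.range σ) = ⊤) (n m : ℕ) (A : Type) [Finite A] (K : Set (ℤ × L))
    (hK : K.Finite) :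
    ∃ N : Subgroup G, N.Normal ∧ N.FiniteIndex ∧
      ∀ (I : Type) [Finite I], Nat.card I ≤ n → ∀ (W : Type) (T : Equiv.Perm W),
      ∀ (Y : Type) [MulAction L Y] (b : Y → c.C m), c.P m Y b → ∀ (α : W → A)
      (f : Fin M × Bool → I → A → c.C m → I × ℤ × L), (∀ l i β γ, (f l i β γ).2 ∈ K) →
      ∀ ρ : G →* Equiv.Perm (I × W × Y),
      (∀ l i w y, ρ (gen σ l) (i, w, y) = ((f l i (α w) (b y)).1,
        (T ^ (f l i (α w) (b y)).2.1) w, (f l i (α w) (b y)).2.2 • y)) → ∀ g ∈ N, ρ g = 1 := by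
  classical
  obtain ⟨R, r, hr, hR, hRk⟩ := exists_pres G σ hσ
  obtain ⟨κ, hκ⟩ : ∃ κ : ℕ, ∀ k ∈ K, |k.1| ≤ (κ : ℤ) := by
    obtain ⟨c, hc⟩ := (hK.image fun k : ℤ × L => k.1.natAbs).bddAbove
    refine ⟨c, fun k hk => ?_⟩
    have := hc ⟨k, hk, rfl⟩
    rw [Int.abs_eq_natAbs]
    exact_mod_cast this
  have hK2 : (Prod.snd '' K).Finite := hK.image _
  obtain ⟨N, hN1, hN2, hN3⟩ := stepD c hUF G hG σ hσ n m κ A (Prod.snd '' K) hK2
  obtain ⟨N', hN1', hN2', hN3'⟩ := hUF G hG M σ hσ (n * (κ * r)) m (Prod.snd '' K) hK2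
  refine ⟨N ⊓ N', inferInstance, inferInstance, ?_⟩
  intro I _ hI W T Y _ b hb α f hf ρ hρ g hg
  ext1 ⟨i₀, w₀, y₀⟩
  by_cases hcase : ∀ d : ℤ, |d| ≤ (κ * r : ℕ) → (T ^ d) w₀ = w₀ → d = 0
  · -- the orbit of `w₀` is long: lift to the integers
    let j : I × ℤ × Y → I × W × Y := fun q => (q.1, (T ^ q.2.1) w₀, q.2.2)
    let α' : ℤ → A := fun z => α ((T ^ z) w₀)
    have hj : ∀ l q, j (zst f α' b l q) = ρ (gen σ l) (j q) := by
      intro l q
      show _ = ρ (gen σ l) (q.1, (T ^ q.2.1) w₀, q.2.2)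
      rw [hρ]
      refine Prod.ext rfl (Prod.ext ?_ rfl)
      show (T ^ (q.2.1 + (f l q.1 (α' q.2.1) (b q.2.2)).2.1)) w₀ = _
      rw [add_comm, zpow_add]; rfl
    have hjrun : ∀ (ws : List (Fin M × Bool)) (q : I × ℤ × Y), j (runS (zst f α' b) ws q) =
        ρ ((FreeGroup.lift σ : FreeGroup (Fin M) →* G) (FreeGroup.mk ws)) (j q) := by
      intro ws q
      rw [lift_gen]
      induction ws with
      | nil => simp [runS]
      | cons l ws ih =>
        rw [runS_cons, hj, ih, List.map_cons, List.prod_cons, map_mul, Equiv.Perm.mul_apply]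
    have hgood : SGood R (zst f α' b) := by
      have key : ∀ ws : List (Fin M × Bool), ws.length ≤ r →
          (FreeGroup.lift σ : FreeGroup (Fin M) →* G) (FreeGroup.mk ws) = 1 →
          ∀ q, runS (zst f α' b) ws q = q := by
        intro ws hW hW1 q
        have h1 := hjrun ws q
        rw [hW1, map_one] at h1
        have h2 := run_len (fun l i β γ => hκ _ (hf l i β γ)) α' b ws q
        have h3 : (T ^ (runS (zst f α' b) ws q).2.1) w₀ = (T ^ q.2.1) w₀ :=
          congrArg (fun q : I × W × Y => q.2.1) h1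
        have h4 : (runS (zst f α' b) ws q).2.1 - q.2.1 = 0 := by
          apply hcase
          · exact h2.trans (by exact_mod_cast Nat.mul_le_mul_left κ hW)
          · rw [sub_eq_neg_add, zpow_add, Equiv.Perm.mul_apply, h3, ← Equiv.Perm.mul_apply,
              ← zpow_add, neg_add_cancel, zpow_zero]; rfl
        refine Prod.ext ?_ (Prod.ext (by show (runS (zst f α' b) ws q).2.1 = q.2.1; linarith) ?_)
        · exact congrArg (fun q : I × W × Y => q.1) h1
        · exact congrArg (fun q : I × W × Y => q.2.2) h1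
      refine ⟨fun i ε q => ?_, fun w hw q => ?_⟩
      · refine key [(i, ε), (i, !ε)] (by simpa using hr) ?_ q
        rw [lift_gen]
        simp only [List.map_cons, List.map_nil, List.prod_cons, List.prod_nil, mul_one]
        exact gen_inv σ i ε
      · refine key w.toWord (hR w hw) ?_ q
        rw [FreeGroup.mk_toWord]
        have h1 : w ∈ (FreeGroup.lift σ : FreeGroup (Fin M) →* G).ker := by
          rw [← hRk]; exact Subgroup.subset_normalClosure hw
        exact h1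
    obtain ⟨ρ', hρ'⟩ := hom_of_steps σ hσ hRk hgood
    have h1 := hN3 I hI Y b hb f (fun l i β γ => hκ _ (hf l i β γ))
      (fun l i β γ => ⟨_, hf l i β γ, rfl⟩) α' ρ' hρ' g hg.1
    have hsurj : Function.Surjective (FreeGroup.lift σ : FreeGroup (Fin M) →* G) :=
      FreeGroup.lift_surjective_iff_closure_range_eq_top.2 hσ
    obtain ⟨w, hw⟩ := hsurj g
    have h2 : (FreeGroup.lift σ : FreeGroup (Fin M) →* G) (FreeGroup.mk w.toWord) = g := by
      rw [FreeGroup.mk_toWord, hw]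
    have h3 := hjrun w.toWord (i₀, 0, y₀)
    rw [← hom_run σ ρ' hρ', h2, h1] at h3
    have h4 : j (i₀, 0, y₀) = (i₀, w₀, y₀) := by
      show (i₀, (T ^ (0 : ℤ)) w₀, y₀) = _
      rw [zpow_zero]; rfl
    rw [← h4]
    exact h3.symm
  · -- the orbit of `w₀` is short
    push Not at hcase
    obtain ⟨d, hd, hd1, hd0⟩ := hcase
    let O : Type := {w : W // ∃ z : ℤ, (T ^ z) w₀ = w}
    have hd' : ∃ e : ℕ, 0 < e ∧ e ≤ κ * r ∧ (T ^ (e : ℤ)) w₀ = w₀ := by
      refine ⟨d.natAbs, Int.natAbs_pos.2 hd0, ?_, ?_⟩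
      · rw [Int.abs_eq_natAbs] at hd
        exact_mod_cast hd
      · rcases Int.natAbs_eq d with h | h
        · rw [← h]; exact hd1
        · have h5 : (T ^ (-d)) w₀ = w₀ := by
            rw [zpow_neg, Equiv.Perm.inv_eq_iff_eq]
            exact hd1.symm
          have h6 : ((d.natAbs : ℕ) : ℤ) = -d := by omega
          rw [h6]; exact h5
    obtain ⟨e, he, heκ, he1⟩ := hd'
    have hper : ∀ (k : ℤ), (T ^ (e * k : ℤ)) w₀ = w₀ := by
      intro k
      rw [zpow_mul]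
      induction k using Int.induction_on with
      | zero => simp
      | succ k ih => rw [zpow_add, Equiv.Perm.mul_apply, zpow_one, he1, ih]
      | pred k ih =>
        rw [sub_eq_add_neg, zpow_add, Equiv.Perm.mul_apply]
        have h5 : ((T ^ (e : ℤ)) ^ (-1 : ℤ)) w₀ = w₀ := by
          rw [zpow_neg_one, Equiv.Perm.inv_eq_iff_eq]; exact he1.symm
        rw [h5, ih]
    let s : Fin e → O := fun t => ⟨(T ^ ((t : ℕ) : ℤ)) w₀, _, rfl⟩
    have hs : Function.Surjective s := by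
      rintro ⟨w, z, rfl⟩
      have he' : (0 : ℤ) < e := by exact_mod_cast he
      have h1 := Int.emod_nonneg z he'.ne'
      have h2 := Int.emod_lt_of_pos z he'
      refine ⟨⟨(z % e).toNat, by omega⟩, ?_⟩
      apply Subtype.ext
      show (T ^ (((z % e).toNat : ℕ) : ℤ)) w₀ = (T ^ z) w₀
      rw [Int.toNat_of_nonneg h1]
      conv_rhs => rw [← Int.emod_add_mul_ediv z e, zpow_add, Equiv.Perm.mul_apply, hper]
    haveI : Finite O := Finite.of_surjective s hs
    have hO : Nat.card O ≤ κ * r := by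
      refine le_trans (Nat.card_le_card_of_surjective s hs) ?_
      rw [Nat.card_eq_fintype_card, Fintype.card_fin]
      exact heκ
    have hcard : Nat.card (I × O) ≤ n * (κ * r) := by
      rw [Nat.card_prod]; exact Nat.mul_le_mul hI hO
    letI : MulAction G (I × W × Y) := MulAction.compHom _ ρ
    have hsm : ∀ (g : G) (q : I × W × Y), g • q = ρ g q := fun _ _ => rfl
    let j : (I × O) × Y → I × W × Y := fun q => (q.1.1, q.1.2.1, q.2)
    have hj : Function.Injective j := by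
      rintro ⟨⟨i, z⟩, v⟩ ⟨⟨i', z'⟩, v'⟩ h
      have e1 : i = i' := congrArg Prod.fst h
      have e2 : z = z' := Subtype.ext (congrArg (fun q : I × W × Y => q.2.1) h)
      have e3 : v = v' := congrArg (fun q : I × W × Y => q.2.2) h
      rw [e1, e2, e3]
    have hOm : ∀ (w : O) (d : ℤ), ∃ z : ℤ, (T ^ z) w₀ = (T ^ d) w.1 := by
      rintro ⟨w, z, rfl⟩ d
      exact ⟨d + z, by rw [zpow_add]; rfl⟩
    let f' : Fin M × Bool → I × O → c.C m → (I × O) × L := fun l q β =>
      (((f l q.1 (α q.2.1) β).1, ⟨(T ^ (f l q.1 (α q.2.1) β).2.1) q.2.1, hOm _ _⟩),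
        (f l q.1 (α q.2.1) β).2.2)
    have hj1 : ∀ l q, j ((f' l q.1 (b q.2)).1, (f' l q.1 (b q.2)).2 • q.2) = gen σ l • j q := by
      intro l q
      rw [hsm]
      show _ = ρ (gen σ l) (q.1.1, q.1.2.1, q.2)
      rw [hρ]
    have hinv : ∀ (g : G) (q : (I × O) × Y), ∃ q', j q' = g • j q :=
      invariant_of_gen σ hσ j fun l q => ⟨_, hj1 l q⟩
    obtain ⟨inst, hinst⟩ := exists_restrict j hj hinv
    have h1 := hN3' (I × O) hcard Y b hb f' (fun l i β => ⟨_, hf _ _ _ _, rfl⟩)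
      (MulAction.toPermHom G ((I × O) × Y)) (by
        intro l i v
        apply hj
        show j ((gen σ l) • (i, v)) = _
        rw [hinst, ← hj1]) g hg.2
    have h2 := hinst g ((i₀, ⟨w₀, 0, by simp⟩), y₀)
    have h3 : g • (((i₀, ⟨w₀, 0, by simp⟩), y₀) : (I × O) × Y) = ((i₀, ⟨w₀, 0, by simp⟩), y₀) := by
      have h4 : g • (((i₀, ⟨w₀, 0, by simp⟩), y₀) : (I × O) × Y) =
        MulAction.toPermHom G ((I × O) × Y) g ((i₀, ⟨w₀, 0, by simp⟩), y₀) := rfl
      rw [h4, h1]; rfl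
    rw [h3] at h2
    exact h2.symm

end Vale.Agent.P192.H567
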