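import Vale.Agent.P192.H567.VFree
import Vale.Agent.P192.H567.AD
import Vale.Agent.P192.H567.ZStepD

set_option linter.all false

/-! Products of a finite set, a free action of a group of asymptotic dimension one and a free
action of a virtually free group. -/

namespace Vale.Agent.P192.H567

open Vale.Agent.P192 Vale.Agent.P192.H593 Vale.Agent.P192.H437

/-- as `vf_uniform`, with a finite set as a further factor -/
theorem vf_uniform2 (G : Type) [Group G] [Group.IsFinitelyPresented G] (hG : IsMulTorsion G)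
    {n : ℕ} (σ : Fin n → G) (hσ : Subgroup.closure (Set.range σ) = ⊤)
    (L M : Type) [Group L] [Group M]
    (hL : ∀ E : Set L, E.Finite → ∃ m : ℕ, ∃ C : Set L, ∀ x : L,
      {y | Relation.ReflTransGen (fun a b => (a ∈ C ↔ b ∈ C) ∧ ∃ e ∈ E, b = e * a) x y}.encard ≤ m)
    (Γ : Subgroup M) [Γ.FiniteIndex] (k : ℕ) (e : Γ ≃* FreeGroup (Fin k))
    (nJ m : ℕ) (K : Set (L × M)) (hK : K.Finite) :
    ∃ N : Subgroup G, N.Normal ∧ N.FiniteIndex ∧
      ∀ (J : Type) [Finite J], Nat.card J ≤ nJ → ∀ (U V : Type) [MulAction L U] [MulAction M V],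
      (∀ (l : L) (u : U), l • u = u → l = 1) → (∀ (x : M) (v : V), x • v = v → x = 1) →
      ∀ ρ : G →* Equiv.Perm (J × U × V),
      (∀ l, ∃ (b : V → Fin m) (f : J → U → Fin m → J × L × M),
        (∀ i u β, (f i u β).2 ∈ K) ∧
          ∀ i u v, ρ (gen σ l) (i, u, v) =
            ((f i u (b v)).1, (f i u (b v)).2.1 • u, (f i u (b v)).2.2 • v)) →
      ∀ g ∈ N, ρ g = 1 := by
  classical
  let I : Type := M ⧸ Γ
  have hI : Finite I := inferInstance
  have hmem : ∀ x : M, ((QuotientGroup.mk x : I).out)⁻¹ * x ∈ Γ := by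
    intro x
    have h1 : (QuotientGroup.mk ((QuotientGroup.mk x : I).out) : I) = QuotientGroup.mk x :=
      Quotient.out_eq _
    exact QuotientGroup.eq.1 h1
  -- bound for the norms
  obtain ⟨c, hc⟩ : ∃ c : ℕ, ∀ κ ∈ K, ∀ i : I,
      (e ⟨((QuotientGroup.mk (κ.2 * i.out) : I).out)⁻¹ * (κ.2 * i.out), hmem _⟩).norm ≤ c := by
    have hfin : (Set.image2 (fun (κ : L × M) (i : I) =>
      (e ⟨((QuotientGroup.mk (κ.2 * i.out) : I).out)⁻¹ * (κ.2 * i.out), hmem _⟩).norm)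
        K Set.univ).Finite := hK.image2 _ Set.finite_univ
    obtain ⟨c, hc⟩ := hfin.bddAbove
    exact ⟨c, fun κ hκ i => hc ⟨κ, hκ, i, trivial, rfl⟩⟩
  obtain ⟨R, hR⟩ := main_free.{0, 0} G hG σ hσ (I × (Fin n × Bool) → Fin m) (Fin k) c
  have hK1 : (Prod.fst '' K).Finite := hK.image _
  obtain ⟨D, C, hC⟩ := hL (PP (Prod.fst '' K) R) (PP_finite hK1 R)
  obtain ⟨N, h1, h2, h3⟩ := hR (D * (nJ * Nat.card I))
  refine ⟨N, h1, h2, ?_⟩
  intro J _ hJ U V _ _ hfU hfV ρ hρ g hg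
  choose b f hf hact using hρ
  letI : MulAction G (J × U × V) := MulAction.compHom (J × U × V) ρ
  have hsm : ∀ (g : G) (z : J × U × V), g • z = ρ g z := fun _ _ => rfl
  have hfV' : ∀ (x y : M) (v : V), x • v = y • v → x = y := by
    intro x y v hxy
    have := hfV (y⁻¹ * x) v (by rw [mul_smul, hxy, inv_smul_smul])
    exact (inv_mul_eq_one.1 this).symm
  ext1 ⟨j₀, u₀, v₀⟩
  let j : (U × J × I) × FreeGroup (Fin k) → J × U × V := fun z =>
    (z.1.2.1, z.1.1, (z.1.2.2.out * (e.symm z.2 : M)) • v₀)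
  have hmk : ∀ (i : I) (γ : Γ), (QuotientGroup.mk (i.out * (γ : M)) : I) = i := by
    intro i γ
    have h4 : (QuotientGroup.mk (i.out * (γ : M)) : I) = QuotientGroup.mk i.out := by
      rw [QuotientGroup.mk_mul_of_mem _ γ.2]
    rw [h4]; exact Quotient.out_eq i
  have hj : Function.Injective j := by
    rintro ⟨⟨u, a, i⟩, x⟩ ⟨⟨u', a', i'⟩, x'⟩ h
    have e0 : a = a' := congrArg Prod.fst h
    have e1 : u = u' := congrArg (fun q : J × U × V => q.2.1) h
    have e2 : i.out * (e.symm x : M) = i'.out * (e.symm x' : M) :=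
      hfV' _ _ v₀ (congrArg (fun q : J × U × V => q.2.2) h)
    have e3 : i = i' := by
      rw [← hmk i (e.symm x), ← hmk i' (e.symm x'), e2]
    subst e0 e1 e3
    have e4 : (e.symm x : M) = (e.symm x' : M) := mul_left_cancel e2
    have e5 : e.symm x = e.symm x' := Subtype.ext e4
    rw [e.symm.injective e5]
  -- the data for `main_free`
  let b' : FreeGroup (Fin k) → (I × (Fin n × Bool) → Fin m) := fun x p =>
    b p.2 ((p.1.out * (e.symm x : M)) • v₀)
  let φ : Fin n × Bool → U × J × I → (I × (Fin n × Bool) → Fin m) → U × J × I := fun l z α =>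
    ((f l z.2.1 z.1 (α (z.2.2, l))).2.1 • z.1, (f l z.2.1 z.1 (α (z.2.2, l))).1,
      QuotientGroup.mk ((f l z.2.1 z.1 (α (z.2.2, l))).2.2 * z.2.2.out))
  let hh : Fin n × Bool → U × J × I → (I × (Fin n × Bool) → Fin m) → FreeGroup (Fin k) :=
    fun l z α => e ⟨((QuotientGroup.mk ((f l z.2.1 z.1 (α (z.2.2, l))).2.2 * z.2.2.out) : I).out)⁻¹ *
      ((f l z.2.1 z.1 (α (z.2.2, l))).2.2 * z.2.2.out), hmem _⟩
  have hjact : ∀ l (z : U × J × I) (x : FreeGroup (Fin k)),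
      j (φ l z (b' x), hh l z (b' x) * x) = gen σ l • j (z, x) := by
    intro l z x
    rw [hsm]
    show _ = ρ (gen σ l) (z.2.1, z.1, (z.2.2.out * (e.symm x : M)) • v₀)
    rw [hact l]
    refine Prod.ext rfl (Prod.ext rfl ?_)
    show ((QuotientGroup.mk ((f l z.2.1 z.1 (b' x (z.2.2, l))).2.2 * z.2.2.out) : I).out *
      (e.symm (hh l z (b' x) * x) : M)) • v₀ = _
    rw [map_mul, Subgroup.coe_mul]
    have e6 : (e.symm (hh l z (b' x)) : M) =
        ((QuotientGroup.mk ((f l z.2.1 z.1 (b' x (z.2.2, l))).2.2 * z.2.2.out) : I).out)⁻¹ *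
          ((f l z.2.1 z.1 (b' x (z.2.2, l))).2.2 * z.2.2.out) := by
      show ((e.symm (e _) : Γ) : M) = _
      rw [MulEquiv.symm_apply_apply]
    rw [e6, smul_smul]
    congr 1
    simp only [mul_assoc, mul_inv_cancel_left]
    rfl
  have hinv : ∀ (g : G) (y : (U × J × I) × FreeGroup (Fin k)), ∃ y', j y' = g • j y := by
    apply invariant_of_gen σ hσ
    rintro l ⟨z, x⟩
    exact ⟨_, hjact l z x⟩
  obtain ⟨inst, hinst⟩ := exists_restrict j hj hinv
  obtain ⟨q, ℓ, hq, hℓ⟩ := exists_coord hfU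
  have hfix := h3 (U × J × I) (FreeGroup (Fin k)) id b' φ hh Function.injective_id ?_ ?_
    {z | ℓ z.1 ∈ C} ?_ g hg
  · -- conclusion
    have e7 : j ((u₀, j₀, QuotientGroup.mk 1),
        e ⟨((QuotientGroup.mk 1 : I).out)⁻¹ * 1, hmem 1⟩) = (j₀, u₀, v₀) := by
      show (j₀, u₀, ((QuotientGroup.mk 1 : I).out * (e.symm (e _) : M)) • v₀) = _
      rw [MulEquiv.symm_apply_apply]
      show (j₀, u₀,
        ((QuotientGroup.mk 1 : I).out * (((QuotientGroup.mk 1 : I).out)⁻¹ * 1)) • v₀) = _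
      rw [mul_one, mul_inv_cancel, one_smul]
    have e8 := hinst g ((u₀, j₀, QuotientGroup.mk 1),
      e ⟨((QuotientGroup.mk 1 : I).out)⁻¹ * 1, hmem 1⟩)
    rw [hfix, e7] at e8
    rw [← hsm, ← e8]; rfl
  · intro l z α
    exact hc _ (hf l z.2.1 z.1 (α (z.2.2, l))) z.2.2
  · intro l z x
    have e9 : gen σ l • (((z, x) : (U × J × I) × FreeGroup (Fin k))) =
        (φ l z (b' x), hh l z (b' x) * x) := by
      apply hj
      rw [hinst, hjact]
    rw [e9]
    exact ⟨rfl, rfl⟩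
  · intro z
    have key : ∀ z', Relation.ReflTransGen (fun x y => (x ∈ {z : U × J × I | ℓ z.1 ∈ C} ↔
        y ∈ {z : U × J × I | ℓ z.1 ∈ C}) ∧ hopN (fun x y => ∃ l α, y = φ l x α) R x y) z z' →
        q z'.1 = q z.1 ∧ Relation.ReflTransGen (fun a b => (a ∈ C ↔ b ∈ C) ∧
          ∃ e ∈ PP (Prod.fst '' K) R, b = e * a) (ℓ z.1) (ℓ z'.1) := by
      intro z' hz'
      induction hz' with
      | refl => exact ⟨rfl, Relation.ReflTransGen.refl⟩
      | @tail x y _ hst ih =>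
        obtain ⟨hab, hh'⟩ := hst
        obtain ⟨p, hp, hp'⟩ := hopN_PP (K := Prod.fst '' K) (fun z : U × J × I => z.1) _ (by
          rintro x y ⟨l, α, rfl⟩
          exact ⟨_, ⟨_, hf l x.2.1 x.1 (α (x.2.2, l)), rfl⟩, rfl⟩) hh'
        have hp'' : y.1 = p • x.1 := hp'
        obtain ⟨e1, e2⟩ := hℓ x.1 p
        rw [← hp''] at e1 e2
        exact ⟨e1.trans ih.1, ih.2.tail ⟨hab, p, hp, e2⟩⟩
    have hsub : {z' | Relation.ReflTransGen (fun x y => (x ∈ {z : U × J × I | ℓ z.1 ∈ C} ↔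
        y ∈ {z : U × J × I | ℓ z.1 ∈ C}) ∧ hopN (fun x y => ∃ l α, y = φ l x α) R x y) z z'} ⊆
        ⋃ a ∈ {a | Relation.ReflTransGen (fun a b => (a ∈ C ↔ b ∈ C) ∧
          ∃ e ∈ PP (Prod.fst '' K) R, b = e * a) (ℓ z.1) a},
          (fun i : J × I => (a • q z.1, i)) '' Set.univ := by
      intro z' hz'
      obtain ⟨e1, e2⟩ := key z' hz'
      refine Set.mem_biUnion e2 ⟨z'.2, trivial, ?_⟩
      show (ℓ z'.1 • q z.1, z'.2) = z'
      rw [← e1, hq]
    refine (Set.encard_le_encard hsub).trans ?_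
    apply H630.biUnion_le _ _ _ _ (hC _)
    intro a _
    refine (Set.encard_image_le _ _).trans ?_
    rw [Set.encard_univ, ENat.card_eq_coe_natCard, Nat.card_prod]
    exact_mod_cast Nat.mul_le_mul_right _ hJ

end Vale.Agent.P192.H567
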