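import Vale.Agent.P192.H567.Slab

set_option linter.all false

/-! Components of `B × stack` have boundedly many points. -/

namespace Vale.Agent.P192.H567

universe u

theorem exists_lcs {E : Type} (x y : List E) : ∃ v v' s : List E, x = v ++ s ∧ y = v' ++ s ∧
    ∀ t : List E, t <:+ x → t <:+ y → t.length ≤ s.length := by
  classical
  let P : ℕ → Prop := fun k => ∃ t : List E, t <:+ x ∧ t <:+ y ∧ t.length = k
  have h0 : P 0 := ⟨[], List.nil_suffix, List.nil_suffix, rfl⟩
  obtain ⟨s, ⟨v, hv⟩, ⟨v', hv'⟩, hs⟩ := Nat.findGreatest_spec (P := P) (Nat.zero_le x.length) h0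
  refine ⟨v, v', s, hv.symm, hv'.symm, fun t h1 h2 => ?_⟩
  rw [hs]
  exact Nat.le_findGreatest h1.length_le ⟨t, h1, h2, rfl⟩

theorem exists_enum {U : Type u} (B : Set U) (n : ℕ) (hB : B.encard ≤ n) (hne : B.Nonempty) :
    ∃ e : Fin n → U, Set.range e = B := by
  classical
  have hfin : B.Finite := Set.finite_of_encard_le_coe hB
  have : Fintype B := hfin.fintype
  have hcard : Fintype.card B ≤ Fintype.card (Fin n) := by
    rw [Fintype.card_fin]
    have h1 : B.encard = (Fintype.card B : ℕ) := by
      rw [Set.encard_eq_coe_toFinset_card, Set.toFinset_card]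
    rw [h1] at hB
    exact_mod_cast hB
  obtain ⟨f⟩ := Function.Embedding.nonempty_of_card_le hcard
  have : Nonempty B := hne.to_subtype
  refine ⟨fun i => (Function.invFun f i : B), ?_⟩
  ext x
  constructor
  · rintro ⟨i, rfl⟩; exact (Function.invFun f i).2
  · intro hx
    exact ⟨f ⟨x, hx⟩, by
      show ((Function.invFun f (f ⟨x, hx⟩) : B) : U) = x
      rw [Function.leftInverse_invFun f.injective]⟩

/-- components of `B × stack` are bounded in terms of the number of points of `B` -/
theorem slab_card (M c r n : ℕ) (hr : 2 ≤ r) (hc : 0 < c) (R : Set (FreeGroup (Fin M)))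
    (hR : ∀ w ∈ R, w.norm ≤ r)
    (htor : ∀ g : FreeGroup (Fin M), ∃ m : ℕ, 0 < m ∧ g ^ m ∈ Subgroup.normalClosure R)
    (A E : Type) [Finite A] [Finite E] :
    ∃ K : ℕ, ∀ (U : Type u) (δ : Fin M × Bool → U → A → U × ℕ × List E) (b : List E → A),
      Good R c δ b → ∀ (B : Set U), B.encard ≤ n → ∀ z : U × List E,
      {z' | Con δ b B Set.univ z z'}.encard ≤ K := by
  classical
  obtain ⟨n₀, hn₀⟩ := slab.{u} M c r n hr hc R hR htor A E
  have hWfin := List.finite_length_le E n₀
  set Wf := hWfin.toFinset with hWf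
  refine ⟨(n + 1) * (Wf.card * (n₀ + 1)), ?_⟩
  intro U δ b hg B hB z
  rcases B.eq_empty_or_nonempty with hemp | hne
  · subst hemp
    have h1 : {z' | Con δ b ∅ Set.univ z z'} ⊆ {z} := by
      intro z' hz'
      have hz'' : Con δ b ∅ Set.univ z z' := hz'
      rcases Relation.ReflTransGen.cases_tail hz'' with h | ⟨y, _, h⟩
      · exact h
      · exact absurd h.2.1.1 (Set.notMem_empty _)
    refine (Set.encard_le_encard h1).trans ?_
    rw [Set.encard_singleton]
    have h2 : 0 < Wf.card := by
      apply Finset.card_pos.2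
      refine ⟨[], ?_⟩
      rw [hWf, Set.Finite.mem_toFinset]
      exact Nat.zero_le _
    have h3 : 1 ≤ (n + 1) * (Wf.card * (n₀ + 1)) :=
      Nat.mul_pos (Nat.succ_pos _) (Nat.mul_pos h2 (Nat.succ_pos _))
    exact_mod_cast h3
  · obtain ⟨e, he⟩ := exists_enum B n hB hne
    have hfin : B.Finite := Set.finite_of_encard_le_coe hB
    let F : Finset (U × List E × ℕ) :=
      (insert z.1 hfin.toFinset) ×ˢ (Wf ×ˢ Finset.range (n₀ + 1))
    have hF : F.card ≤ (n + 1) * (Wf.card * (n₀ + 1)) := by
      rw [Finset.card_product, Finset.card_product, Finset.card_range]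
      apply Nat.mul_le_mul_right
      refine (Finset.card_insert_le _ _).trans ?_
      rw [hfin.encard_eq_coe_toFinset_card] at hB
      have : hfin.toFinset.card ≤ n := by exact_mod_cast hB
      omega
    have hsub : {z' | Con δ b B Set.univ z z'} ⊆
        (F.image fun q => (q.1, q.2.1 ++ z.2.drop q.2.2) : Finset (U × List E)) := by
      intro z' hz'
      have hz1 : Con δ b B Set.univ z z' := hz'
      obtain ⟨v, v', s, h1, h2, h3⟩ := exists_lcs z.2 z'.2
      have h4 : v'.length ≤ n₀ :=
        hn₀ U δ b hg e z z' (by rw [he]; exact hz1) v' s h2 (fun x a b => h3 x b a)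
      have h5 : v.length ≤ n₀ :=
        hn₀ U δ b hg e z' z (by rw [he]; exact hz1.symm hg) v s h1 h3
      rw [Finset.coe_image]
      refine ⟨(z'.1, v', v.length), ?_, ?_⟩
      · rw [Finset.mem_coe, Finset.mem_product, Finset.mem_product]
        refine ⟨?_, ?_, ?_⟩
        · rcases Relation.ReflTransGen.cases_tail hz1 with h | ⟨y, _, h⟩
          · rw [h]; exact Finset.mem_insert_self _ _
          · apply Finset.mem_insert_of_mem
            rw [Set.Finite.mem_toFinset]
            exact h.2.1.1
        · rw [hWf, Set.Finite.mem_toFinset]; exact h4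
        · rw [Finset.mem_range]; exact Nat.lt_succ_of_le h5
      · show (z'.1, v' ++ z.2.drop v.length) = z'
        rw [h1, List.drop_left, ← h2]
    refine (Set.encard_le_encard hsub).trans ?_
    rw [Set.encard_coe_eq_coe_finsetCard]
    exact_mod_cast Finset.card_image_le.trans hF

end Vale.Agent.P192.H567
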