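import Vale.Agent.P192.H567.Stack

set_option linter.all false

/-! Paths inside `B × S`, crossing of levels. -/

namespace Vale.Agent.P192.H567

universe u

theorem last_entrance {Z : Type*} (r : Z → Z → Prop) (S : Set Z) {z z' : Z}
    (h : Relation.ReflTransGen r z z') (hz : z ∉ S) (hz' : z' ∈ S) :
    ∃ x y, Relation.ReflTransGen r z x ∧ x ∉ S ∧ r x y ∧ y ∈ S ∧
      Relation.ReflTransGen (fun a b => r a b ∧ a ∈ S ∧ b ∈ S) y z' := by
  induction h with
  | refl => exact absurd hz' hz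
  | @tail b c hb hbc ih =>
    by_cases hbS : b ∈ S
    · obtain ⟨x, y, h1, h2, h3, h4, h5⟩ := ih hbS
      exact ⟨x, y, h1, h2, h3, h4, h5.tail ⟨hbc, hbS, hz'⟩⟩
    · exact ⟨b, c, hb, hbS, hbc, hz', Relation.ReflTransGen.refl⟩

theorem first_entrance {Z : Type*} (r : Z → Z → Prop) (S : Set Z) {z z' : Z}
    (h : Relation.ReflTransGen r z z') (hz : z ∉ S) :
    (z' ∉ S ∧ Relation.ReflTransGen (fun a b => r a b ∧ a ∉ S ∧ b ∉ S) z z') ∨
    ∃ x y, Relation.ReflTransGen (fun a b => r a b ∧ a ∉ S ∧ b ∉ S) z x ∧ x ∉ S ∧ r x y ∧ y ∈ S := by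
  induction h with
  | refl => exact Or.inl ⟨hz, Relation.ReflTransGen.refl⟩
  | @tail b c hb hbc ih =>
    rcases ih with ⟨h1, h2⟩ | h
    · by_cases hc : c ∈ S
      · exact Or.inr ⟨b, c, h2, h1, hbc, hc⟩
      · exact Or.inl ⟨hc, h2.tail ⟨hbc, h1, hc⟩⟩
    · exact Or.inr h

section

variable {M : ℕ} {U : Type u} {A E : Type}

/-- one step inside `B × S` -/
def Rl (δ : Fin M × Bool → U → A → U × ℕ × List E) (b : List E → A) (B : Set U)
    (S : Set (List E)) (z z' : U × List E) : Prop :=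
  (z.1 ∈ B ∧ z.2 ∈ S) ∧ (z'.1 ∈ B ∧ z'.2 ∈ S) ∧ ∃ l, stp δ b l z = z'

/-- joined by a path inside `B × S` -/
def Con (δ : Fin M × Bool → U → A → U × ℕ × List E) (b : List E → A) (B : Set U)
    (S : Set (List E)) : U × List E → U × List E → Prop :=
  Relation.ReflTransGen (Rl δ b B S)

theorem stp_symm {R : Set (FreeGroup (Fin M))} {c : ℕ} {δ : Fin M × Bool → U → A → U × ℕ × List E}
    {b : List E → A} (hg : Good R c δ b) {l : Fin M × Bool} {z z' : U × List E}
    (h : stp δ b l z = z') : ∃ l', stp δ b l' z' = z := by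
  obtain ⟨i, ε⟩ := l
  refine ⟨(i, !ε), ?_⟩
  have h1 := hg.inv i (!ε) z
  rw [Bool.not_not, h] at h1
  exact h1

theorem Rl.symm {R : Set (FreeGroup (Fin M))} {c : ℕ} {δ : Fin M × Bool → U → A → U × ℕ × List E}
    {b : List E → A} (hg : Good R c δ b) {B : Set U} {S : Set (List E)} {z z' : U × List E}
    (h : Rl δ b B S z z') : Rl δ b B S z' z := by
  obtain ⟨h1, h2, l, h3⟩ := h
  exact ⟨h2, h1, stp_symm hg h3⟩

theorem Con.symm {R : Set (FreeGroup (Fin M))} {c : ℕ} {δ : Fin M × Bool → U → A → U × ℕ × List E}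
    {b : List E → A} (hg : Good R c δ b) {B : Set U} {S : Set (List E)} {z z' : U × List E}
    (h : Con δ b B S z z') : Con δ b B S z' z := by
  induction h with
  | refl => exact Relation.ReflTransGen.refl
  | tail _ hbc ih => exact Relation.ReflTransGen.head (hbc.symm hg) ih

theorem Con.mono {δ : Fin M × Bool → U → A → U × ℕ × List E} {b : List E → A} {B : Set U}
    {S S' : Set (List E)} (hS : S ⊆ S') {z z' : U × List E} (h : Con δ b B S z z') :
    Con δ b B S' z z' :=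
  Relation.ReflTransGen.mono (fun _ _ h => ⟨⟨h.1.1, hS h.1.2⟩, ⟨h.2.1.1, hS h.2.1.2⟩, h.2.2⟩) _ _ h

/-- the colouring matters only on `S` -/
theorem Con.congr {δ : Fin M × Bool → U → A → U × ℕ × List E} {b b' : List E → A} {B : Set U}
    {S : Set (List E)} (hS : ∀ x ∈ S, b x = b' x) {z z' : U × List E} (h : Con δ b B S z z') :
    Con δ b' B S z z' := by
  refine Relation.ReflTransGen.mono (fun x y h => ⟨h.1, h.2.1, ?_⟩) _ _ h
  obtain ⟨⟨-, h1⟩, -, l, h2⟩ := h
  refine ⟨l, ?_⟩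
  unfold stp at h2 ⊢
  rw [← hS _ h1]
  exact h2

theorem suf_iff {a w t : List E} : (a ++ t) <:+ (w ++ t) ↔ a <:+ w := by
  constructor
  · rintro ⟨z, hz⟩
    rw [← List.append_assoc] at hz
    exact ⟨z, List.append_cancel_right hz⟩
  · rintro ⟨z, rfl⟩
    exact ⟨z, by simp⟩

theorem cross_in {a t x v : List E} {j c : ℕ} (ha : a.length = c) (hj : j ≤ c)
    (hv : v.length ≤ c) (ht : t ≠ []) (hx : ¬ (a ++ t) <:+ x)
    (hx' : (a ++ t) <:+ v ++ x.drop j) :
    ∃ w, x = w ++ t ∧ j ≤ w.length ∧ w.length ≤ 2 * c ∧ ¬ a <:+ w := by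
  have h1 := hx'.length_le
  rw [List.length_append, List.length_append] at h1
  have h2 : t.length ≤ (x.drop j).length := by omega
  have h3 : t <:+ x.drop j := by
    apply List.suffix_of_suffix_length_le _ _ h2 (l₃ := v ++ x.drop j)
    · exact (List.suffix_append _ _).trans hx'
    · exact List.suffix_append _ _
  obtain ⟨m, hm⟩ := h3
  have h4 : 0 < t.length := List.length_pos_iff.2 ht
  have h5 : x = (x.take j ++ m) ++ t := by
    rw [List.append_assoc, hm, List.take_append_drop]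
  have h6 : (x.take j).length = j := by
    rw [List.length_take]
    rw [List.length_drop] at h2
    omega
  refine ⟨x.take j ++ m, h5, ?_, ?_, ?_⟩
  · rw [List.length_append]; omega
  · rw [List.length_append, h6]
    by_contra hcon
    apply hx
    have h7 : (a ++ t) <:+ x.drop j := by
      apply List.suffix_of_suffix_length_le hx' (List.suffix_append _ _)
      rw [← hm, List.length_append, List.length_append]; omega
    exact h7.trans (List.drop_suffix _ _)
  · intro hcon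
    apply hx
    rw [h5]
    exact suf_iff.2 hcon

/-- powers of a word -/
def Yp (y : List E) : ℕ → List E
  | 0 => []
  | k + 1 => y ++ Yp y k

theorem Yp_comm (y : List E) (k : ℕ) : y ++ Yp y k = Yp y k ++ y := by
  induction k with
  | zero => simp [Yp]
  | succ k ih =>
    show y ++ (y ++ Yp y k) = (y ++ Yp y k) ++ y
    rw [List.append_assoc, ← ih]

theorem Yp_add (y : List E) (k m : ℕ) : Yp y (k + m) = Yp y k ++ Yp y m := by
  induction k with
  | zero => simp [Yp]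
  | succ k ih =>
    rw [show k + 1 + m = (k + m) + 1 by omega]
    show y ++ Yp y (k + m) = (y ++ Yp y k) ++ Yp y m
    rw [ih, List.append_assoc]

theorem Yp_length (y : List E) (k : ℕ) : (Yp y k).length = k * y.length := by
  induction k with
  | zero => simp [Yp]
  | succ k ih =>
    show (y ++ Yp y k).length = _
    rw [List.length_append, ih]; ring

/-- the levels of the periodic colouring -/
def Tk (a y₀ t : List E) (k : ℕ) : List E := Yp (y₀ ++ a) k ++ t

theorem Tk_zero (a y₀ t : List E) : Tk a y₀ t 0 = t := rfl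

theorem Tk_succ (a y₀ t : List E) (k : ℕ) : Tk a y₀ t (k + 1) = (y₀ ++ a) ++ Tk a y₀ t k := by
  unfold Tk
  show ((y₀ ++ a) ++ Yp (y₀ ++ a) k) ++ t = _
  rw [List.append_assoc]

/-- the words below the level `k` -/
def Bef (a y₀ t : List E) (k : ℕ) : Set (List E) := {x | ¬ (a ++ Tk a y₀ t k) <:+ x}

theorem Bef_succ (a y₀ t : List E) (k : ℕ) : Bef a y₀ t k ⊆ Bef a y₀ t (k + 1) := by
  intro x hx h
  apply hx
  rw [Tk_succ] at h
  refine List.IsSuffix.trans ?_ h
  exact ⟨a ++ y₀, by simp⟩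

theorem Bef_mono (a y₀ t : List E) {k m : ℕ} (h : k ≤ m) : Bef a y₀ t k ⊆ Bef a y₀ t m := by
  induction h with
  | refl => exact subset_rfl
  | step _ ih => exact ih.trans (Bef_succ _ _ _ _)

/-- the point with code `p` at the level `k` -/
def Pt (z₀ : U × List E) (a y₀ t : List E) (k : ℕ) : Option (U × List E) → U × List E
  | none => z₀
  | some p => (p.1, p.2 ++ Tk a y₀ t k)

/-- admissible codes -/
def Val (B : Set U) (c : ℕ) (a : List E) : Option (U × List E) → Prop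
  | none => True
  | some p => p.1 ∈ B ∧ p.2.length ≤ 2 * c ∧ ¬ a <:+ p.2

/-- a system with a periodic colouring -/
structure Per (R : Set (FreeGroup (Fin M))) (c : ℕ) (δ : Fin M × Bool → U → A → U × ℕ × List E)
    (β : List E → A) (B : Set U) (z₀ : U × List E) (a y₀ t : List E) : Prop where
  good : Good R c δ β
  ha : a.length = c
  ht : t ≠ []
  hc : 0 < c
  z0 : z₀.2 ∈ Bef a y₀ t 0
  col : ∀ w k, (a <:+ w ∨ w.length ≤ 2 * c) → β (w ++ Tk a y₀ t k) = β (w ++ t)

variable {R : Set (FreeGroup (Fin M))} {c : ℕ} {δ : Fin M × Bool → U → A → U × ℕ × List E}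
    {β : List E → A} {B : Set U} {z₀ : U × List E} {a y₀ t : List E}

theorem edge (h : Per R c δ β B z₀ a y₀ t) (l : Fin M × Bool) (u : U) (w : List E)
    (hw : a <:+ w ∨ w.length ≤ 2 * c) (hj : (δ l u (β (w ++ t))).2.1 ≤ w.length) :
    ∃ (u' : U) (w' : List E), ∀ k, stp δ β l (u, w ++ Tk a y₀ t k) = (u', w' ++ Tk a y₀ t k) := by
  refine ⟨(δ l u (β (w ++ t))).1, (δ l u (β (w ++ t))).2.2 ++ w.drop (δ l u (β (w ++ t))).2.1,
    fun k => ?_⟩
  unfold stp
  simp only
  rw [h.col w k hw, List.drop_append_of_le_length hj, List.append_assoc]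

theorem edge_aft (h : Per R c δ β B z₀ a y₀ t) (l : Fin M × Bool) (u : U) (w : List E)
    (hw : a <:+ w) :
    ∃ (u' : U) (w' : List E), ∀ k, stp δ β l (u, w ++ Tk a y₀ t k) = (u', w' ++ Tk a y₀ t k) := by
  refine edge h l u w (Or.inl hw) ?_
  have h1 := hw.length_le
  have h2 := (h.good.bd l u (β (w ++ t))).1
  rw [h.ha] at h1
  omega

/-- crossing of the level `k` from below -/
theorem cross (h : Per R c δ β B z₀ a y₀ t) (k : ℕ) (l : Fin M × Bool) (z : U × List E)
    (hz : z.2 ∈ Bef a y₀ t k) (hz' : (stp δ β l z).2 ∉ Bef a y₀ t k) :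
    ∃ w, z.2 = w ++ Tk a y₀ t k ∧ w.length ≤ 2 * c ∧ ¬ a <:+ w ∧
      (δ l z.1 (β (w ++ t))).2.1 ≤ w.length := by
  have hT : Tk a y₀ t k ≠ [] := by
    unfold Tk
    intro hcon
    exact h.ht (List.append_eq_nil_iff.1 hcon).2
  have h1 := h.good.bd l z.1 (β z.2)
  have hz'' : (a ++ Tk a y₀ t k) <:+ (stp δ β l z).2 := not_not.1 hz'
  obtain ⟨w, h2, h3, h4, h5⟩ := cross_in h.ha h1.1 h1.2 hT hz hz''
  refine ⟨w, h2, h4, h5, ?_⟩
  rw [h2, h.col w k (Or.inr h4)] at h3
  exact h3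

/-- crossing of the level `k` from above -/
theorem cross_out (h : Per R c δ β B z₀ a y₀ t) (k : ℕ) {l : Fin M × Bool} {z z' : U × List E}
    (hzz : stp δ β l z = z') (hz : z.2 ∉ Bef a y₀ t k) (hz' : z'.2 ∈ Bef a y₀ t k) :
    ∃ w, z'.2 = w ++ Tk a y₀ t k ∧ w.length ≤ 2 * c ∧ ¬ a <:+ w := by
  obtain ⟨l', h1⟩ := stp_symm h.good hzz
  obtain ⟨w, h2, h3, h4, -⟩ := cross h k l' z' hz' (by rw [h1]; exact hz)
  exact ⟨w, h2, h3, h4⟩

theorem mem_Bef_iff (w : List E) (k : ℕ) :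
    w ++ Tk a y₀ t k ∈ Bef a y₀ t k ↔ ¬ a <:+ w := by
  unfold Bef
  rw [Set.mem_setOf_eq, suf_iff]

theorem mem_Bef_succ_iff (w : List E) (k : ℕ) :
    w ++ Tk a y₀ t k ∈ Bef a y₀ t (k + 1) ↔ ¬ (a ++ (y₀ ++ a)) <:+ w := by
  unfold Bef
  rw [Set.mem_setOf_eq, Tk_succ, ← List.append_assoc, suf_iff]

theorem exists_suf_of_not_Bef {x : List E} {k : ℕ} (h : x ∉ Bef a y₀ t k) :
    ∃ w, a <:+ w ∧ x = w ++ Tk a y₀ t k := by
  obtain ⟨z, hz⟩ := not_not.1 h
  exact ⟨z ++ a, List.suffix_append _ _, by rw [← hz, List.append_assoc]⟩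

/-- the inductive step: transport of paths between the levels `0` and `1` -/
theorem transport (h : Per R c δ β B z₀ a y₀ t) (k : ℕ)
    (ih : ∀ p p', Val B c a p → Val B c a p' →
      Con δ β B (Bef a y₀ t 0) (Pt z₀ a y₀ t 0 p) (Pt z₀ a y₀ t 0 p') →
      Con δ β B (Bef a y₀ t k) (Pt z₀ a y₀ t k p) (Pt z₀ a y₀ t k p'))
    (p : Option (U × List E)) (hp : Val B c a p) (z : U × List E)
    (hz : Con δ β B (Bef a y₀ t 1) (Pt z₀ a y₀ t 1 p) z) :
    (z.2 ∉ Bef a y₀ t 0 → ∀ w, z.2 = w ++ t →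
      Con δ β B (Bef a y₀ t (k + 1)) (Pt z₀ a y₀ t (k + 1) p) (z.1, w ++ Tk a y₀ t k)) ∧
    (z.2 ∈ Bef a y₀ t 0 → ∃ q, Val B c a q ∧
      Con δ β B (Bef a y₀ t (k + 1)) (Pt z₀ a y₀ t (k + 1) p) (Pt z₀ a y₀ t k q) ∧
      Con δ β B (Bef a y₀ t 0) (Pt z₀ a y₀ t 0 q) z) := by
  have hbef : ∀ w : List E, w ++ t ∈ Bef a y₀ t 1 → w ++ Tk a y₀ t k ∈ Bef a y₀ t (k + 1) := by
    intro w hw
    rw [mem_Bef_succ_iff]
    exact (mem_Bef_succ_iff (a := a) (y₀ := y₀) (t := t) w 0).1 hw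
  induction hz with
  | refl =>
    rcases p with _ | ⟨u, w0⟩
    · exact ⟨fun hcon => absurd h.z0 hcon,
        fun _ => ⟨none, trivial, Relation.ReflTransGen.refl, Relation.ReflTransGen.refl⟩⟩
    · have e1 : (Pt z₀ a y₀ t 1 (some (u, w0))).2 = (w0 ++ (y₀ ++ a)) ++ t := by
        show w0 ++ Tk a y₀ t 1 = _
        rw [Tk_succ, Tk_zero]; simp only [List.append_assoc]
      constructor
      · intro _ w hw
        rw [e1] at hw
        have hw' := List.append_cancel_right hw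
        subst hw'
        have e2 : Pt z₀ a y₀ t (k + 1) (some (u, w0)) =
            ((Pt z₀ a y₀ t 1 (some (u, w0))).1, w0 ++ (y₀ ++ a) ++ Tk a y₀ t k) := by
          show (u, w0 ++ Tk a y₀ t (k + 1)) = (u, _)
          rw [Tk_succ]; simp only [List.append_assoc]
        rw [e2]
        exact Relation.ReflTransGen.refl
      · intro hcon
        exfalso
        rw [e1] at hcon
        apply (mem_Bef_iff (a := a) (y₀ := y₀) (t := t) (w0 ++ (y₀ ++ a)) 0).1 hcon
        rw [← List.append_assoc]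
        exact List.suffix_append _ _
  | @tail z z' _ hst ihz =>
    obtain ⟨⟨hB, hS⟩, ⟨hB', hS'⟩, l, hl⟩ := hst
    by_cases hz0 : z.2 ∈ Bef a y₀ t 0
    · obtain ⟨q, hq, h1, h2⟩ := ihz.2 hz0
      by_cases hz0' : z'.2 ∈ Bef a y₀ t 0
      · refine ⟨fun hcon => absurd hz0' hcon, fun _ => ⟨q, hq, h1, h2.tail ?_⟩⟩
        exact ⟨⟨hB, hz0⟩, ⟨hB', hz0'⟩, l, hl⟩
      · refine ⟨fun _ w'' hw'' => ?_, fun hcon => absurd hcon hz0'⟩
        obtain ⟨w, e1, e2, e3, e4⟩ := cross h 0 l z hz0 (by rw [hl]; exact hz0')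
        obtain ⟨u', w', e5⟩ := edge h l z.1 w (Or.inr e2) e4
        have e6 : z = (z.1, w ++ Tk a y₀ t 0) := Prod.ext rfl e1
        have e7 := e5 0
        rw [← e6, hl] at e7
        have e8 : w'' = w' := by
          apply List.append_cancel_right (bs := t)
          rw [← hw'', e7]; rfl
        have hv : Val B c a (some (z.1, w)) := ⟨hB, e2, e3⟩
        have h3 := ih q (some (z.1, w)) hq hv (by
          show Con δ β B (Bef a y₀ t 0) (Pt z₀ a y₀ t 0 q) (z.1, w ++ Tk a y₀ t 0)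
          rw [← e6]; exact h2)
        refine (h1.trans (h3.mono (Bef_succ _ _ _ _))).tail ?_
        refine ⟨⟨hB, Bef_succ _ _ _ _ ((mem_Bef_iff w k).2 e3)⟩, ⟨hB', ?_⟩, l, ?_⟩
        · apply hbef
          rw [← hw'']; exact hS'
        · show stp δ β l (z.1, w ++ Tk a y₀ t k) = _
          rw [e5 k, e8, e7]
    · obtain ⟨w, e1, e2⟩ := exists_suf_of_not_Bef hz0
      have h1 := ihz.1 hz0 w e2
      obtain ⟨u', w', e5⟩ := edge_aft h l z.1 w e1
      have e6 : z = (z.1, w ++ Tk a y₀ t 0) := Prod.ext rfl e2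
      have e7 := e5 0
      rw [← e6, hl] at e7
      have h3 : Con δ β B (Bef a y₀ t (k + 1)) (Pt z₀ a y₀ t (k + 1) p) (u', w' ++ Tk a y₀ t k) := by
        refine h1.tail ⟨⟨hB, ?_⟩, ⟨?_, ?_⟩, l, ?_⟩
        · apply hbef
          rw [e2] at hS; exact hS
        · rw [e7] at hB'; exact hB'
        · apply hbef
          rw [e7] at hS'; exact hS'
        · exact e5 k
      by_cases hz0' : z'.2 ∈ Bef a y₀ t 0
      · refine ⟨fun hcon => absurd hz0' hcon, fun _ => ?_⟩
        obtain ⟨w2, f1, f2, f3⟩ := cross_out h 0 hl hz0 hz0'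
        have f4 : w2 = w' := by
          apply List.append_cancel_right (bs := t)
          have := f1.symm.trans (congrArg Prod.snd e7)
          exact this
        subst f4
        refine ⟨some (u', w2), ⟨?_, f2, f3⟩, h3, ?_⟩
        · rw [e7] at hB'; exact hB'
        · rw [e7]; exact Relation.ReflTransGen.refl
      · refine ⟨fun _ w'' hw'' => ?_, fun hcon => absurd hcon hz0'⟩
        have e8 : w'' = w' := by
          apply List.append_cancel_right (bs := t)
          rw [← hw'', e7]; rfl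
        rw [e8, e7]
        exact h3

/-- connections are the same at all levels -/
theorem all_levels (h : Per R c δ β B z₀ a y₀ t)
    (hrel : ∀ p p', Val B c a p → Val B c a p' →
      Con δ β B (Bef a y₀ t 0) (Pt z₀ a y₀ t 0 p) (Pt z₀ a y₀ t 0 p') →
      Con δ β B (Bef a y₀ t 1) (Pt z₀ a y₀ t 1 p) (Pt z₀ a y₀ t 1 p')) (k : ℕ) :
    ∀ p p', Val B c a p → Val B c a p' →
      Con δ β B (Bef a y₀ t 0) (Pt z₀ a y₀ t 0 p) (Pt z₀ a y₀ t 0 p') →
      Con δ β B (Bef a y₀ t k) (Pt z₀ a y₀ t k p) (Pt z₀ a y₀ t k p') := by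
  induction k with
  | zero => exact fun p p' _ _ h => h
  | succ k ih =>
    intro p p' hp hp' h0
    have h1 := hrel p p' hp hp' h0
    have h2 := transport h k ih p hp _ h1
    rcases p' with _ | ⟨u, w0⟩
    · obtain ⟨q, hq, h3, h4⟩ := h2.2 h.z0
      have h5 := ih q none hq trivial h4
      exact h3.trans (h5.mono (Bef_succ _ _ _ _))
    · have e1 : (Pt z₀ a y₀ t 1 (some (u, w0))).2 = (w0 ++ (y₀ ++ a)) ++ t := by
        show w0 ++ Tk a y₀ t 1 = _
        rw [Tk_succ, Tk_zero]; simp only [List.append_assoc]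
      have h3 := h2.1 (by
        rw [e1]
        intro hcon
        apply (mem_Bef_iff (a := a) (y₀ := y₀) (t := t) (w0 ++ (y₀ ++ a)) 0).1 hcon
        rw [← List.append_assoc]
        exact List.suffix_append _ _) _ e1
      have e2 : Pt z₀ a y₀ t (k + 1) (some (u, w0)) =
          ((Pt z₀ a y₀ t 1 (some (u, w0))).1, w0 ++ (y₀ ++ a) ++ Tk a y₀ t k) := by
        show (u, w0 ++ Tk a y₀ t (k + 1)) = (u, _)
        rw [Tk_succ]; simp only [List.append_assoc]
      rw [e2]
      exact h3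

end

end Vale.Agent.P192.H567
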