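import Vale.Agent.P192.H567.CtUnif

set_option linter.all false

/-! Products of parts of two free actions and any number of counters. -/

namespace Vale.Agent.P192.H567

open Vale.Agent.P192 Vale.Agent.P192.H593 Vale.Agent.P192.H437

/-- products of parts of two free actions and `k` counters, uniform form -/
theorem ct_part (G : Type) [Group G] [Group.IsFinitelyPresented G] (hG : IsMulTorsion G)
    (S : Set G) (hS : Subgroup.closure S = ⊤) (L M : Type) [Group L] [Group M]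
    (hL : ∀ E : Set L, E.Finite → ∃ m : ℕ, ∃ C : Set L, ∀ x : L,
      {y | Relation.ReflTransGen (fun a b => (a ∈ C ↔ b ∈ C) ∧ ∃ e ∈ E, b = e * a) x y}.encard ≤ m)
    (Γ : Subgroup M) [Γ.FiniteIndex] (k₀ : ℕ) (e : Γ ≃* FreeGroup (Fin k₀))
    (k m : ℕ) (K : Set (L × (Fin k → ℤ) × M)) (hK : K.Finite) :
    ∃ N : Subgroup G, N.Normal ∧ N.FiniteIndex ∧
      ∀ (U V : Type) [MulAction L U] [MulAction M V] (W : Fin k → Type)
        (T : ∀ i, Equiv.Perm (W i)),
      (∀ (l : L) (u : U), l • u = u → l = 1) → (∀ (x : M) (v : V), x • v = v → x = 1) →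
      ∀ (U' V' : Type) (κ₁ : U' → U) (κ₂ : V' → V), Function.Injective κ₁ →
      Function.Injective κ₂ →
      ∀ ρ : G →* Equiv.Perm (U' × (∀ i, W i) × V'),
      (∀ s, (s ∈ S ∨ s⁻¹ ∈ S) → ∃ (a : ∀ i, W i → Fin m) (b : V' → Fin m)
        (f : U' → (Fin k → Fin m) → Fin m → L × (Fin k → ℤ) × M), (∀ u α β, f u α β ∈ K) ∧
          ∀ u w v, κ₁ (ρ s (u, w, v)).1 = (f u (fun i => a i (w i)) (b v)).1 • κ₁ u ∧
            (ρ s (u, w, v)).2.1 =
              (fun i => (T i ^ (f u (fun i => a i (w i)) (b v)).2.1 i) (w i)) ∧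
            κ₂ (ρ s (u, w, v)).2.2 = (f u (fun i => a i (w i)) (b v)).2.2 • κ₂ v) →
      ∀ g ∈ N, ρ g = 1 := by
  classical
  let one : L × (Fin k → ℤ) × M := (1, 0, 1)
  obtain ⟨N, h1, h2, h3⟩ := ct_uniform G hG S hS L M hL Γ k₀ e k (m + 1) (insert one K)
    (hK.insert _)
  refine ⟨N, h1, h2, ?_⟩
  intro U V _ _ W T hU hV U' V' κ₁ κ₂ hκ₁ hκ₂ ρ hρ g hg
  let ι : (U' × (∀ i, W i) × V') ↪ (U × (∀ i, W i) × V) :=
    ⟨fun z => (κ₁ z.1, z.2.1, κ₂ z.2.2), by
      rintro ⟨u, w, v⟩ ⟨u', w', v'⟩ h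
      have e1 : u = u' := hκ₁ (congrArg Prod.fst h)
      have e2 : w = w' := congrArg (fun q : U × (∀ i, W i) × V => q.2.1) h
      have e3 : v = v' := hκ₂ (congrArg (fun q : U × (∀ i, W i) × V => q.2.2) h)
      rw [e1, e2, e3]⟩
  let ρ' : G →* Equiv.Perm (U × (∀ i, W i) × V) := (Equiv.Perm.viaEmbeddingHom ι).comp ρ
  have hρ1 : ∀ g z, ρ' g (ι z) = ι (ρ g z) := fun g z => Equiv.Perm.viaEmbedding_apply _ _ _
  have hρ2 : ∀ g z, z ∉ Set.range ι → ρ' g z = z := fun g z hz =>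
    Equiv.Perm.viaEmbedding_apply_of_notMem _ _ _ hz
  have hinj : ρ' g = 1 → ρ g = 1 := fun h =>
    Equiv.Perm.viaEmbeddingHom_injective ι (h.trans (map_one _).symm)
  apply hinj
  refine h3 U V W T hU hV ρ' ?_ g hg
  intro s hs
  obtain ⟨a, b, f, hf, hact⟩ := hρ s hs
  let b' : V → Fin (m + 1) := fun x => if h : ∃ v, κ₂ v = x then (b h.choose).castSucc
    else Fin.last m
  have hb1 : ∀ v, b' (κ₂ v) = (b v).castSucc := by
    intro v
    have h : ∃ v', κ₂ v' = κ₂ v := ⟨v, rfl⟩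
    show dite _ _ _ = _
    rw [dif_pos h, hκ₂ h.choose_spec]
  have hb2 : ∀ x, (¬ ∃ v, κ₂ v = x) → b' x = Fin.last m := fun x h => dif_neg h
  let fz : U' × (∀ i, W i) × V' → L × (Fin k → ℤ) × M := fun z =>
    f z.1 (fun i => a i (z.2.1 i)) (b z.2.2)
  refine ⟨fun i x => (a i x).castSucc, b', fun u α β =>
    if h : ∃ z : U' × (∀ i, W i) × V', κ₁ z.1 = u ∧ (fun i => (a i (z.2.1 i)).castSucc) = α ∧
      b' (κ₂ z.2.2) = β then fz h.choose else one, ?_, ?_⟩
  · intro u α β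
    by_cases h : ∃ z : U' × (∀ i, W i) × V', κ₁ z.1 = u ∧
      (fun i => (a i (z.2.1 i)).castSucc) = α ∧ b' (κ₂ z.2.2) = β
    · simp only [dif_pos h]
      exact Or.inr (hf _ _ _)
    · simp only [dif_neg h]
      exact Or.inl rfl
  · intro u w v
    by_cases h : ∃ z : U' × (∀ i, W i) × V', κ₁ z.1 = u ∧
      (fun i => (a i (z.2.1 i)).castSucc) = (fun i => (a i (w i)).castSucc) ∧
        b' (κ₂ z.2.2) = b' v
    · simp only [dif_pos h]
      obtain ⟨g1, g2, g3⟩ := h.choose_spec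
      generalize h.choose = z₀ at g1 g2 g3 ⊢
      have g4 : ∃ v', κ₂ v' = v := by
        by_contra hcon
        rw [hb1, hb2 v hcon] at g3
        exact absurd g3 (Fin.castSucc_lt_last _).ne
      obtain ⟨v', rfl⟩ := g4
      have g5 : fz z₀ = fz (z₀.1, w, v') := by
        show f _ (fun i => a i (z₀.2.1 i)) (b z₀.2.2) = f _ (fun i => a i (w i)) (b v')
        rw [hb1, hb1] at g3
        rw [Fin.castSucc_injective _ g3]
        congr 1
        funext i
        exact Fin.castSucc_injective _ (congrFun g2 i)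
      rw [g5]
      have g6 : ((u, w, κ₂ v') : U × (∀ i, W i) × V) = ι (z₀.1, w, v') := by
        show _ = (κ₁ z₀.1, w, κ₂ v')
        rw [g1]
      obtain ⟨f1, f2, f3⟩ := hact z₀.1 w v'
      rw [g6, hρ1]
      show (κ₁ (ρ s (z₀.1, w, v')).1, (ρ s (z₀.1, w, v')).2.1,
        κ₂ (ρ s (z₀.1, w, v')).2.2) = _
      rw [f1, f2, f3, g1]
    · simp only [dif_neg h]
      rw [hρ2]
      · show _ = ((1 : L) • u, (fun i => (T i ^ (0 : ℤ)) (w i)), (1 : M) • v)
        simp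
      · rintro ⟨⟨u', w', v'⟩, hz⟩
        apply h
        have e1 : κ₁ u' = u := congrArg Prod.fst hz
        have e2 : w' = w := congrArg (fun q : U × (∀ i, W i) × V => q.2.1) hz
        have e3 : κ₂ v' = v := congrArg (fun q : U × (∀ i, W i) × V => q.2.2) hz
        exact ⟨(u', w', v'), e1, by rw [e2], by rw [e3]⟩

end Vale.Agent.P192.H567
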