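import Vale.Agent.P192.H567.VFree
import Vale.Agent.P192.H630.Full

set_option linter.all false

/-! Topological full groups of products of two free actions. -/

namespace Vale.Agent.P192.H567

open Vale.Agent.P192 Vale.Agent.P192.H593 Vale.Agent.P192.H437

/-- the slices of a locally constant function on a compact product are finite in number -/
theorem slices {U V T : Type} [TopologicalSpace U] [TopologicalSpace V] [CompactSpace U]
    [CompactSpace V] (c : U × V → T) (hc : IsLocallyConstant c) :
    (Set.range (fun v : V => fun u : U => c (u, v))).Finite := by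
  have h1 : IsLocallyConstant (fun v : V => fun u : U => c (u, v)) := by
    rw [IsLocallyConstant.iff_eventually_eq]
    intro v₀
    have h2 : IsLocallyConstant (fun p : U × V => (c p, c (p.1, v₀))) := by
      have h3 : IsLocallyConstant (fun p : U × V => c (p.1, v₀)) :=
        hc.comp_continuous (f := fun p : U × V => (p.1, v₀)) (by fun_prop)
      exact hc.prodMk h3
    have h4 : IsOpen {p : U × V | c p = c (p.1, v₀)} := h2 {x | x.1 = x.2}
    have h5 : IsClosed (Prod.snd '' {p : U × V | c p = c (p.1, v₀)}ᶜ) :=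
      isClosedMap_snd_of_compactSpace _ h4.isClosed_compl
    have h6 : (Prod.snd '' {p : U × V | c p = c (p.1, v₀)}ᶜ)ᶜ ∈ nhds v₀ := by
      apply h5.isOpen_compl.mem_nhds
      rintro ⟨⟨u, v⟩, h7, h8⟩
      apply h7
      have h9 : v = v₀ := h8
      subst h9
      rfl
    filter_upwards [h6] with v hv
    funext u
    by_contra hcon
    exact hv ⟨(u, v), hcon, rfl⟩
  exact h1.range_finite

/-- topological full groups of products of a free action of a group of asymptotic dimension at
most one and a free action of a virtually free group -/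
theorem vf_top (G : Type) [Group G] [Group.IsFinitelyPresented G] (hG : IsMulTorsion G)
    (L M : Type) [Group L] [Group M]
    (hL : ∀ E : Set L, E.Finite → ∃ m : ℕ, ∃ C : Set L, ∀ x : L,
      {y | Relation.ReflTransGen (fun a b => (a ∈ C ↔ b ∈ C) ∧ ∃ e ∈ E, b = e * a) x y}.encard ≤ m)
    (Γ : Subgroup M) [Γ.FiniteIndex] (k : ℕ) (e : Γ ≃* FreeGroup (Fin k))
    (U V : Type) [TopologicalSpace U] [TopologicalSpace V] [CompactSpace U] [CompactSpace V]
    [MulAction L U] [MulAction M V]
    (hU : ∀ (l : L) (u : U), l • u = u → l = 1) (hV : ∀ (x : M) (v : V), x • v = v → x = 1)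
    (ρ : G →* Equiv.Perm (U × V))
    (hρ : ∀ g, ∃ c : U × V → L × M, IsLocallyConstant c ∧
        ∀ z, ρ g z = ((c z).1 • z.1, (c z).2 • z.2)) : Finite ρ.range := by
  classical
  obtain ⟨S, hSf, hS⟩ := H630.exists_gens G
  choose c hc hact using hρ
  set S' : Set G := S ∪ S⁻¹ with hS'
  have hS'f : S'.Finite := hSf.union hSf.inv
  set K : Set (L × M) := insert 1 (⋃ s ∈ S', Set.range (c s)) with hK
  have hKf : K.Finite := (hS'f.biUnion fun s _ => (hc s).range_finite).insert _
  have hslice : ∀ s : G, ∃ (n : ℕ) (b : V → Fin n), ∀ v v', b v = b v' →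
      ∀ u, c s (u, v) = c s (u, v') := by
    intro s
    have h1 := slices (c s) (hc s)
    have h2 : Finite (Set.range (fun v : V => fun u : U => c s (u, v))) := h1
    obtain ⟨n, ⟨f⟩⟩ := Finite.exists_equiv_fin (Set.range (fun v : V => fun u : U => c s (u, v)))
    refine ⟨n, fun v => f ⟨_, ⟨v, rfl⟩⟩, fun v v' h u => ?_⟩
    have h3 := congrArg Subtype.val (f.injective h)
    exact congrFun h3 u
  choose n b hb using hslice
  obtain ⟨m, hm⟩ := H630.exists_bound hS'f n
  obtain ⟨N, h1, h2, h3⟩ := vf_uniform G hG S hS L M hL Γ k e m K hKf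
  refine range_finite_of_kernel ρ N h2 ?_
  refine h3 U V hU hV ρ ?_
  intro s hs
  have hsS : s ∈ S' := hs.imp id (fun h => h)
  refine ⟨fun v => Fin.castLE (hm s hsS) (b s v), fun u β =>
    if h : ∃ v, Fin.castLE (hm s hsS) (b s v) = β then c s (u, h.choose) else 1, ?_, ?_⟩
  · intro u β
    by_cases h : ∃ v, Fin.castLE (hm s hsS) (b s v) = β
    · simp only [dif_pos h]
      exact Or.inr (Set.mem_biUnion hsS ⟨_, rfl⟩)
    · simp only [dif_neg h]
      exact Or.inl rfl
  · intro u v
    have h : ∃ v', Fin.castLE (hm s hsS) (b s v') = Fin.castLE (hm s hsS) (b s v) := ⟨v, rfl⟩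
    simp only [dif_pos h]
    have h4 : c s (u, h.choose) = c s (u, v) :=
      hb s _ _ (Fin.castLE_injective _ h.choose_spec) u
    rw [h4]
    exact hact s (u, v)

end Vale.Agent.P192.H567
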