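import Vale.Agent.P192.H567.CtUnif
import Vale.Agent.P192.H567.VTop

set_option linter.all false

/-! Topological full groups of products of two free actions and any number of counters. -/

namespace Vale.Agent.P192.H567

open Vale.Agent.P192 Vale.Agent.P192.H593 Vale.Agent.P192.H437

/-- locally constant functions on compact products depend on finite colours of the factors -/
theorem colour_prod {U V T : Type} {k : ℕ} {W : Fin k → Type} [TopologicalSpace U]
    [TopologicalSpace V] [∀ i, TopologicalSpace (W i)] [CompactSpace U] [CompactSpace V]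
    [∀ i, CompactSpace (W i)] (c : U × (∀ i, W i) × V → T) (hc : IsLocallyConstant c) :
    ∃ (n : ℕ) (a : ∀ i, W i → Fin n) (b : V → Fin n), ∀ u w w' v v',
      (∀ i, a i (w i) = a i (w' i)) → b v = b v' → c (u, w, v) = c (u, w', v') := by
  classical
  have h1 : ∀ i, (Set.range (fun (x : W i) => fun (z : U × (∀ i, W i) × V) =>
      c (z.1, Function.update z.2.1 i x, z.2.2))).Finite := by
    intro i
    refine slices (fun p : (U × (∀ i, W i) × V) × W i =>
      c (p.1.1, Function.update p.1.2.1 i p.2, p.1.2.2)) ?_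
    refine hc.comp_continuous (f := fun p : (U × (∀ i, W i) × V) × W i =>
      (p.1.1, Function.update p.1.2.1 i p.2, p.1.2.2)) ?_
    refine Continuous.prodMk (by fun_prop) (Continuous.prodMk ?_ (by fun_prop))
    exact Continuous.update (by fun_prop) i continuous_snd
  have h2 : (Set.range (fun (v : V) => fun (z : U × (∀ i, W i)) => c (z.1, z.2, v))).Finite := by
    refine slices (fun p : (U × (∀ i, W i)) × V => c (p.1.1, p.1.2, p.2)) ?_
    exact hc.comp_continuous (f := fun p : (U × (∀ i, W i)) × V => (p.1.1, p.1.2, p.2))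
      (by fun_prop)
  haveI h1' : ∀ i, Finite (Set.range (fun (x : W i) => fun (z : U × (∀ i, W i) × V) =>
      c (z.1, Function.update z.2.1 i x, z.2.2))) := fun i => h1 i
  haveI h2' : Finite (Set.range (fun (v : V) => fun (z : U × (∀ i, W i)) => c (z.1, z.2, v))) := h2
  let n₁ : Fin k → ℕ := fun i => Nat.card (Set.range (fun (x : W i) =>
    fun (z : U × (∀ i, W i) × V) => c (z.1, Function.update z.2.1 i x, z.2.2)))
  let n₂ : ℕ := Nat.card (Set.range (fun (v : V) => fun (z : U × (∀ i, W i)) => c (z.1, z.2, v)))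
  have hle : ∀ i, n₁ i ≤ (∑ i, n₁ i) + n₂ := fun i =>
    (Finset.single_le_sum (fun _ _ => Nat.zero_le _) (Finset.mem_univ i)).trans
      (Nat.le_add_right _ _)
  refine ⟨(∑ i, n₁ i) + n₂, fun i x => Fin.castLE (hle i) (Finite.equivFin _ ⟨_, ⟨x, rfl⟩⟩),
    fun v => Fin.castLE (Nat.le_add_left _ _) (Finite.equivFin _ ⟨_, ⟨v, rfl⟩⟩), ?_⟩
  intro u w w' v v' hw hv
  have h3 : ∀ z : U × (∀ i, W i), c (z.1, z.2, v) = c (z.1, z.2, v') := by
    intro z
    have := congrArg Subtype.val ((Finite.equivFin _).injective (Fin.castLE_injective _ hv))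
    exact congrFun this z
  have h4 : ∀ i, ∀ z : U × (∀ i, W i) × V, c (z.1, Function.update z.2.1 i (w i), z.2.2) =
      c (z.1, Function.update z.2.1 i (w' i), z.2.2) := by
    intro i z
    have := congrArg Subtype.val ((Finite.equivFin _).injective (Fin.castLE_injective _ (hw i)))
    exact congrFun this z
  have h5 : ∀ s : Finset (Fin k), c (u, (fun i => if i ∈ s then w' i else w i), v) =
      c (u, w, v) := by
    intro s
    induction s using Finset.induction_on with
    | empty => simp
    | insert i s his ih =>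
      rw [← ih]
      have e1 : (fun j => if j ∈ insert i s then w' j else w j) =
          Function.update (fun j => if j ∈ s then w' j else w j) i (w' i) := by
        funext j
        by_cases hj : j = i
        · subst hj; simp
        · simp [hj]
      have e2 : (fun j => if j ∈ s then w' j else w j) =
          Function.update (fun j => if j ∈ s then w' j else w j) i (w i) := by
        funext j
        by_cases hj : j = i
        · subst hj; simp [his]
        · simp [hj]
      rw [e1]
      conv_rhs => rw [e2]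
      exact (h4 i (u, (fun j => if j ∈ s then w' j else w j), v)).symm
  have h6 := h5 Finset.univ
  simp only [Finset.mem_univ, if_true] at h6
  rw [← h6]
  exact h3 (u, w')

/-- topological full groups of products of a free action of a group of asymptotic dimension at
most one, a free action of a virtually free group, and `k` permutations -/
theorem ct_top (G : Type) [Group G] [Group.IsFinitelyPresented G] (hG : IsMulTorsion G)
    (L M : Type) [Group L] [Group M]
    (hL : ∀ E : Set L, E.Finite → ∃ m : ℕ, ∃ C : Set L, ∀ x : L,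
      {y | Relation.ReflTransGen (fun a b => (a ∈ C ↔ b ∈ C) ∧ ∃ e ∈ E, b = e * a) x y}.encard ≤ m)
    (Γ : Subgroup M) [Γ.FiniteIndex] (k₀ : ℕ) (e : Γ ≃* FreeGroup (Fin k₀)) (k : ℕ)
    (U V : Type) [TopologicalSpace U] [TopologicalSpace V] [CompactSpace U] [CompactSpace V]
    [MulAction L U] [MulAction M V] (W : Fin k → Type) [∀ i, TopologicalSpace (W i)]
    [∀ i, CompactSpace (W i)] (T : ∀ i, Equiv.Perm (W i))
    (hU : ∀ (l : L) (u : U), l • u = u → l = 1) (hV : ∀ (x : M) (v : V), x • v = v → x = 1)
    (ρ : G →* Equiv.Perm (U × (∀ i, W i) × V))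
    (hρ : ∀ g, ∃ c : U × (∀ i, W i) × V → L × (Fin k → ℤ) × M, IsLocallyConstant c ∧
        ∀ z, ρ g z = ((c z).1 • z.1, (fun i => (T i ^ (c z).2.1 i) (z.2.1 i)),
          (c z).2.2 • z.2.2)) : Finite ρ.range := by
  classical
  obtain ⟨S, hSf, hS⟩ := H630.exists_gens G
  choose c hc hact using hρ
  set S' : Set G := S ∪ S⁻¹ with hS'
  have hS'f : S'.Finite := hSf.union hSf.inv
  let one : L × (Fin k → ℤ) × M := (1, 0, 1)
  set K : Set (L × (Fin k → ℤ) × M) := insert one (⋃ s ∈ S', Set.range (c s)) with hK
  have hKf : K.Finite := (hS'f.biUnion fun s _ => (hc s).range_finite).insert _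
  choose n a b hab using fun s => colour_prod (c s) (hc s)
  obtain ⟨m, hm⟩ := H630.exists_bound hS'f n
  obtain ⟨N, h1, h2, h3⟩ := ct_uniform G hG S hS L M hL Γ k₀ e k m K hKf
  refine range_finite_of_kernel ρ N h2 ?_
  refine h3 U V W T hU hV ρ ?_
  intro s hs
  have hsS : s ∈ S' := hs.imp id (fun h => h)
  refine ⟨fun i x => Fin.castLE (hm s hsS) (a s i x), fun v => Fin.castLE (hm s hsS) (b s v),
    fun u α β => if h : ∃ q : (∀ i, W i) × V, (fun i => Fin.castLE (hm s hsS) (a s i (q.1 i))) = α ∧
      Fin.castLE (hm s hsS) (b s q.2) = β then c s (u, h.choose.1, h.choose.2) else one, ?_, ?_⟩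
  · intro u α β
    by_cases h : ∃ q : (∀ i, W i) × V, (fun i => Fin.castLE (hm s hsS) (a s i (q.1 i))) = α ∧
      Fin.castLE (hm s hsS) (b s q.2) = β
    · simp only [dif_pos h]
      exact Or.inr (Set.mem_biUnion hsS ⟨_, rfl⟩)
    · simp only [dif_neg h]
      exact Or.inl rfl
  · intro u w v
    have h : ∃ q : (∀ i, W i) × V, (fun i => Fin.castLE (hm s hsS) (a s i (q.1 i))) =
        (fun i => Fin.castLE (hm s hsS) (a s i (w i))) ∧
      Fin.castLE (hm s hsS) (b s q.2) = Fin.castLE (hm s hsS) (b s v) := ⟨(w, v), rfl, rfl⟩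
    simp only [dif_pos h]
    have h4 : c s (u, h.choose.1, h.choose.2) = c s (u, w, v) := by
      apply hab s
      · intro i
        exact Fin.castLE_injective _ (congrFun h.choose_spec.1 i)
      · exact Fin.castLE_injective _ h.choose_spec.2
    rw [h4]
    exact hact s (u, w, v)

end Vale.Agent.P192.H567
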