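import Mathlib

set_option linter.all false

/-! Left multiplication in a free group is a stack move. -/

namespace Vale.Agent.P192.H567

open FreeGroup

theorem red_push {E : Type} [DecidableEq E] (c : ℕ) (L₀ : List (E × Bool)) :
    ∀ p : List (E × Bool), ∃ (j : ℕ) (w : List (E × Bool)), j ≤ L₀.length ∧ w.length ≤ L₀.length ∧
      ∀ L, reduce L = L → L.take c = p → L₀.length ≤ c → reduce (L₀ ++ L) = w ++ L.drop j := by
  intro p
  induction L₀ with
  | nil => exact ⟨0, [], le_rfl, le_rfl, fun L h _ _ => by simpa using h⟩
  | cons l L₀ ih =>
    obtain ⟨j, w, h1, h2, h3⟩ := ih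
    rcases w with _ | ⟨hd, tl⟩
    · rcases hp : p.drop j with _ | ⟨hd, tl⟩
      · refine ⟨j, [l], h1.trans (Nat.le_succ _), by simp, ?_⟩
        intro L hL hLp hc
        rw [List.length_cons] at hc
        have h4 := h3 L hL hLp (by omega)
        have h5 : L.drop j = [] := by
          rw [List.drop_eq_nil_iff] at hp ⊢
          rw [← hLp, List.length_take] at hp
          omega
        rw [List.cons_append, reduce.cons, h4, h5]
        rfl
      · by_cases hcan : l.1 = hd.1 ∧ l.2 = !hd.2
        · refine ⟨j + 1, [], by rw [List.length_cons]; omega, by simp, ?_⟩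
          intro L hL hLp hc
          rw [List.length_cons] at hc
          have h4 := h3 L hL hLp (by omega)
          have h5 : L.drop j = hd :: L.drop (j + 1) := by
            rw [← hLp, List.drop_take] at hp
            rcases hLj : L.drop j with _ | ⟨x, y⟩
            · rw [hLj] at hp; simp at hp
            · rw [hLj] at hp
              obtain ⟨k, hk⟩ : ∃ k, c - j = k + 1 := ⟨c - j - 1, by omega⟩
              rw [hk, List.take_succ_cons] at hp
              have e1 : x = hd := (List.cons.inj hp).1
              have e2 : L.drop (j + 1) = y := by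
                rw [← List.drop_drop, hLj]; rfl
              rw [e1, e2]
          rw [List.cons_append, reduce.cons, h4, h5]
          simp [hcan.1, hcan.2]
        · refine ⟨j, [l], h1.trans (Nat.le_succ _), by simp, ?_⟩
          intro L hL hLp hc
          rw [List.length_cons] at hc
          have h4 := h3 L hL hLp (by omega)
          have h5 : L.drop j = hd :: L.drop (j + 1) := by
            rw [← hLp, List.drop_take] at hp
            rcases hLj : L.drop j with _ | ⟨x, y⟩
            · rw [hLj] at hp; simp at hp
            · rw [hLj] at hp
              obtain ⟨k, hk⟩ : ∃ k, c - j = k + 1 := ⟨c - j - 1, by omega⟩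
              rw [hk, List.take_succ_cons] at hp
              have e1 : x = hd := (List.cons.inj hp).1
              have e2 : L.drop (j + 1) = y := by
                rw [← List.drop_drop, hLj]; rfl
              rw [e1, e2]
          rw [List.cons_append, reduce.cons, h4, h5]
          simp only [List.nil_append, List.cons_append]
          rw [if_neg hcan]
    · by_cases hcan : l.1 = hd.1 ∧ l.2 = !hd.2
      · refine ⟨j, tl, h1.trans (Nat.le_succ _), ?_, ?_⟩
        · rw [List.length_cons] at h2 ⊢; omega
        · intro L hL hLp hc
          rw [List.length_cons] at hc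
          have h4 := h3 L hL hLp (by omega)
          rw [List.cons_append, reduce.cons, h4]
          simp [hcan.1, hcan.2]
      · refine ⟨j, l :: hd :: tl, h1.trans (Nat.le_succ _), ?_, ?_⟩
        · rw [List.length_cons] at h2 ⊢
          rw [List.length_cons, List.length_cons] ; omega
        · intro L hL hLp hc
          rw [List.length_cons] at hc
          have h4 := h3 L hL hLp (by omega)
          rw [List.cons_append, reduce.cons, h4]
          simp only [List.cons_append]
          rw [if_neg hcan]

/-- the move of the element `f₀` on words with given top `p` -/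
theorem exists_enc (E : Type) [DecidableEq E] (c : ℕ) :
    ∃ F : FreeGroup E → List (E × Bool) → ℕ × List (E × Bool),
      ∀ f₀ : FreeGroup E, ∀ p, (F f₀ p).1 ≤ f₀.norm ∧ (F f₀ p).2.length ≤ f₀.norm ∧
        ∀ f : FreeGroup E, f.toWord.take c = p → f₀.norm ≤ c →
          (f₀ * f).toWord = (F f₀ p).2 ++ f.toWord.drop (F f₀ p).1 := by
  choose j w h1 h2 h3 using fun (f₀ : FreeGroup E) (p : List (E × Bool)) => red_push c f₀.toWord p
  refine ⟨fun f₀ p => (j f₀ p, w f₀ p), fun f₀ p => ⟨h1 f₀ p, h2 f₀ p, fun f hf hc => ?_⟩⟩
  rw [toWord_mul]
  exact h3 f₀ p f.toWord (reduce_toWord f) hf hc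

end Vale.Agent.P192.H567
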