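import Vale.Agent.P192.R2.H849.Per

set_option linter.all false

/-! Colourings of the integers: periodic ends. -/

namespace Vale.Agent.P192.H567

open Vale.Agent.P192.R2.H360

/-- each window of radius `r` of `a'` is a window of `a` -/
def Wins {A : Type} (r : ℤ) (a' a : ℤ → A) : Prop := ∀ u, ∃ v, win r a' u a v

theorem Wins.trans {A : Type} {r : ℤ} {a b c : ℤ → A} (h : Wins r a b) (h' : Wins r b c) :
    Wins r a c := by
  intro u
  obtain ⟨v, hv⟩ := h u
  obtain ⟨w, hw⟩ := h' v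
  exact ⟨w, fun t ht => (hv t ht).trans (hw t ht)⟩

theorem right_end (A : Type) [Finite A] (r : ℕ) : ∃ Nm T : ℕ, ∀ (a : ℤ → A) (x : ℤ),
    ∃ a' : ℤ → A, (∀ t ≤ x, a' t = a t) ∧ Wins r a' a ∧ ∃ p : ℕ, 0 < p ∧ p ≤ Nm ∧
      ∀ z, x + T ≤ z → a' (z + p) = a' z := by
  classical
  set P := Nat.card (Fin (2 * r + 1) → A) with hP
  refine ⟨P, r + P + 1, ?_⟩
  intro a x
  let f : Fin (P + 1) → (Fin (2 * r + 1) → A) := fun j t => a (x + r + (j : ℕ) + ((t : ℕ) - r))
  obtain ⟨i, j, hij, hf⟩ : ∃ i j, i ≠ j ∧ f i = f j := by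
    by_contra hno
    push Not at hno
    have hinj : Function.Injective f := by
      intro i j h
      by_contra hne
      exact hno i j hne h
    have h1 := Nat.card_le_card_of_injective f hinj
    rw [Nat.card_eq_fintype_card, Fintype.card_fin] at h1
    omega
  wlog hlt : i < j generalizing i j
  · exact this j i hij.symm hf.symm (lt_of_le_of_ne (not_lt.1 hlt) hij.symm)
  have hlt' : (i : ℕ) < j := hlt
  have hwin : win (r : ℤ) a (x + r + (i : ℕ)) a (x + r + (j : ℕ)) := by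
    intro t ht
    rw [abs_le] at ht
    have h2 := congrFun hf ⟨(t + r).toNat, by omega⟩
    simp only [f] at h2
    have e1 : ((t + r).toNat : ℤ) = t + r := Int.toNat_of_nonneg (by omega)
    rw [e1] at h2
    have e2 : t + (r : ℤ) - r = t := by ring
    rw [e2] at h2
    exact h2
  obtain ⟨a', h1, h2, h3⟩ := periodize a (x + r + (i : ℕ)) (x + r + (j : ℕ)) r
    (Int.natCast_nonneg r) hwin
  have hne : x + r + ((i : ℕ) : ℤ) ≠ x + r + ((j : ℕ) : ℤ) := by omega
  have hmin : min (x + r + ((i : ℕ) : ℤ)) (x + r + ((j : ℕ) : ℤ)) = x + r + (i : ℕ) :=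
    min_eq_left (by omega)
  have hmax : max (x + r + ((i : ℕ) : ℤ)) (x + r + ((j : ℕ) : ℤ)) = x + r + (j : ℕ) :=
    max_eq_right (by omega)
  have hag : ∀ t, x + r + (i : ℕ) - r ≤ t → t ≤ x + r + (j : ℕ) + r → a' t = a t := by
    intro t h4 h5
    apply h2
    intro _
    rw [hmin, hmax]
    exact ⟨h4, h5⟩
  have hjP := j.2
  refine ⟨fun t => if t ≤ x + r + (j : ℕ) then a t else a' t, ?_, ?_, j - i, by omega, by omega, ?_⟩
  · intro t ht
    exact if_pos (by omega)
  · intro u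
    by_cases hu : u ≤ x + r + (j : ℕ)
    · refine ⟨u, fun t ht => ?_⟩
      rw [abs_le] at ht
      show (if u + t ≤ x + r + (j : ℕ) then a (u + t) else a' (u + t)) = a (u + t)
      split_ifs with h6
      · rfl
      · exact hag _ (by omega) (by omega)
    · obtain ⟨v, hv⟩ := h3 u
      refine ⟨v, fun t ht => ?_⟩
      rw [← hv t ht]
      rw [abs_le] at ht
      show (if u + t ≤ x + r + (j : ℕ) then a (u + t) else a' (u + t)) = a' (u + t)
      split_ifs with h6
      · exact (hag _ (by omega) (by omega)).symm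
      · rfl
  · intro z hz
    show (if z + ((j - i : ℕ) : ℤ) ≤ x + r + (j : ℕ) then _ else a' (z + ((j - i : ℕ) : ℤ))) =
      (if z ≤ x + r + (j : ℕ) then _ else a' z)
    rw [if_neg (by push_cast at hz; omega), if_neg (by push_cast at hz; omega)]
    have e1 : ((j - i : ℕ) : ℤ) = x + r + (j : ℕ) - (x + r + (i : ℕ)) := by
      push_cast [hlt'.le]; ring
    rw [e1]
    exact h1 z

theorem left_end (A : Type) [Finite A] (r : ℕ) : ∃ Nm T : ℕ, ∀ (a : ℤ → A) (x : ℤ),
    ∃ a' : ℤ → A, (∀ t, x ≤ t → a' t = a t) ∧ Wins r a' a ∧ ∃ p : ℕ, 0 < p ∧ p ≤ Nm ∧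
      ∀ z, z ≤ x - T → a' (z - p) = a' z := by
  obtain ⟨Nm, T, h⟩ := right_end A r
  refine ⟨Nm, T, fun a x => ?_⟩
  obtain ⟨b, h1, h2, p, hp, hp', h3⟩ := h (fun t => a (-t)) (-x)
  refine ⟨fun t => b (-t), ?_, ?_, p, hp, hp', ?_⟩
  · intro t ht
    show b (-t) = a t
    rw [h1 (-t) (by omega), neg_neg]
  · intro u
    obtain ⟨v, hv⟩ := h2 (-u)
    refine ⟨-v, fun t ht => ?_⟩
    have h4 := hv (-t) (by rwa [abs_neg])
    show b (-(u + t)) = a (-v + t)
    rw [show -(u + t) = -u + -t by ring, h4]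
    show a (-(v + -t)) = _
    congr 1; ring
  · intro z hz
    show b (-(z - p)) = b (-z)
    rw [show -(z - (p : ℤ)) = -z + p by ring]
    exact h3 (-z) (by omega)

/-- periodic ends outside a given interval -/
theorem exists_ends (A : Type) [Finite A] (r : ℕ) : ∃ Nm T : ℕ, ∀ (a : ℤ → A) (x y : ℤ), x ≤ y →
    ∃ a' : ℤ → A, (∀ t, x ≤ t → t ≤ y → a' t = a t) ∧ Wins r a' a ∧
      (∃ p : ℕ, 0 < p ∧ p ≤ Nm ∧ ∀ z, y + T ≤ z → a' (z + p) = a' z) ∧
      (∃ p : ℕ, 0 < p ∧ p ≤ Nm ∧ ∀ z, z ≤ x - T → a' (z - p) = a' z) := by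
  obtain ⟨N1, T1, h1⟩ := right_end A r
  obtain ⟨N2, T2, h2⟩ := left_end A r
  refine ⟨max N1 N2, max T1 T2, fun a x y hxy => ?_⟩
  obtain ⟨b, b1, b2, p, hp, hp', b3⟩ := h1 a y
  obtain ⟨c, c1, c2, q, hq, hq', c3⟩ := h2 b x
  refine ⟨c, fun t ht ht' => by rw [c1 t ht, b1 t ht'], c2.trans b2,
    ⟨p, hp, hp'.trans (le_max_left _ _), ?_⟩, ⟨q, hq, hq'.trans (le_max_right _ _), ?_⟩⟩
  · intro z hz
    have e1 : (T1 : ℤ) ≤ (max T1 T2 : ℕ) := by exact_mod_cast le_max_left _ _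
    rw [c1 _ (by omega), c1 _ (by omega), b3 z (by omega)]
  · intro z hz
    have e1 : (T2 : ℤ) ≤ (max T1 T2 : ℕ) := by exact_mod_cast le_max_right _ _
    exact c3 z (by omega)

/-- the periodic continuation of a right end -/
theorem periodic_right {A : Type} (r : ℕ) (a : ℤ → A) (q : ℤ) (p : ℕ) (hp : 0 < p)
    (h : ∀ z, q ≤ z → a (z + p) = a z) :
    ∃ a' : ℤ → A, (∀ z, a' (z + p) = a' z) ∧ (∀ z, q ≤ z → a' z = a z) ∧ Wins r a' a := by
  have hp' : (0 : ℤ) < p := by exact_mod_cast hp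
  have hk : ∀ (k : ℕ) z, q ≤ z → a (z + k * p) = a z := by
    intro k
    induction k with
    | zero => intro z _; simp
    | succ k ih =>
      intro z hz
      have e1 : z + ((k + 1 : ℕ) : ℤ) * p = (z + k * p) + p := by push_cast; ring
      have : (0 : ℤ) ≤ k * p := by positivity
      rw [e1, h _ (by linarith), ih z hz]
  let a' : ℤ → A := fun z => a (q + (z - q) % p)
  have h2 : ∀ z, q ≤ z → a' z = a z := by
    intro z hz
    have h3 := Int.emod_add_mul_ediv (z - q) p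
    have h4 := Int.emod_nonneg (z - q) hp'.ne'
    have h5 : 0 ≤ (z - q) / p := Int.ediv_nonneg (by omega) hp'.le
    obtain ⟨k, hk'⟩ := Int.eq_ofNat_of_zero_le h5
    show a (q + (z - q) % p) = a z
    rw [← hk k _ (by omega)]
    congr 1
    rw [hk'] at h3
    linarith
  have h1 : ∀ z, a' (z + p) = a' z := by
    intro z
    show a (q + (z + p - q) % p) = a (q + (z - q) % p)
    rw [show z + (p : ℤ) - q = (z - q) + p by ring, Int.add_emod_right]
  refine ⟨a', h1, h2, ?_⟩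
  have hk2 : ∀ (k : ℕ) z, a' (z + k * p) = a' z := by
    intro k
    induction k with
    | zero => intro z; simp
    | succ k ih =>
      intro z
      have e1 : z + ((k + 1 : ℕ) : ℤ) * p = (z + k * p) + p := by push_cast; ring
      rw [e1, h1, ih]
  intro u
  refine ⟨u + ((|u| + |q| + r).toNat : ℕ) * p, fun t ht => ?_⟩
  have h3 : (((|u| + |q| + r).toNat : ℕ) : ℤ) = |u| + |q| + r :=
    Int.toNat_of_nonneg (by positivity)
  rw [← h2 _ ?_]
  · rw [show u + (((|u| + |q| + (r : ℤ)).toNat : ℕ) : ℤ) * p + t =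
      (u + t) + (((|u| + |q| + (r : ℤ)).toNat : ℕ) : ℤ) * p by ring, hk2]
  · rw [h3]
    have h4 : |u| + |q| + r ≤ (|u| + |q| + r) * p := by
      have : (1 : ℤ) ≤ p := by omega
      have h5 : 0 ≤ |u| + |q| + (r : ℤ) := by positivity
      nlinarith
    have h6 := neg_abs_le u
    have h7 := le_abs_self q
    have h8 := (abs_le.1 ht).1
    linarith

theorem periodic_left {A : Type} (r : ℕ) (a : ℤ → A) (q : ℤ) (p : ℕ) (hp : 0 < p)
    (h : ∀ z, z ≤ q → a (z - p) = a z) :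
    ∃ a' : ℤ → A, (∀ z, a' (z + p) = a' z) ∧ (∀ z, z ≤ q → a' z = a z) ∧ Wins r a' a := by
  obtain ⟨b, h1, h2, h3⟩ := periodic_right r (fun t => a (-t)) (-q) p hp (fun z hz => by
    show a (-(z + p)) = a (-z)
    rw [show -(z + (p : ℤ)) = -z - p by ring]
    exact h (-z) (by omega))
  refine ⟨fun t => b (-t), ?_, ?_, ?_⟩
  · intro z
    show b (-(z + p)) = b (-z)
    rw [← h1 (-(z + p))]
    congr 1; ring
  · intro z hz
    show b (-z) = a z
    rw [h2 (-z) (by omega), neg_neg]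
  · intro u
    obtain ⟨v, hv⟩ := h3 (-u)
    refine ⟨-v, fun t ht => ?_⟩
    have h4 := hv (-t) (by rwa [abs_neg])
    show b (-(u + t)) = a (-v + t)
    rw [show -(u + t) = -u + -t by ring, h4]
    show a (-(v + -t)) = _
    congr 1; ring

end Vale.Agent.P192.H567
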