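import Vale.Agent.P192.H567.StmtDefs

/-! Finite groups have a free subgroup of rank zero and finite index. -/

namespace Vale.Agent.P192.H567

theorem vfree_of_finite (M : Type) [Group M] [Finite M] : VFree M := by
  refine ⟨⊥, 0, Subgroup.finiteIndex_of_finite, ⟨?_⟩⟩
  have h1 : Unique (⊥ : Subgroup M) := inferInstance
  have h2 : Unique (FreeGroup (Fin 0)) := inferInstance
  exact MulEquiv.ofUnique

end Vale.Agent.P192.H567
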