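import Vale.Agent.P192.H567.Comp
import Vale.Agent.P192.H630.Wob

set_option linter.all false

/-! Products of a set with small monochromatic components and a stack. -/

namespace Vale.Agent.P192.H567

open Vale.Agent.P192 Vale.Agent.P192.H593 Vale.Agent.P192.H437

universe u v

/-- the generator or its inverse -/
def gen {G : Type v} [Group G] {M : ℕ} (σ : Fin M → G) (l : Fin M × Bool) : G :=
  cond l.2 (σ l.1) (σ l.1)⁻¹

/-- at most `n` moves on `U` -/
def hopU {M : ℕ} {U : Type u} {A E : Type} (δ : Fin M × Bool → U → A → U × ℕ × List E) :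
    ℕ → U → U → Prop
  | 0, x, y => y = x
  | n + 1, x, y => ∃ x', hopU δ n x x' ∧ (y = x' ∨ ∃ l α, y = (δ l x' α).1)

theorem hopU_le {M : ℕ} {U : Type u} {A E : Type} (δ : Fin M × Bool → U → A → U × ℕ × List E)
    {m n : ℕ} (h : m ≤ n) {x y : U} (hxy : hopU δ m x y) : hopU δ n x y := by
  induction h with
  | refl => exact hxy
  | step _ ih => exact ⟨y, ih, Or.inl rfl⟩

theorem hopU_card {M : ℕ} {U : Type u} {A E : Type} [Finite A]
    (δ : Fin M × Bool → U → A → U × ℕ × List E) (n : ℕ) (x : U) :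
    {y | hopU δ n x y}.encard ≤ ((1 + Nat.card ((Fin M × Bool) × A)) ^ n : ℕ) := by
  induction n with
  | zero =>
    have h1 : {y | hopU δ 0 x y} = {x} := rfl
    rw [h1, Set.encard_singleton]; simp
  | succ n ih =>
    have h1 : {y | hopU δ (n + 1) x y} ⊆ ⋃ x' ∈ {y | hopU δ n x y},
        ({x'} ∪ Set.range (fun p : (Fin M × Bool) × A => (δ p.1 x' p.2).1)) := by
      rintro y ⟨x', h1, h2 | ⟨l, α, h2⟩⟩
      · exact Set.mem_biUnion h1 (Or.inl h2)
      · exact Set.mem_biUnion h1 (Or.inr ⟨(l, α), h2.symm⟩)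
    refine (Set.encard_le_encard h1).trans ?_
    rw [pow_succ]
    apply H630.biUnion_le _ _ _ _ ih
    intro x' _
    refine (Set.encard_union_le _ _).trans ?_
    rw [Set.encard_singleton, Nat.cast_add, Nat.cast_one]
    gcongr
    rw [← Set.image_univ]
    refine (Set.encard_image_le _ _).trans ?_
    rw [Set.encard_univ, ENat.card_eq_coe_natCard]

section

variable {G : Type v} [Group G] {M : ℕ} (σ : Fin M → G) {U V : Type u} [MulAction G (U × V)]
  {A E : Type} (ι : V → List E) (b : V → A) (δ : Fin M × Bool → U → A → U × ℕ × List E)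

/-- the rule extended by the identity -/
def dext (l : Fin M × Bool) (u : U) : Option A → U × ℕ × List E
  | none => (u, 0, [])
  | some α => δ l u α

open Classical in
/-- the colouring extended by `none` -/
noncomputable def bext (x : List E) : Option A :=
  if h : ∃ v, ι v = x then some (b h.choose) else none

theorem bext_range (hι : Function.Injective ι) (v : V) : bext ι b (ι v) = some (b v) := by
  have h : ∃ v', ι v' = ι v := ⟨v, rfl⟩
  rw [bext, dif_pos h, hι h.choose_spec]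

theorem bext_not {x : List E} (h : ¬ ∃ v, ι v = x) : bext ι b x = none := by
  rw [bext, dif_neg h]

variable (hι : Function.Injective ι)
  (hact : ∀ l u v, ((gen σ l) • ((u, v) : U × V)).1 = (δ l u (b v)).1 ∧
    ι ((gen σ l) • ((u, v) : U × V)).2 = (δ l u (b v)).2.2 ++ (ι v).drop (δ l u (b v)).2.1)

include hι hact in
theorem stp_range (l : Fin M × Bool) (z : U × V) :
    stp (dext δ) (bext ι b) l (z.1, ι z.2) = ((gen σ l • z).1, ι (gen σ l • z).2) := by
  unfold stp
  simp only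
  rw [bext_range ι b hι]
  obtain ⟨h1, h2⟩ := hact l z.1 z.2
  exact Prod.ext h1.symm h2.symm

theorem stp_not (l : Fin M × Bool) (u : U) {x : List E} (h : ¬ ∃ v, ι v = x) :
    stp (dext δ) (bext ι b) l (u, x) = (u, x) := by
  unfold stp
  simp only
  rw [bext_not ι b h]
  simp [dext]

include hι hact in
theorem run_range (W : List (Fin M × Bool)) (z : U × V) :
    run (dext δ) (bext ι b) W (z.1, ι z.2) =
      (((W.map (gen σ)).prod • z).1, ι ((W.map (gen σ)).prod • z).2) := by
  induction W with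
  | nil => simp [run_nil]
  | cons l W ih =>
    rw [run_cons, ih, stp_range σ ι b δ hι hact, List.map_cons, List.prod_cons, mul_smul]

theorem run_not (W : List (Fin M × Bool)) (u : U) {x : List E} (h : ¬ ∃ v, ι v = x) :
    run (dext δ) (bext ι b) W (u, x) = (u, x) := by
  induction W with
  | nil => rfl
  | cons l W ih => rw [run_cons, ih, stp_not ι b δ l u h]

include hι hact in
theorem good_ext {R : Set (FreeGroup (Fin M))} {c : ℕ}
    (hone : ∀ w ∈ R, (FreeGroup.lift σ : FreeGroup (Fin M) →* G) w = 1)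
    (hbd : ∀ l u α, (δ l u α).2.1 ≤ c ∧ (δ l u α).2.2.length ≤ c) :
    Good R c (dext δ) (bext ι b) := by
  refine ⟨?_, ?_, ?_⟩
  · rintro l u (_ | α)
    · exact ⟨Nat.zero_le _, Nat.zero_le _⟩
    · exact hbd l u α
  · rintro i ε ⟨u, x⟩
    by_cases h : ∃ v, ι v = x
    · obtain ⟨v, rfl⟩ := h
      rw [stp_range σ ι b δ hι hact (i, !ε) (u, v), stp_range σ ι b δ hι hact, smul_smul]
      have h1 : gen σ (i, ε) * gen σ (i, !ε) = 1 := by cases ε <;> simp [gen]
      rw [h1, one_smul]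
    · rw [stp_not ι b δ _ u h, stp_not ι b δ _ u h]
  · rintro w hw ⟨u, x⟩
    by_cases h : ∃ v, ι v = x
    · obtain ⟨v, rfl⟩ := h
      rw [run_range σ ι b δ hι hact w.toWord (u, v)]
      have h1 : (w.toWord.map (gen σ)).prod = 1 := by
        have h2 : (FreeGroup.lift σ) (FreeGroup.mk w.toWord) = (w.toWord.map (gen σ)).prod := by
          rw [FreeGroup.lift_mk]; rfl
        rw [← h2, FreeGroup.mk_toWord, hone w hw]
      rw [h1, one_smul]
    · exact run_not ι b δ _ u h

include hι hact in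
theorem con_of_list {B : Set U} {n : ℕ} (a : U × V) (hB : ∀ y, hopU δ n a.1 y → y ∈ B)
    (w : List G) (hw : ∀ s ∈ w, s ∈ Set.range σ ∨ s⁻¹ ∈ Set.range σ) (hn : w.length ≤ n) :
    hopU δ w.length a.1 (w.prod • a).1 ∧
      Con (dext δ) (bext ι b) B Set.univ (a.1, ι a.2) ((w.prod • a).1, ι (w.prod • a).2) := by
  induction w with
  | nil =>
    rw [List.prod_nil, one_smul]
    exact ⟨rfl, Relation.ReflTransGen.refl⟩
  | cons s w ih =>
    rw [List.length_cons] at hn
    obtain ⟨h1, h2⟩ := ih (fun t ht => hw t (by simp [ht])) (by omega)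
    obtain ⟨l, hl⟩ : ∃ l, s = gen σ l := by
      rcases hw s (by simp) with ⟨i, hi⟩ | ⟨i, hi⟩
      · exact ⟨(i, true), hi.symm⟩
      · refine ⟨(i, false), ?_⟩
        show s = (σ i)⁻¹
        rw [hi, inv_inv]
    rw [List.prod_cons, mul_smul, hl]
    have h3 : hopU δ (w.length + 1) a.1 (gen σ l • (w.prod • a)).1 := by
      refine ⟨_, h1, Or.inr ⟨l, b (w.prod • a).2, ?_⟩⟩
      exact (hact l (w.prod • a).1 (w.prod • a).2).1
    refine ⟨h3, h2.tail ⟨⟨hB _ (hopU_le δ (by omega) h1), trivial⟩,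
      ⟨hB _ (hopU_le δ (by omega) h3), trivial⟩, l, ?_⟩⟩
    exact stp_range σ ι b δ hι hact l (w.prod • a)

end

/-- PRODUCTS with a stack, for a generating tuple -/
theorem main_tuple (G : Type v) [Group G] [Group.IsFinitelyPresented G] (hG : IsMulTorsion G)
    {M : ℕ} (σ : Fin M → G) (hσ : Subgroup.closure (Set.range σ) = ⊤) (A E : Type) [Finite A]
    [Finite E] (c : ℕ) :
    ∃ R : ℕ, ∀ D : ℕ, ∃ N : Subgroup G, N.Normal ∧ N.FiniteIndex ∧
      ∀ (U V : Type u) [MulAction G (U × V)] (ι : V → List E) (b : V → A)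
        (δ : Fin M × Bool → U → A → U × ℕ × List E), Function.Injective ι →
        (∀ l u α, (δ l u α).2.1 ≤ c ∧ (δ l u α).2.2.length ≤ c) →
        (∀ l u v, ((gen σ l) • ((u, v) : U × V)).1 = (δ l u (b v)).1 ∧
          ι ((gen σ l) • ((u, v) : U × V)).2 =
            (δ l u (b v)).2.2 ++ (ι v).drop (δ l u (b v)).2.1) →
        ∀ C : Set U, (∀ u, {u' | Relation.ReflTransGen
          (fun x y => (x ∈ C ↔ y ∈ C) ∧ hopU δ R x y) u u'}.encard ≤ D) →
        ∀ g ∈ N, ∀ z : U × V, g • z = z := by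
  classical
  obtain ⟨Dt⟩ := exists_data G hG σ hσ
  obtain ⟨R, hR⟩ := uniform_colour.{u, v} G hG (Set.range σ) hσ
  refine ⟨R, fun D => ?_⟩
  obtain ⟨K, hK⟩ := slab_card.{u} M (c + 1) Dt.r
    (D * (1 + Nat.card ((Fin M × Bool) × A)) ^ R) Dt.hr (Nat.succ_pos c) Dt.R Dt.hR Dt.htors
    (Option A) E
  obtain ⟨N, h1, h2, h3⟩ := hR K
  refine ⟨N, h1, h2, ?_⟩
  intro U V _ ι b δ hι hbd hact C hC g hg z
  refine h3 (U × V) {z | z.1 ∈ C} ?_ g hg z
  clear g hg z
  intro z
  have hgood : Good Dt.R (c + 1) (dext δ) (bext ι b) :=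
    good_ext σ ι b δ hι hact Dt.hone
      (fun l u α => ⟨(hbd l u α).1.trans (Nat.le_succ c), (hbd l u α).2.trans (Nat.le_succ c)⟩)
  let CC : Set U := {u' | Relation.ReflTransGen
          (fun x y => (x ∈ C ↔ y ∈ C) ∧ hopU δ R x y) z.1 u'}
  let B : Set U := ⋃ u' ∈ CC, {y | hopU δ R u' y}
  have hBcard : B.encard ≤ (D * (1 + Nat.card ((Fin M × Bool) × A)) ^ R : ℕ) :=
    H630.biUnion_le _ _ _ _ (hC z.1) (fun x _ => hopU_card δ R x)
  have key : ∀ z', mono (Set.range σ) R {z : U × V | z.1 ∈ C} z z' → z'.1 ∈ CC ∧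
      Con (dext δ) (bext ι b) B Set.univ (z.1, ι z.2) (z'.1, ι z'.2) := by
    intro z' hz'
    induction hz' with
    | refl => exact ⟨Relation.ReflTransGen.refl, Relation.ReflTransGen.refl⟩
    | @tail a a' _ hst ih =>
      obtain ⟨hab, w, hw, hwR, rfl⟩ := hst
      obtain ⟨ih1, ih2⟩ := ih
      obtain ⟨h4, h5⟩ := con_of_list σ ι b δ hι hact (B := B) (n := R) a
        (fun y hy => Set.mem_biUnion ih1 hy) w hw hwR
      exact ⟨Relation.ReflTransGen.tail ih1 ⟨hab, hopU_le δ hwR h4⟩, ih2.trans h5⟩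
  have hj : Function.Injective (fun z : U × V => (z.1, ι z.2)) := by
    rintro ⟨u, v⟩ ⟨u', v'⟩ h
    have e1 : u = u' := congrArg Prod.fst h
    have e2 : ι v = ι v' := congrArg Prod.snd h
    rw [e1, hι e2]
  rw [← hj.encard_image]
  refine (Set.encard_le_encard ?_).trans (hK U (dext δ) (bext ι b) hgood B hBcard (z.1, ι z.2))
  rintro _ ⟨z', hz', rfl⟩
  exact (key z' hz').2

end Vale.Agent.P192.H567
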