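import Vale.Agent.P192.H567.Main
import Vale.Agent.P192.H567.Enc

set_option linter.all false

/-! Products of a set with small monochromatic components and a subset of a free group. -/

namespace Vale.Agent.P192.H567

open Vale.Agent.P192 Vale.Agent.P192.H593 Vale.Agent.P192.H437

universe u v

/-- at most `n` steps -/
def hopN {U : Type u} (r : U → U → Prop) : ℕ → U → U → Prop
  | 0, x, y => y = x
  | n + 1, x, y => ∃ x', hopN r n x x' ∧ (y = x' ∨ r x' y)

theorem hopN_mono {U : Type u} {r r' : U → U → Prop} (h : ∀ x y, r x y → r' x y) {n : ℕ} {x y : U}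
    (hxy : hopN r n x y) : hopN r' n x y := by
  induction n generalizing y with
  | zero => exact hxy
  | succ n ih =>
    obtain ⟨x', h1, h2⟩ := hxy
    exact ⟨x', ih h1, h2.imp id (h _ _)⟩

theorem main_free (G : Type v) [Group G] [Group.IsFinitelyPresented G] (hG : IsMulTorsion G)
    {M : ℕ} (σ : Fin M → G) (hσ : Subgroup.closure (Set.range σ) = ⊤) (A E : Type) [Finite A]
    [Finite E] [DecidableEq E] (c : ℕ) :
    ∃ R : ℕ, ∀ D : ℕ, ∃ N : Subgroup G, N.Normal ∧ N.FiniteIndex ∧
      ∀ (U V : Type u) [MulAction G (U × V)] (κ : V → FreeGroup E) (b : V → A)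
        (φ : Fin M × Bool → U → A → U) (h : Fin M × Bool → U → A → FreeGroup E),
        Function.Injective κ → (∀ l u α, (h l u α).norm ≤ c) →
        (∀ l u v, ((gen σ l) • ((u, v) : U × V)).1 = φ l u (b v) ∧
          κ ((gen σ l) • ((u, v) : U × V)).2 = h l u (b v) * κ v) →
        ∀ C : Set U, (∀ u, {u' | Relation.ReflTransGen
          (fun x y => (x ∈ C ↔ y ∈ C) ∧ hopN (fun x y => ∃ l α, y = φ l x α) R x y) u u'}.encard
            ≤ D) →
        ∀ g ∈ N, ∀ z : U × V, g • z = z := by
  classical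
  let Wd : Type := {w : List (E × Bool) // w.length ≤ c}
  have hWd : Finite Wd := (List.finite_length_le (E × Bool) c).to_subtype
  obtain ⟨F, hF⟩ := exists_enc E c
  obtain ⟨R, hR⟩ := main_tuple.{u, v} G hG σ hσ (A × Wd) (E × Bool) c
  refine ⟨R, fun D => ?_⟩
  obtain ⟨N, h1, h2, h3⟩ := hR D
  refine ⟨N, h1, h2, ?_⟩
  intro U V _ κ b φ h hκ hc hact C hC g hg z
  have hlen : ∀ v : V, ((κ v).toWord.take c).length ≤ c := fun v => by
    rw [List.length_take]; exact min_le_left _ _
  let δ : Fin M × Bool → U → A × Wd → U × ℕ × List (E × Bool) :=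
    fun l u α => (φ l u α.1, F (h l u α.1) α.2.1)
  refine h3 U V (fun v => (κ v).toWord) (fun v => (b v, ⟨(κ v).toWord.take c, hlen v⟩)) δ
    (FreeGroup.toWord_injective.comp hκ) ?_ ?_ C ?_ g hg z
  · intro l u α
    obtain ⟨e1, e2, -⟩ := hF (h l u α.1) α.2.1
    exact ⟨e1.trans (hc l u α.1), e2.trans (hc l u α.1)⟩
  · intro l u v
    obtain ⟨e1, e2⟩ := hact l u v
    refine ⟨e1, ?_⟩
    show (κ ((gen σ l) • ((u, v) : U × V)).2).toWord = _
    rw [e2]
    exact (hF (h l u (b v)) ((κ v).toWord.take c)).2.2 (κ v) rfl (hc l u (b v))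
  · intro u
    refine (Set.encard_le_encard ?_).trans (hC u)
    intro u' hu'
    refine Relation.ReflTransGen.mono ?_ _ _ hu'
    rintro x y ⟨e1, e2⟩
    refine ⟨e1, ?_⟩
    have key : ∀ n x y, hopU δ n x y → hopN (fun x y => ∃ l α, y = φ l x α) n x y := by
      intro n
      induction n with
      | zero => exact fun x y h => h
      | succ n ih =>
        rintro x y ⟨x', f1, f2 | ⟨l, α, f2⟩⟩
        · exact ⟨x', ih _ _ f1, Or.inl f2⟩
        · exact ⟨x', ih _ _ f1, Or.inr ⟨l, α.1, f2⟩⟩
    exact key R x y e2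

/-- restriction of an action along an injective map with invariant range -/
theorem exists_restrict {G : Type v} [Group G] {X Y : Type u} [MulAction G X] (j : Y → X)
    (hj : Function.Injective j) (h : ∀ (g : G) (y : Y), ∃ y', j y' = g • j y) :
    ∃ inst : MulAction G Y, ∀ (g : G) (y : Y), j (g • y) = g • j y := by
  choose f hf using h
  refine ⟨{ smul := f, one_smul := ?_, mul_smul := ?_ }, hf⟩
  · intro g g' y
    apply hj
    show j (f (g * g') y) = j (f g (f g' y))
    rw [hf, hf, hf, mul_smul]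
  · intro y
    apply hj
    show j (f 1 y) = j y
    rw [hf, one_smul]

/-- invariance under generators suffices -/
theorem invariant_of_gen {G : Type v} [Group G] {M : ℕ} (σ : Fin M → G)
    (hσ : Subgroup.closure (Set.range σ) = ⊤) {X Y : Type u} [MulAction G X] (j : Y → X)
    (h : ∀ l y, ∃ y', j y' = gen σ l • j y) (g : G) (y : Y) : ∃ y', j y' = g • j y := by
  have key : ∀ g ∈ Subgroup.closure (Set.range σ), (∀ y, ∃ y', j y' = g • j y) := by
    intro g hg
    have : ∀ g ∈ Subgroup.closure (Set.range σ), (∀ y, ∃ y', j y' = g • j y) ∧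
        (∀ y, ∃ y', j y' = g⁻¹ • j y) := by
      intro g hg
      induction hg using Subgroup.closure_induction with
      | mem x hx =>
        obtain ⟨i, rfl⟩ := hx
        exact ⟨fun y => h (i, true) y, fun y => h (i, false) y⟩
      | one => exact ⟨fun y => ⟨y, by simp⟩, fun y => ⟨y, by simp⟩⟩
      | mul x x' _ _ ih ih' =>
        refine ⟨fun y => ?_, fun y => ?_⟩
        · obtain ⟨y1, e1⟩ := ih'.1 y
          obtain ⟨y2, e2⟩ := ih.1 y1
          exact ⟨y2, by rw [e2, e1, mul_smul]⟩
        · obtain ⟨y1, e1⟩ := ih.2 y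
          obtain ⟨y2, e2⟩ := ih'.2 y1
          exact ⟨y2, by rw [e2, e1, mul_inv_rev, mul_smul]⟩
      | inv x _ ih => exact ⟨ih.2, by simpa using ih.1⟩
    exact (this g hg).1
  exact key g (by rw [hσ]; trivial) y

end Vale.Agent.P192.H567
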