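import Vale.Agent.P192.H567.Conn

set_option linter.all false

/-! Periodic systems have an element of infinite order. -/

namespace Vale.Agent.P192.H567

universe u

section

variable {M : ℕ} {U : Type u} {A E : Type}
variable {R : Set (FreeGroup (Fin M))} {c : ℕ} {δ : Fin M × Bool → U → A → U × ℕ × List E}
    {β : List E → A} {B : Set U} {z₀ : U × List E} {a y₀ t : List E}

theorem Tk_add (i m : ℕ) : Yp (y₀ ++ a) i ++ Tk a y₀ t m = Tk a y₀ t (i + m) := by
  unfold Tk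
  rw [Yp_add, List.append_assoc]

theorem not_Bef_of_lt (w : List E) {k m : ℕ} (h : k < m) : w ++ Tk a y₀ t m ∉ Bef a y₀ t k := by
  obtain ⟨d, rfl⟩ : ∃ d, m = d + (k + 1) := ⟨m - (k + 1), by omega⟩
  intro hcon
  rw [← Tk_add, Tk_succ] at hcon
  have e : w ++ (Yp (y₀ ++ a) d ++ (y₀ ++ a ++ Tk a y₀ t k)) =
      (w ++ Yp (y₀ ++ a) d ++ (y₀ ++ a)) ++ Tk a y₀ t k := by
    simp only [List.append_assoc]
  rw [e] at hcon
  apply (mem_Bef_iff (a := a) (y₀ := y₀) (t := t) _ k).1 hcon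
  rw [← List.append_assoc]
  exact List.suffix_append _ _

theorem suf_Yp {i : ℕ} (hi : 1 ≤ i) (w : List E) : a <:+ w ++ Yp (y₀ ++ a) i := by
  obtain ⟨k, rfl⟩ : ∃ k, i = k + 1 := ⟨i - 1, by omega⟩
  show a <:+ w ++ ((y₀ ++ a) ++ Yp (y₀ ++ a) k)
  rw [Yp_comm]
  simp only [← List.append_assoc]
  exact List.suffix_append _ _

/-- a step whose target lies above the level `k` -/
def Tgt (δ : Fin M × Bool → U → A → U × ℕ × List E) (β : List E → A) (B : Set U)
    (a y₀ t : List E) (k : ℕ) (z z' : U × List E) : Prop :=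
  (∃ l, stp δ β l z = z') ∧ z.1 ∈ B ∧ z'.1 ∈ B ∧ z'.2 ∉ Bef a y₀ t k

theorem rA_of_Tgt {k : ℕ} {z x : U × List E} (hz : z.2 ∉ Bef a y₀ t 0)
    (h : Relation.ReflTransGen (Tgt δ β B a y₀ t k) z x) :
    Relation.ReflTransGen (Rl δ β B (Bef a y₀ t 0)ᶜ) z x ∧ x.2 ∉ Bef a y₀ t 0 := by
  induction h with
  | refl => exact ⟨Relation.ReflTransGen.refl, hz⟩
  | @tail b c hb hbc ih =>
    obtain ⟨hl, h1, h2, h3⟩ := hbc
    have h4 : c.2 ∉ Bef a y₀ t 0 := fun hcon => h3 (Bef_mono _ _ _ (Nat.zero_le k) hcon)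
    exact ⟨ih.1.tail ⟨⟨h1, ih.2⟩, ⟨h2, h4⟩, hl⟩, h4⟩

theorem exists_codes (h : Per R c δ β B z₀ a y₀ t) (K : ℕ) (p : U × List E)
    (hcon : Con δ β B Set.univ z₀ (Pt z₀ a y₀ t K (some p))) (k : ℕ) (hk : k < K) :
    ∃ f : ℕ → U × List E, (∀ i ≤ k, Val B c a (some (f i))) ∧
      (∀ i, 1 ≤ i → i < k → Relation.ReflTransGen (Rl δ β B (Bef a y₀ t 0)ᶜ)
        (Pt z₀ a y₀ t i (some (f i))) (Pt z₀ a y₀ t (i + 1) (some (f (i + 1))))) ∧
      Relation.ReflTransGen (Tgt δ β B a y₀ t k) (Pt z₀ a y₀ t k (some (f k)))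
        (Pt z₀ a y₀ t K (some p)) := by
  induction k with
  | zero =>
    obtain ⟨x, y, h1, h2, ⟨hxB, hyB, l, hl⟩, h4, h5⟩ := last_entrance _ {z : U × List E | z.2 ∉ Bef a y₀ t 0}
      hcon (by intro hcon'; exact hcon' h.z0) (not_Bef_of_lt p.2 hk)
    have h2' : x.2 ∈ Bef a y₀ t 0 := not_not.1 h2
    obtain ⟨w, e1, e2, e3, -⟩ := cross h 0 l x h2' (by rw [hl]; exact h4)
    refine ⟨fun _ => (x.1, w), fun i _ => ⟨hxB.1, e2, e3⟩, fun i h1 h2 => by omega, ?_⟩
    have e4 : Pt z₀ a y₀ t 0 (some (x.1, w)) = x := by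
      show (x.1, w ++ Tk a y₀ t 0) = x
      rw [← e1]
    rw [e4]
    refine Relation.ReflTransGen.head (b := y) ⟨⟨l, hl⟩, hxB.1, hyB.1, h4⟩ ?_
    exact Relation.ReflTransGen.mono (fun a b hab => ⟨hab.1.2.2, hab.1.1.1, hab.1.2.1.1, hab.2.2⟩)
      _ _ h5
  | succ k ih =>
    obtain ⟨f, hf1, hf2, hf3⟩ := ih (by omega)
    have hk0 := hf1 k le_rfl
    have hPk : (Pt z₀ a y₀ t k (some (f k))).2 ∈ Bef a y₀ t (k + 1) :=
      Bef_succ _ _ _ _ ((mem_Bef_iff (f k).2 k).2 hk0.2.2)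
    obtain ⟨x, y, h1, h2, ⟨⟨l, hl⟩, hxB, hyB, hy0⟩, h4, h5⟩ := last_entrance _
      {z : U × List E | z.2 ∉ Bef a y₀ t (k + 1)} hf3 (by intro hcon'; exact hcon' hPk) (not_Bef_of_lt p.2 hk)
    have h2' : x.2 ∈ Bef a y₀ t (k + 1) := not_not.1 h2
    obtain ⟨w, e1, e2, e3, -⟩ := cross h (k + 1) l x h2' (by rw [hl]; exact h4)
    have e4 : Pt z₀ a y₀ t (k + 1) (some (x.1, w)) = x := by
      show (x.1, w ++ Tk a y₀ t (k + 1)) = x
      rw [← e1]
    refine ⟨fun i => if i = k + 1 then (x.1, w) else f i, ?_, ?_, ?_⟩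
    · intro i hi
      by_cases hi' : i = k + 1
      · simp only [if_pos hi']
        exact ⟨hxB, e2, e3⟩
      · simp only [if_neg hi']
        exact hf1 i (by omega)
    · intro i hi1 hi2
      have n1 : i ≠ k + 1 := by omega
      simp only [if_neg n1]
      by_cases hi' : i = k
      · subst hi'
        simp only [if_true]
        rw [e4]
        exact (rA_of_Tgt (not_Bef_of_lt (f i).2 (by omega)) h1).1
      · have n2 : i + 1 ≠ k + 1 := by omega
        simp only [if_neg n2]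
        exact hf2 i hi1 (by omega)
    · simp only [if_true]
      rw [e4]
      refine Relation.ReflTransGen.head (b := y) ⟨⟨l, hl⟩, hxB, hyB, h4⟩ ?_
      exact Relation.ReflTransGen.mono (fun a b hab => ⟨hab.1.1, hab.1.2.1, hab.1.2.2.1, hab.2.2⟩)
        _ _ h5

/-- the word of a path above the level `0` acts at all levels -/
theorem exists_word (h : Per R c δ β B z₀ a y₀ t) {z z' : U × List E}
    (hzz : Relation.ReflTransGen (Rl δ β B (Bef a y₀ t 0)ᶜ) z z') :
    ∀ w w' : List E, z.2 = w ++ t → z'.2 = w' ++ t →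
      ∃ W : List (Fin M × Bool), ∀ m, run δ β W (z.1, w ++ Tk a y₀ t m) = (z'.1, w' ++ Tk a y₀ t m) := by
  induction hzz with
  | refl =>
    intro w w' h1 h2
    have h3 := List.append_cancel_right (h1.symm.trans h2)
    subst h3
    exact ⟨[], fun m => rfl⟩
  | @tail z1 z2 _ hst ih =>
    intro w w' h1 h2
    obtain ⟨⟨hB, hS⟩, ⟨hB', hS'⟩, l, hl⟩ := hst
    obtain ⟨w1, e1, e2⟩ := exists_suf_of_not_Bef (a := a) (y₀ := y₀) (t := t) (k := 0) hS
    obtain ⟨W, hW⟩ := ih w w1 h1 e2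
    obtain ⟨u', w'', e5⟩ := edge_aft h l z1.1 w1 e1
    have e6 : z1 = (z1.1, w1 ++ Tk a y₀ t 0) := Prod.ext rfl e2
    have e7 := e5 0
    rw [← e6, hl] at e7
    have e8 : w' = w'' := by
      apply List.append_cancel_right (bs := t)
      rw [← h2, e7]; rfl
    refine ⟨l :: W, fun m => ?_⟩
    rw [run_cons, hW m, e5 m, e8, e7]

/-- the contradiction -/
theorem no_pump [Finite E] (h : Per R c δ β B z₀ a y₀ t) (hB : B.Finite)
    (htor : ∀ g : FreeGroup (Fin M), ∃ m : ℕ, 0 < m ∧ g ^ m ∈ Subgroup.normalClosure R)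
    (hrel : ∀ p p', Val B c a p → Val B c a p' →
      Con δ β B (Bef a y₀ t 0) (Pt z₀ a y₀ t 0 p) (Pt z₀ a y₀ t 0 p') →
      Con δ β B (Bef a y₀ t 1) (Pt z₀ a y₀ t 1 p) (Pt z₀ a y₀ t 1 p'))
    (p : U × List E) (hp : Val B c a (some p))
    (hcon : Con δ β B (Bef a y₀ t 0) z₀ (Pt z₀ a y₀ t 0 (some p))) : False := by
  classical
  have hVfin : {q : U × List E | Val B c a (some q)}.Finite := by
    refine Set.Finite.subset (hB.prod (List.finite_length_le E (2 * c))) ?_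
    rintro ⟨u, w⟩ ⟨h1, h2, -⟩
    exact ⟨h1, h2⟩
  set V := hVfin.toFinset with hV
  set K := V.card + 3 with hK
  have hconK := (all_levels h hrel K none (some p) trivial hp hcon).mono (Set.subset_univ _)
  obtain ⟨f, hf1, hf2, -⟩ := exists_codes h K p hconK (K - 1) (by omega)
  obtain ⟨i, hi, j, hj, hij, hfij⟩ : ∃ i ∈ Finset.Icc 1 (K - 1), ∃ j ∈ Finset.Icc 1 (K - 1),
      i ≠ j ∧ f i = f j := by
    apply Finset.exists_ne_map_eq_of_card_lt_of_maps_to (t := V)
    · rw [Nat.card_Icc]; omega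
    · intro i hi
      have hi' := Finset.mem_Icc.1 hi
      rw [hV, Set.Finite.coe_toFinset]
      exact hf1 i hi'.2
  wlog hlt : i < j generalizing i j
  · exact this j hj i hi hij.symm hfij.symm (by omega)
  rw [Finset.mem_Icc] at hi hj
  have hchain : ∀ j, i ≤ j → j ≤ K - 1 → Relation.ReflTransGen (Rl δ β B (Bef a y₀ t 0)ᶜ)
      (Pt z₀ a y₀ t i (some (f i))) (Pt z₀ a y₀ t j (some (f j))) := by
    intro j hij'
    induction j, hij' using Nat.le_induction with
    | base => exact fun _ => Relation.ReflTransGen.refl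
    | succ j hij'' ih => exact fun hj' => (ih (by omega)).trans (hf2 j (by omega) (by omega))
  have h1 := hchain j hlt.le hj.2
  rw [← hfij] at h1
  obtain ⟨⟨u, w0⟩, hq⟩ : ∃ q, f i = q := ⟨_, rfl⟩
  rw [hq] at h1
  obtain ⟨W, hW⟩ := exists_word h h1 (w0 ++ Yp (y₀ ++ a) i) (w0 ++ Yp (y₀ ++ a) j)
    (by show w0 ++ Tk a y₀ t i = _; unfold Tk; rw [List.append_assoc])
    (by show w0 ++ Tk a y₀ t j = _; unfold Tk; rw [List.append_assoc])
  have hW' : ∀ m, run δ β W (u, w0 ++ Tk a y₀ t (i + m)) = (u, w0 ++ Tk a y₀ t (j + m)) := by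
    intro m
    have := hW m
    rw [List.append_assoc, List.append_assoc, Tk_add, Tk_add] at this
    exact this
  have hit : ∀ n, (run δ β W)^[n] (u, w0 ++ Tk a y₀ t i) =
      (u, w0 ++ Tk a y₀ t (i + n * (j - i))) := by
    intro n
    induction n with
    | zero => simp
    | succ n ih =>
      rw [Function.iterate_succ_apply', ih, hW']
      congr 3
      have : (n + 1) * (j - i) = n * (j - i) + (j - i) := by ring
      rw [this]; omega
  obtain ⟨n, hn, hn'⟩ := exists_period h.good htor W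
  have h2 := (hit n).symm.trans (hn' _)
  have h3 := congrArg (fun z : U × List E => z.2.length) h2
  simp only [List.length_append, Tk, Yp_length] at h3
  have h4 : 0 < (y₀.length + a.length) := by rw [h.ha]; have := h.hc; omega
  have h5 : (i + n * (j - i)) * (y₀.length + a.length) = i * (y₀.length + a.length) := by omega
  have h6 := Nat.eq_of_mul_eq_mul_right h4 h5
  have h7 : 0 < n * (j - i) := Nat.mul_pos hn (by omega)
  omega

end

end Vale.Agent.P192.H567
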