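import Vale.Agent.P192.H567.NoPump

set_option linter.all false

/-! The slab lemma: components of `B × stack` are bounded. -/

namespace Vale.Agent.P192.H567

universe u

section

variable {M : ℕ} {U : Type u} {A E : Type}

theorem pump_col {c : ℕ} {a y₀ t : List E} (ha : a.length = c) (hy : y₀ ≠ [])
    (hs : (a ++ t).length < (a ++ (y₀ ++ (a ++ t))).length) (b : List E → A)
    (hcol : ∀ w : List E, w.length ≤ 2 * c → b (w ++ t) = b (w ++ (y₀ ++ (a ++ t)))) (k : ℕ) :
    ∀ w : List E, (a <:+ w ∨ w.length ≤ 2 * c) →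
      pump (a ++ t) (a ++ (y₀ ++ (a ++ t))) hs b (w ++ Tk a y₀ t k) =
        pump (a ++ t) (a ++ (y₀ ++ (a ++ t))) hs b (w ++ t) := by
  induction k with
  | zero => intro w _; rfl
  | succ k ih =>
    intro w hw
    have e1 : w ++ Tk a y₀ t (k + 1) = (w ++ Yp (y₀ ++ a) k) ++ (y₀ ++ (a ++ t)) := by
      unfold Tk
      show w ++ (((y₀ ++ a) ++ Yp (y₀ ++ a) k) ++ t) = _
      rw [Yp_comm]
      simp only [List.append_assoc]
    by_cases h1 : a <:+ w ++ Yp (y₀ ++ a) k
    · obtain ⟨w'', hw''⟩ := h1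
      rw [← ih w hw]
      have e2 : w ++ Tk a y₀ t k = w'' ++ (a ++ t) := by
        unfold Tk
        rw [← List.append_assoc, ← hw'', List.append_assoc]
      rw [e1, e2, ← hw'', List.append_assoc, pump_append]
    · have hk : k = 0 := by
        by_contra hk
        exact h1 (suf_Yp (by omega) w)
      subst hk
      have e3 : w ++ Yp (y₀ ++ a) 0 = w := by simp [Yp]
      rw [e3] at h1 e1
      rcases hw with hw | hw
      · exact absurd hw h1
      · rw [e1, pump_not, ← hcol w hw, pump_not]
        · intro hcon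
          have h2 := hcon.length_le
          have h3 : 0 < y₀.length := List.length_pos_iff.2 hy
          simp only [List.length_append] at h2
          omega
        · rw [suf_iff]; exact h1

end

/-- THE SLAB LEMMA -/
theorem slab (M c r n : ℕ) (hr : 2 ≤ r) (hc : 0 < c) (R : Set (FreeGroup (Fin M)))
    (hR : ∀ w ∈ R, w.norm ≤ r)
    (htor : ∀ g : FreeGroup (Fin M), ∃ m : ℕ, 0 < m ∧ g ^ m ∈ Subgroup.normalClosure R)
    (A E : Type) [Finite A] [Finite E] :
    ∃ n₀ : ℕ, ∀ (U : Type u) (δ : Fin M × Bool → U → A → U × ℕ × List E) (b : List E → A),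
      Good R c δ b → ∀ (e : Fin n → U) (z z' : U × List E),
      Con δ b (Set.range e) Set.univ z z' → ∀ v s : List E, z'.2 = v ++ s →
      (∀ x : List E, x <:+ z'.2 → x <:+ z.2 → x.length ≤ s.length) → v.length ≤ n₀ := by
  classical
  let Wd : ℕ → Type := fun k => {w : List E // w.length ≤ k}
  have hWd : ∀ k, Finite (Wd k) := fun k => (List.finite_length_le E k).to_subtype
  let Code : Type := Option (Fin n × Wd (2 * c))
  have hCode : Finite Code := by
    have := hWd (2 * c)
    infer_instance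
  let τ : Type := Wd c × (Wd (2 * (c * r) + 2 * c) → A) × (Code → Code → Prop)
  have hτ : Finite τ := by
    have := hWd c
    have := hWd (2 * (c * r) + 2 * c)
    infer_instance
  set g : ℕ := 2 * (c * r) + 2 * c + 1 with hg
  refine ⟨1 + g * Nat.card τ + c, ?_⟩
  intro U δ b hgood e z z' hcon v s hvs hlong
  by_contra hv
  push Not at hv
  set X := z'.2 with hX
  set m := s.length with hm
  have hN : X.length = v.length + m := by rw [hvs, List.length_append]
  let lv : ℕ → ℕ := fun i => m + 1 + g * i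
  let tt : ℕ → List E := fun i => X.drop (X.length - lv i)
  let aa : ℕ → List E := fun i => (X.drop (X.length - lv i - c)).take c
  have hlv : ∀ i ≤ Nat.card τ, lv i + c ≤ X.length := by
    intro i hi
    have h1 : g * i ≤ g * Nat.card τ := Nat.mul_le_mul_left g hi
    show m + 1 + g * i + c ≤ X.length
    omega
  have htt : ∀ i ≤ Nat.card τ, (tt i).length = lv i := by
    intro i hi
    have := hlv i hi
    show (X.drop (X.length - lv i)).length = lv i
    rw [List.length_drop]; omega
  have haa : ∀ i ≤ Nat.card τ, (aa i).length = c := by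
    intro i hi
    have := hlv i hi
    show ((X.drop (X.length - lv i - c)).take c).length = c
    rw [List.length_take, List.length_drop]; omega
  have hat : ∀ i ≤ Nat.card τ, aa i ++ tt i = X.drop (X.length - lv i - c) := by
    intro i hi
    have := hlv i hi
    show (X.drop (X.length - lv i - c)).take c ++ X.drop (X.length - lv i) = _
    have h1 : X.drop (X.length - lv i) = (X.drop (X.length - lv i - c)).drop c := by
      rw [List.drop_drop]; congr 1; omega
    rw [h1, List.take_append_drop]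
  have hatX : ∀ i ≤ Nat.card τ, (aa i ++ tt i) <:+ X := by
    intro i hi; rw [hat i hi]; exact List.drop_suffix _ _
  let Q : ℕ → Code → U × List E := fun i p =>
    match p with
    | none => z
    | some q => (e q.1, q.2.1 ++ tt i)
  let T : Fin (Nat.card τ + 1) → τ := fun i =>
    (⟨aa i, by rw [haa i (by omega)]⟩, fun w => b (w.1 ++ tt i),
      fun p p' => Con δ b (Set.range e) {x | ¬ (aa i ++ tt i) <:+ x} (Q i p) (Q i p'))
  obtain ⟨i, j, hij, hT⟩ : ∃ i j, i ≠ j ∧ T i = T j := by
    by_contra hno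
    push Not at hno
    have hinj : Function.Injective T := by
      intro i j h
      by_contra hne
      exact hno i j hne h
    have h1 := Nat.card_le_card_of_injective T hinj
    rw [Nat.card_eq_fintype_card, Fintype.card_fin] at h1
    omega
  wlog hlt : i < j generalizing i j
  · exact this j i hij.symm hT.symm (lt_of_le_of_ne (not_lt.1 hlt) hij.symm)
  have hi : (i : ℕ) ≤ Nat.card τ := by omega
  have hj : (j : ℕ) ≤ Nat.card τ := by omega
  have hlt' : (i : ℕ) + 1 ≤ j := hlt
  have hgij : lv i + g ≤ lv j := by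
    show m + 1 + g * (i : ℕ) + g ≤ m + 1 + g * (j : ℕ)
    have h1 : g * ((i : ℕ) + 1) ≤ g * (j : ℕ) := Nat.mul_le_mul_left g hlt'
    rw [Nat.mul_add, Nat.mul_one] at h1
    omega
  have hTa : aa i = aa j := congrArg (fun x : τ => x.1.1) hT
  have hTb : ∀ w : List E, w.length ≤ 2 * (c * r) + 2 * c → b (w ++ tt i) = b (w ++ tt j) := by
    intro w hw
    exact congrFun (congrArg (fun x : τ => x.2.1) hT) ⟨w, hw⟩
  have hTc : ∀ p p' : Code,
      Con δ b (Set.range e) {x | ¬ (aa i ++ tt i) <:+ x} (Q i p) (Q i p') →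
      Con δ b (Set.range e) {x | ¬ (aa j ++ tt j) <:+ x} (Q j p) (Q j p') := by
    intro p p' h
    have h1 := congrFun (congrFun (congrArg (fun x : τ => x.2.2) hT) p) p'
    exact cast h1 h
  obtain ⟨y₀, hy₀⟩ : (aa i ++ tt i) <:+ tt j := by
    apply List.suffix_of_suffix_length_le (hatX i hi) (List.drop_suffix _ _)
    have h1 := htt j hj
    rw [List.length_append, haa i hi, htt i hi]
    change _ ≤ (tt j).length
    rw [h1]
    omega
  -- the periodic system
  have hai : (aa i).length = c := haa i hi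
  have hti : (tt i).length = lv i := htt i hi
  have htj : (tt j).length = lv j := htt j hj
  have hatj := hatX j hj
  have hati := hatX i hi
  rw [← hTa] at hatj hTc
  clear_value T
  clear hT hTa
  generalize hae : aa i = a at *
  generalize hte : tt i = t at *
  have hlen : (y₀ ++ (a ++ t)).length = lv j := by rw [hy₀]; exact htj
  have hy0 : y₀ ≠ [] := by
    intro h0
    rw [h0] at hlen
    rw [List.nil_append, List.length_append] at hlen
    omega
  have hs : (a ++ t).length < (a ++ (y₀ ++ (a ++ t))).length := by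
    have h3 : 0 < y₀.length := List.length_pos_iff.2 hy0
    simp only [List.length_append]; omega
  rw [← hy₀] at hTb hatj
  have hBef0 : Bef a y₀ t 0 = {x | ¬ (a ++ t) <:+ x} := rfl
  have hT1 : Tk a y₀ t 1 = y₀ ++ (a ++ t) := by rw [Tk_succ, Tk_zero, List.append_assoc]
  have hBef1 : Bef a y₀ t 1 = {x | ¬ (a ++ (y₀ ++ (a ++ t))) <:+ x} := by
    unfold Bef; rw [hT1]
  have hagree : ∀ x ∈ Bef a y₀ t 1, pump (a ++ t) (a ++ (y₀ ++ (a ++ t))) hs b x = b x := by
    intro x hx
    rw [hBef1] at hx
    exact pump_not hs b hx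
  have hz0 : z.2 ∈ Bef a y₀ t 0 := by
    intro hcon'
    have h1 := hlong _ hati hcon'
    rw [List.length_append, hai, hti] at h1
    have h2 : lv i = m + 1 + g * (i : ℕ) := rfl
    omega
  have hper : Per R c δ (pump (a ++ t) (a ++ (y₀ ++ (a ++ t))) hs b) (Set.range e) z a y₀ t := by
    refine ⟨?_, hai, ?_, hc, hz0, ?_⟩
    · apply good_pump hr hR hgood hs
      · simp only [List.length_append] at hlen ⊢
        omega
      · intro w hw
        have h1 := hTb (w ++ a) (by rw [List.length_append]; omega)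
        rw [List.append_assoc, List.append_assoc] at h1
        exact h1
    · intro h0
      rw [h0] at hti
      rw [List.length_nil] at hti
      change 0 = m + 1 + g * (i : ℕ) at hti
      omega
    · intro w k hw
      exact pump_col hai hy0 hs b (fun w hw => hTb w (by omega)) k w hw
  have hcode : ∀ p : Option (U × List E), Val (Set.range e) c a p → ∃ q : Code,
      Pt z a y₀ t 0 p = Q i q ∧ Pt z a y₀ t 1 p = Q j q := by
    rintro (_ | ⟨u, w⟩) hp
    · exact ⟨none, rfl, rfl⟩
    · obtain ⟨⟨α, hα⟩, h2, -⟩ := hp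
      refine ⟨some (α, ⟨w, h2⟩), ?_, ?_⟩
      · show (u, w ++ Tk a y₀ t 0) = (e α, w ++ tt i)
        rw [hte, hα]; rfl
      · show (u, w ++ Tk a y₀ t 1) = (e α, w ++ tt j)
        rw [hT1, hy₀, hα]
  -- a code reached from the start
  obtain ⟨x, y, h1, h2, ⟨hxB, hyB, l, hl⟩, h4⟩ : ∃ x y, Relation.ReflTransGen
      (fun a' b' => Rl δ b (Set.range e) Set.univ a' b' ∧ a' ∉ {z : U × List E | z.2 ∉ Bef a y₀ t 0}
        ∧ b' ∉ {z : U × List E | z.2 ∉ Bef a y₀ t 0}) z x ∧
      x ∉ {z : U × List E | z.2 ∉ Bef a y₀ t 0} ∧ Rl δ b (Set.range e) Set.univ x y ∧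
      y ∈ {z : U × List E | z.2 ∉ Bef a y₀ t 0} := by
    rcases first_entrance _ {z : U × List E | z.2 ∉ Bef a y₀ t 0} hcon
      (fun hcon' => hcon' hz0) with ⟨h1, -⟩ | h1
    · exact absurd (fun hcon' => hcon' hati) h1
    · exact h1
  have h2' : x.2 ∈ Bef a y₀ t 0 := not_not.1 h2
  have h4' : (a ++ t) <:+ (stp δ b l x).2 := by rw [hl]; exact not_not.1 h4
  have hbd := hgood.bd l x.1 (b x.2)
  obtain ⟨w, e1, -, e3, e4⟩ := cross_in hai hbd.1 hbd.2 hper.ht h2' h4'
  have hx : Pt z a y₀ t 0 (some (x.1, w)) = x := by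
    show (x.1, w ++ t) = x
    rw [← e1]
  have hcon0 : Con δ b (Set.range e) (Bef a y₀ t 0) z x := by
    refine Relation.ReflTransGen.mono ?_ _ _ h1
    rintro a' b' ⟨⟨f1, f2, f3⟩, f4, f5⟩
    exact ⟨⟨f1.1, not_not.1 f4⟩, ⟨f2.1, not_not.1 f5⟩, f3⟩
  refine no_pump hper (Set.finite_range e) htor ?_ (x.1, w) ⟨hxB.1, e3, e4⟩ ?_
  · intro p p' hp hp' h
    obtain ⟨q, g1, g2⟩ := hcode p hp
    obtain ⟨q', g3, g4⟩ := hcode p' hp'
    have h5 := Con.congr (b' := b) (fun x hx => hagree x (Bef_succ _ _ _ _ hx)) h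
    rw [g1, g3, hBef0] at h5
    have h6 := hTc q q' h5
    rw [g2, g4]
    apply Con.congr (b := b) (fun x hx => (hagree x hx).symm)
    rw [hBef1, hy₀]
    exact h6
  · rw [hx]
    exact Con.congr (fun x hx => (hagree x (Bef_succ _ _ _ _ hx)).symm) hcon0

end Vale.Agent.P192.H567
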