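import Vale.Agent.P192.H437.ColourG

set_option linter.all false

/-! Actions on a product of a set and a stack: definitions, change of colouring, torsion. -/

namespace Vale.Agent.P192.H567

universe u

section

variable {M : ℕ} {U : Type u} {A E : Type}

/-- one letter moves `(u, x)`: it changes `u`, removes letters from the top of the word `x` and puts
new ones on top; what it does depends on `u` and on the colour `b x` -/
def stp (δ : Fin M × Bool → U → A → U × ℕ × List E) (b : List E → A) (l : Fin M × Bool)
    (z : U × List E) : U × List E :=
  ((δ l z.1 (b z.2)).1, (δ l z.1 (b z.2)).2.2 ++ z.2.drop (δ l z.1 (b z.2)).2.1)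

/-- a word applied to a point, last letter first -/
def run (δ : Fin M × Bool → U → A → U × ℕ × List E) (b : List E → A) (w : List (Fin M × Bool))
    (z : U × List E) : U × List E :=
  w.foldr (stp δ b) z

theorem run_nil (δ : Fin M × Bool → U → A → U × ℕ × List E) (b : List E → A) (z : U × List E) :
    run δ b [] z = z := rfl

theorem run_cons (δ : Fin M × Bool → U → A → U × ℕ × List E) (b : List E → A)
    (l : Fin M × Bool) (w : List (Fin M × Bool)) (z : U × List E) :
    run δ b (l :: w) z = stp δ b l (run δ b w z) := rfl

theorem run_append (δ : Fin M × Bool → U → A → U × ℕ × List E) (b : List E → A)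
    (w w' : List (Fin M × Bool)) (z : U × List E) :
    run δ b (w ++ w') z = run δ b w (run δ b w' z) := by
  simp [run, List.foldr_append]

/-- the rule `δ` defines, over the colouring `b`, an action of the group with relators `R` -/
structure Good (R : Set (FreeGroup (Fin M))) (c : ℕ)
    (δ : Fin M × Bool → U → A → U × ℕ × List E) (b : List E → A) : Prop where
  bd : ∀ l u α, (δ l u α).2.1 ≤ c ∧ (δ l u α).2.2.length ≤ c
  inv : ∀ i ε z, stp δ b (i, ε) (stp δ b (i, !ε) z) = z
  rel : ∀ w ∈ R, ∀ z, run δ b w.toWord z = z

theorem drop_three (w p t : List E) (d j : ℕ) (h : j - w.length ≤ p.length - d ∨ t = []) :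
    (w ++ p.drop d ++ t).drop j = w.drop j ++ p.drop (d + (j - w.length)) ++ t := by
  rw [List.append_assoc, List.drop_append, List.drop_append, List.drop_drop, List.length_drop]
  rcases h with h | h
  · have : j - w.length - (p.length - d) = 0 := by omega
    rw [this, List.drop_zero, List.append_assoc]
  · subst h; simp

/-- two runs over colourings which look the same -/
theorem run_transfer {c ρ : ℕ} {δ : Fin M × Bool → U → A → U × ℕ × List E}
    (hbd : ∀ l u α, (δ l u α).2.1 ≤ c ∧ (δ l u α).2.2.length ≤ c) (b b' : List E → A)
    (p t t' : List E) (hp : ρ ≤ p.length ∨ (t = [] ∧ t' = []))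
    (h : ∀ d w, d ≤ ρ → w.length ≤ ρ → b (w ++ p.drop d ++ t) = b' (w ++ p.drop d ++ t'))
    (W : List (Fin M × Bool)) (hW : c * W.length ≤ ρ) (u : U) :
    ∃ (u' : U) (d : ℕ) (w : List E), d ≤ c * W.length ∧ w.length ≤ c * W.length ∧
      run δ b W (u, p ++ t) = (u', w ++ p.drop d ++ t) ∧
      run δ b' W (u, p ++ t') = (u', w ++ p.drop d ++ t') := by
  induction W with
  | nil => exact ⟨u, 0, [], by simp, by simp, by simp [run_nil], by simp [run_nil]⟩
  | cons l W ih =>
    rw [List.length_cons, Nat.mul_add, Nat.mul_one] at hW
    obtain ⟨u', d, w, hd, hw, h1, h2⟩ := ih (by omega)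
    have hc := h d w (by omega) (by omega)
    have hb := hbd l u' (b (w ++ p.drop d ++ t))
    refine ⟨(δ l u' (b (w ++ p.drop d ++ t))).1,
      d + ((δ l u' (b (w ++ p.drop d ++ t))).2.1 - w.length),
      (δ l u' (b (w ++ p.drop d ++ t))).2.2 ++ w.drop (δ l u' (b (w ++ p.drop d ++ t))).2.1,
      ?_, ?_, ?_, ?_⟩
    · rw [List.length_cons, Nat.mul_add, Nat.mul_one]; omega
    · rw [List.length_cons, Nat.mul_add, Nat.mul_one, List.length_append, List.length_drop]; omega
    · rw [run_cons, h1]
      unfold stp
      simp only
      rw [drop_three]
      · simp only [List.append_assoc]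
      · rcases hp with hp | ⟨hp, -⟩
        · left; omega
        · right; exact hp
    · rw [run_cons, h2]
      unfold stp
      simp only
      rw [← hc, drop_three]
      · simp only [List.append_assoc]
      · rcases hp with hp | ⟨-, hp⟩
        · left; omega
        · right; exact hp

/-- the permutation of a generator in a good system -/
def genPerm {R : Set (FreeGroup (Fin M))} {c : ℕ} {δ : Fin M × Bool → U → A → U × ℕ × List E}
    {b : List E → A} (hg : Good R c δ b) (i : Fin M) : Equiv.Perm (U × List E) where
  toFun := stp δ b (i, true)
  invFun := stp δ b (i, false)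
  left_inv := fun z => hg.inv i false z
  right_inv := fun z => hg.inv i true z

theorem lift_mk {R : Set (FreeGroup (Fin M))} {c : ℕ} {δ : Fin M × Bool → U → A → U × ℕ × List E}
    {b : List E → A} (hg : Good R c δ b) (w : List (Fin M × Bool)) (z : U × List E) :
    FreeGroup.lift (genPerm hg) (FreeGroup.mk w) z = run δ b w z := by
  induction w generalizing z with
  | nil => simp [run_nil, FreeGroup.one_eq_mk.symm]
  | cons l w ih =>
    rw [run_cons, ← ih z]
    rw [show FreeGroup.mk (l :: w) = FreeGroup.mk [l] * FreeGroup.mk w by
      rw [FreeGroup.mul_mk]; rfl]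
    rw [map_mul, Equiv.Perm.mul_apply]
    obtain ⟨i, ε⟩ := l
    cases ε
    · simp [FreeGroup.lift_mk, genPerm]
    · simp [FreeGroup.lift_mk, genPerm]

theorem lift_rel {R : Set (FreeGroup (Fin M))} {c : ℕ} {δ : Fin M × Bool → U → A → U × ℕ × List E}
    {b : List E → A} (hg : Good R c δ b) {g : FreeGroup (Fin M)}
    (h : g ∈ Subgroup.normalClosure R) : FreeGroup.lift (genPerm hg) g = 1 := by
  have hle : Subgroup.normalClosure R ≤ (FreeGroup.lift (genPerm hg)).ker := by
    apply Subgroup.normalClosure_le_normal
    intro w hw
    change FreeGroup.lift (genPerm hg) w = 1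
    ext1 z
    have h1 := lift_mk hg w.toWord z
    rw [FreeGroup.mk_toWord] at h1
    rw [h1, hg.rel w hw z]
    rfl
  exact hle h

/-- words have finite order in good systems -/
theorem exists_period {R : Set (FreeGroup (Fin M))} {c : ℕ}
    {δ : Fin M × Bool → U → A → U × ℕ × List E} {b : List E → A} (hg : Good R c δ b)
    (htor : ∀ g : FreeGroup (Fin M), ∃ m : ℕ, 0 < m ∧ g ^ m ∈ Subgroup.normalClosure R)
    (W : List (Fin M × Bool)) : ∃ m : ℕ, 0 < m ∧ ∀ z, (run δ b W)^[m] z = z := by
  obtain ⟨m, hm, hgm⟩ := htor (FreeGroup.mk W)
  refine ⟨m, hm, fun z => ?_⟩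
  have hker := lift_rel hg hgm
  rw [map_pow] at hker
  have hpow : ∀ k : ℕ, ((FreeGroup.lift (genPerm hg) (FreeGroup.mk W)) ^ k) z
      = (run δ b W)^[k] z := by
    intro k
    induction k with
    | zero => simp
    | succ k ih =>
      rw [pow_succ', Equiv.Perm.mul_apply, ih, lift_mk, Function.iterate_succ_apply']
  rw [← hpow, hker]; rfl

open Classical in
/-- the colouring which repeats the part between `s` and `s'` for ever -/
noncomputable def pump (s s' : List E) (hs : s.length < s'.length) (b : List E → A)
    (x : List E) : A :=
  if h : s' <:+ x then pump s s' hs b (x.take (x.length - s'.length) ++ s) else b x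
termination_by x.length
decreasing_by
  have h1 := h.length_le
  rw [List.length_append, List.length_take]
  omega

theorem pump_not {s s' : List E} (hs : s.length < s'.length) (b : List E → A) {x : List E}
    (h : ¬ s' <:+ x) : pump s s' hs b x = b x := by
  rw [pump, dif_neg h]

theorem pump_append {s s' : List E} (hs : s.length < s'.length) (b : List E → A) (w : List E) :
    pump s s' hs b (w ++ s') = pump s s' hs b (w ++ s) := by
  rw [pump, dif_pos (List.suffix_append w s')]
  congr 1
  simp

/-- the pumped colouring gives a good system -/
theorem good_pump {R : Set (FreeGroup (Fin M))} {c r : ℕ} (hr : 2 ≤ r)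
    (hR : ∀ w ∈ R, w.norm ≤ r) {δ : Fin M × Bool → U → A → U × ℕ × List E}
    {b : List E → A} (hg : Good R c δ b) {s s' : List E} (hs : s.length < s'.length)
    (hlen : s.length + 2 * (c * r) < s'.length)
    (hcol : ∀ w, w.length ≤ 2 * (c * r) → b (w ++ s) = b (w ++ s')) :
    Good R c δ (pump s s' hs b) := by
  have key : ∀ (W : List (Fin M × Bool)), c * W.length ≤ c * r → (∀ z, run δ b W z = z) →
      ∀ n, ∀ x : List E, x.length = n → ∀ u, run δ (pump s s' hs b) W (u, x) = (u, x) := by
    intro W hW hWb n
    induction n using Nat.strong_induction_on with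
    | _ n ih =>
      intro x hx u
      by_cases hB : ∃ p, c * r ≤ p.length ∧ x = p ++ s'
      · obtain ⟨p, hp, rfl⟩ := hB
        obtain ⟨u', d, w, -, -, h1, h2⟩ := run_transfer (ρ := c * r) hg.bd (pump s s' hs b)
          (pump s s' hs b) p s' s (Or.inl hp) (fun d w _ _ => pump_append hs b _) W hW u
        have h3 := ih (p ++ s).length (by rw [← hx, List.length_append, List.length_append]; omega)
          (p ++ s) rfl u
        rw [h2] at h3
        rw [h1]
        have h4 : u' = u := congrArg Prod.fst h3
        have h5 : w ++ p.drop d ++ s = p ++ s := congrArg Prod.snd h3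
        rw [h4, List.append_cancel_right h5]
      · have h6 : ∀ d w, d ≤ c * r → w.length ≤ c * r →
            pump s s' hs b (w ++ x.drop d ++ []) = b (w ++ x.drop d ++ []) := by
          intro d w hd hw
          rw [List.append_nil]
          by_cases hsuf : s' <:+ w ++ x.drop d
          · obtain ⟨w', hw'⟩ := hsuf
            rw [← hw', pump_append]
            have hlw : w'.length ≤ 2 * (c * r) := by
              have h7 := congrArg List.length hw'
              rw [List.length_append, List.length_append] at h7
              by_cases hle : s'.length ≤ (x.drop d).length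
              · have h8 : s' <:+ x.drop d := by
                  apply List.suffix_of_suffix_length_le _ _ hle (l₃ := w ++ x.drop d)
                  · rw [← hw']; exact List.suffix_append _ _
                  · exact List.suffix_append _ _
                obtain ⟨w'', hw''⟩ := h8
                have h9 : x = (x.take d ++ w'') ++ s' := by
                  rw [List.append_assoc, hw'', List.take_append_drop]
                have h10 : (x.take d ++ w'').length < c * r := by
                  by_contra hcon
                  exact hB ⟨_, not_lt.1 hcon, h9⟩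
                rw [List.length_append] at h10
                have h11 := congrArg List.length hw''
                rw [List.length_append] at h11
                omega
              · omega
            rw [pump_not, hcol w' hlw]
            intro hcon
            have h12 := hcon.length_le
            rw [List.length_append] at h12
            omega
          · exact pump_not hs b hsuf
        obtain ⟨u', d, w, -, -, h1, h2⟩ := run_transfer (ρ := c * r) hg.bd (pump s s' hs b)
          b x [] [] (Or.inr ⟨rfl, rfl⟩) h6 W hW u
        rw [List.append_nil] at h1 h2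
        rw [h1, ← h2, hWb]
  refine ⟨hg.bd, ?_, ?_⟩
  · rintro i ε ⟨u, x⟩
    have h1 := key [(i, ε), (i, !ε)] (by simpa using Nat.mul_le_mul_left c hr)
      (fun z => by rw [run_cons, run_cons, run_nil]; exact hg.inv i ε z) x.length x rfl u
    rw [run_cons, run_cons, run_nil] at h1
    exact h1
  · rintro w hw ⟨u, x⟩
    exact key w.toWord (Nat.mul_le_mul_left c (hR w hw)) (hg.rel w hw) x.length x rfl u

end

end Vale.Agent.P192.H567
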