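import Mathlib

set_option linter.all false

/-! Definitions used in the statement of the hand-in. -/

namespace Vale.Agent.P192.H567

/-- asymptotic dimension at most one, in the form of two-colourings: for each finite set `E` the
group has a two-colouring for which the classes under monochromatic steps `a ↦ e * a`, `e` in `E`,
have boundedly many points -/
def TwoCol (L : Type) [Group L] : Prop :=
  ∀ E : Set L, E.Finite → ∃ m : ℕ, ∃ C : Set L, ∀ x : L,
    {y | Relation.ReflTransGen (fun a b => (a ∈ C ↔ b ∈ C) ∧ ∃ e ∈ E, b = e * a) x y}.encard ≤ m

/-- a free subgroup of finite rank and finite index -/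
def VFree (M : Type) [Group M] : Prop :=
  ∃ (Γ : Subgroup M) (k : ℕ), Γ.FiniteIndex ∧ Nonempty (Γ ≃* FreeGroup (Fin k))

end Vale.Agent.P192.H567
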