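import Vale.Agent.P192.H567.VFree
import Vale.Agent.P192.R2.H849.Per

set_option linter.all false

/-! Actions defined by steps; systems on `I × ℤ × Y`. -/

namespace Vale.Agent.P192.H567

open Vale.Agent.P192 Vale.Agent.P192.H593 Vale.Agent.P192.H437 Vale.Agent.P192.R2.H360

universe u

/-- a word of steps, last letter first -/
def runS {M : ℕ} {Z : Type u} (st : Fin M × Bool → Z → Z) (W : List (Fin M × Bool)) (z : Z) : Z :=
  W.foldr st z

theorem runS_cons {M : ℕ} {Z : Type u} (st : Fin M × Bool → Z → Z) (l : Fin M × Bool)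
    (W : List (Fin M × Bool)) (z : Z) : runS st (l :: W) z = st l (runS st W z) := rfl

theorem runS_append {M : ℕ} {Z : Type u} (st : Fin M × Bool → Z → Z)
    (W W' : List (Fin M × Bool)) (z : Z) : runS st (W ++ W') z = runS st W (runS st W' z) := by
  simp [runS, List.foldr_append]

/-- steps respecting the relators -/
structure SGood {M : ℕ} (R : Set (FreeGroup (Fin M))) {Z : Type u} (st : Fin M × Bool → Z → Z) :
    Prop where
  inv : ∀ i ε z, st (i, ε) (st (i, !ε) z) = z
  rel : ∀ w ∈ R, ∀ z, runS st w.toWord z = z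

theorem gen_inv {G : Type} [Group G] {M : ℕ} (σ : Fin M → G) (i : Fin M) (ε : Bool) :
    gen σ (i, ε) * gen σ (i, !ε) = 1 := by cases ε <;> simp [gen]

theorem lift_gen {G : Type} [Group G] {M : ℕ} (σ : Fin M → G) (W : List (Fin M × Bool)) :
    (FreeGroup.lift σ : FreeGroup (Fin M) →* G) (FreeGroup.mk W) = (W.map (gen σ)).prod := by
  rw [FreeGroup.lift_mk]; rfl

theorem hom_run {G : Type} [Group G] {M : ℕ} (σ : Fin M → G) {Z : Type u}
    {st : Fin M × Bool → Z → Z} (ρ : G →* Equiv.Perm Z) (h : ∀ l z, ρ (gen σ l) z = st l z)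
    (W : List (Fin M × Bool)) (z : Z) :
    ρ ((FreeGroup.lift σ : FreeGroup (Fin M) →* G) (FreeGroup.mk W)) z = runS st W z := by
  rw [lift_gen]
  induction W with
  | nil => simp [runS]
  | cons l W ih =>
    rw [List.map_cons, List.prod_cons, map_mul, Equiv.Perm.mul_apply, ih, h, runS_cons]

theorem good_of_hom {G : Type} [Group G] {M : ℕ} (σ : Fin M → G) {R : Set (FreeGroup (Fin M))}
    (hR : Subgroup.normalClosure R = (FreeGroup.lift σ : FreeGroup (Fin M) →* G).ker) {Z : Type u}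
    {st : Fin M × Bool → Z → Z} (ρ : G →* Equiv.Perm Z) (h : ∀ l z, ρ (gen σ l) z = st l z) :
    SGood R st := by
  refine ⟨fun i ε z => ?_, fun w hw z => ?_⟩
  · rw [← h, ← h, ← Equiv.Perm.mul_apply, ← map_mul, gen_inv, map_one]; rfl
  · rw [← hom_run σ ρ h, FreeGroup.mk_toWord]
    have h1 : w ∈ (FreeGroup.lift σ : FreeGroup (Fin M) →* G).ker := by
      rw [← hR]; exact Subgroup.subset_normalClosure hw
    rw [MonoidHom.mem_ker.1 h1, map_one]; rfl

/-- the permutation of a generator -/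
def sPerm {M : ℕ} {R : Set (FreeGroup (Fin M))} {Z : Type u} {st : Fin M × Bool → Z → Z}
    (hg : SGood R st) (i : Fin M) : Equiv.Perm Z where
  toFun := st (i, true)
  invFun := st (i, false)
  left_inv := fun z => hg.inv i false z
  right_inv := fun z => hg.inv i true z

theorem sPerm_lift {M : ℕ} {R : Set (FreeGroup (Fin M))} {Z : Type u}
    {st : Fin M × Bool → Z → Z} (hg : SGood R st) (W : List (Fin M × Bool)) (z : Z) :
    FreeGroup.lift (sPerm hg) (FreeGroup.mk W) z = runS st W z := by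
  induction W generalizing z with
  | nil => simp [runS, FreeGroup.one_eq_mk.symm]
  | cons l w ih =>
    rw [runS_cons, ← ih z]
    rw [show FreeGroup.mk (l :: w) = FreeGroup.mk [l] * FreeGroup.mk w by
      rw [FreeGroup.mul_mk]; rfl]
    rw [map_mul, Equiv.Perm.mul_apply]
    obtain ⟨i, ε⟩ := l
    cases ε
    · simp [FreeGroup.lift_mk, sPerm]
    · simp [FreeGroup.lift_mk, sPerm]

/-- steps respecting the relators define an action -/
theorem hom_of_steps {G : Type} [Group G] {M : ℕ} (σ : Fin M → G)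
    (hσ : Subgroup.closure (Set.range σ) = ⊤) {R : Set (FreeGroup (Fin M))}
    (hR : Subgroup.normalClosure R = (FreeGroup.lift σ : FreeGroup (Fin M) →* G).ker) {Z : Type u}
    {st : Fin M × Bool → Z → Z} (hg : SGood R st) :
    ∃ ρ : G →* Equiv.Perm Z, ∀ l z, ρ (gen σ l) z = st l z := by
  have hsurj : Function.Surjective (FreeGroup.lift σ : FreeGroup (Fin M) →* G) :=
    FreeGroup.lift_surjective_iff_closure_range_eq_top.2 hσ
  have hle : (FreeGroup.lift σ : FreeGroup (Fin M) →* G).ker ≤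
      (FreeGroup.lift (sPerm hg) : FreeGroup (Fin M) →* Equiv.Perm Z).ker := by
    rw [← hR]
    apply Subgroup.normalClosure_le_normal
    intro w hw
    change FreeGroup.lift (sPerm hg) w = 1
    ext1 z
    have h1 := sPerm_lift hg w.toWord z
    rw [FreeGroup.mk_toWord] at h1
    rw [h1, hg.rel w hw z]
    rfl
  let ρ : G →* Equiv.Perm Z :=
    (FreeGroup.lift σ : FreeGroup (Fin M) →* G).liftOfSurjective hsurj
      ⟨(FreeGroup.lift (sPerm hg) : FreeGroup (Fin M) →* Equiv.Perm Z), hle⟩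
  refine ⟨ρ, fun l z => ?_⟩
  have h2 : ρ ((FreeGroup.lift σ : FreeGroup (Fin M) →* G) (FreeGroup.mk [l])) =
      FreeGroup.lift (sPerm hg) (FreeGroup.mk [l]) :=
    (FreeGroup.lift σ : FreeGroup (Fin M) →* G).liftOfRightInverse_comp_apply _
      (Function.rightInverse_surjInv hsurj) ⟨_, hle⟩ (FreeGroup.mk [l])
  have h3 : gen σ l = (FreeGroup.lift σ : FreeGroup (Fin M) →* G) (FreeGroup.mk [l]) := by
    rw [lift_gen]; simp
  rw [h3, h2, sPerm_lift]
  rfl

/-- words have finite order -/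
theorem s_period {G : Type} [Group G] (hG : IsMulTorsion G) {M : ℕ} (σ : Fin M → G) {Z : Type u}
    {st : Fin M × Bool → Z → Z} (ρ : G →* Equiv.Perm Z) (h : ∀ l z, ρ (gen σ l) z = st l z)
    (W : List (Fin M × Bool)) : ∃ t : ℕ, 0 < t ∧ ∀ z, (runS st W)^[t] z = z := by
  obtain ⟨t, ht, ht'⟩ := isOfFinOrder_iff_pow_eq_one.1
    (hG ((FreeGroup.lift σ : FreeGroup (Fin M) →* G) (FreeGroup.mk W)))
  refine ⟨t, ht, fun z => ?_⟩
  have h1 : ∀ k : ℕ, (ρ ((FreeGroup.lift σ : FreeGroup (Fin M) →* G) (FreeGroup.mk W)) ^ k) z =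
      (runS st W)^[k] z := by
    intro k
    induction k with
    | zero => simp
    | succ k ih => rw [pow_succ', Equiv.Perm.mul_apply, ih, hom_run σ ρ h,
        Function.iterate_succ_apply']
  rw [← h1, ← map_pow, ht', map_one]; rfl

section

variable {M : ℕ} {I A C L Y : Type} [Group L] [MulAction L Y]

/-- one step of a system on `I × ℤ × Y` -/
def zst (f : Fin M × Bool → I → A → C → I × ℤ × L) (α : ℤ → A) (b : Y → C) (l : Fin M × Bool)
    (x : I × ℤ × Y) : I × ℤ × Y :=
  ((f l x.1 (α x.2.1) (b x.2.2)).1, x.2.1 + (f l x.1 (α x.2.1) (b x.2.2)).2.1,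
    (f l x.1 (α x.2.1) (b x.2.2)).2.2 • x.2.2)

/-- a word acts in the same way at two places with equal windows -/
theorem z_transfer {κ : ℕ} {f : Fin M × Bool → I → A → C → I × ℤ × L}
    (hf : ∀ l i β γ, |(f l i β γ).2.1| ≤ κ) (α α' : ℤ → A) (b : Y → C) (W : List (Fin M × Bool))
    (i : I) (z z' : ℤ) (y : Y) (h : ∀ t : ℤ, |t| ≤ (κ * W.length : ℕ) → α (z + t) = α' (z' + t)) :
    ∃ (i' : I) (d : ℤ) (y' : Y), |d| ≤ (κ * W.length : ℕ) ∧
      runS (zst f α b) W (i, z, y) = (i', z + d, y') ∧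
      runS (zst f α' b) W (i, z', y) = (i', z' + d, y') := by
  induction W with
  | nil => exact ⟨i, 0, y, by simp, by simp [runS], by simp [runS]⟩
  | cons l W ih =>
    have hlen : ((κ * (l :: W).length : ℕ) : ℤ) = (κ * W.length : ℕ) + κ := by
      rw [List.length_cons]; push_cast; ring
    rw [hlen] at h ⊢
    have hκ : (0 : ℤ) ≤ κ := Int.natCast_nonneg κ
    obtain ⟨i', d, y', h1, h2, h3⟩ := ih (fun t ht => h t (by linarith))
    refine ⟨(f l i' (α (z + d)) (b y')).1, d + (f l i' (α (z + d)) (b y')).2.1,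
      (f l i' (α (z + d)) (b y')).2.2 • y', ?_, ?_, ?_⟩
    · refine (abs_add_le _ _).trans ?_
      exact add_le_add h1 (hf _ _ _ _)
    · rw [runS_cons, h2]
      unfold zst
      simp only [add_assoc]
    · rw [runS_cons, h3]
      unfold zst
      simp only
      rw [← h d (by linarith)]
      simp only [add_assoc]

/-- windows suffice for the relators -/
theorem z_good_of_win {R : Set (FreeGroup (Fin M))} {r κ : ℕ} (hr : 2 ≤ r)
    (hR : ∀ w ∈ R, w.norm ≤ r) {f : Fin M × Bool → I → A → C → I × ℤ × L}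
    (hf : ∀ l i β γ, |(f l i β γ).2.1| ≤ κ) {α α' : ℤ → A} {b : Y → C}
    (hg : SGood R (zst f α b))
    (hw : ∀ z', ∃ z, ∀ t : ℤ, |t| ≤ (κ * r : ℕ) → α' (z' + t) = α (z + t)) :
    SGood R (zst f α' b) := by
  have key : ∀ W : List (Fin M × Bool), W.length ≤ r → (∀ x, runS (zst f α b) W x = x) →
      ∀ x, runS (zst f α' b) W x = x := by
    rintro W hW hid ⟨i, z', y⟩
    obtain ⟨z, hz⟩ := hw z'
    obtain ⟨i', d, y', h1, h2, h3⟩ := z_transfer hf α α' b W i z z' y (fun t ht => by
      rw [hz t (ht.trans (by exact_mod_cast Nat.mul_le_mul_left κ hW))])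
    rw [hid] at h2
    have e1 : i = i' := congrArg Prod.fst h2
    have e2 : z = z + d := congrArg (fun x : I × ℤ × Y => x.2.1) h2
    have e3 : y = y' := congrArg (fun x : I × ℤ × Y => x.2.2) h2
    have e4 : d = 0 := by linarith
    rw [h3, ← e1, ← e3, e4, add_zero]
  refine ⟨fun i ε x => ?_, fun w hw' x => key _ (hR w hw') (hg.rel w hw') x⟩
  have := key [(i, ε), (i, !ε)] (by simpa using hr) (fun x => hg.inv i ε x) x
  exact this

end

end Vale.Agent.P192.H567
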