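import Vale.Agent.P192.H567.ZAct
import Vale.Agent.P192.H567.Ends
import Vale.Agent.P192.H663.Calc

set_option linter.all false

/-! Classes of coloured sets; periodic colourings. -/

namespace Vale.Agent.P192.H567

open Vale.Agent.P192 Vale.Agent.P192.H593 Vale.Agent.P192.H437 Vale.Agent.P192.R2.H360

/-- a class of coloured `L`-sets -/
structure Cls (L : Type) [Group L] where
  C : ℕ → Type
  fin : ∀ m, Finite (C m)
  P : ∀ (m : ℕ) (Y : Type) [MulAction L Y], (Y → C m) → Prop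
  ref : ∀ (m : ℕ) (T : Set L), T.Finite → ∃ m', ∀ (Y : Type) [MulAction L Y] (b : Y → C m),
    P m Y b → ∃ b' : Y → C m', P m' Y b' ∧ ∀ x y, b' x = b' y → ∀ t ∈ T, b (t • x) = b (t • y)

/-- uniform finiteness for the products of a finite set and a set of the class -/
def UF {L : Type} [Group L] (c : Cls L) : Prop :=
  ∀ (G : Type) [Group G] [Group.IsFinitelyPresented G], IsMulTorsion G →
    ∀ (M : ℕ) (σ : Fin M → G), Subgroup.closure (Set.range σ) = ⊤ →
    ∀ (n m : ℕ) (K : Set L), K.Finite →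
    ∃ N : Subgroup G, N.Normal ∧ N.FiniteIndex ∧
      ∀ (I : Type) [Finite I], Nat.card I ≤ n →
      ∀ (Y : Type) [MulAction L Y] (b : Y → c.C m), c.P m Y b →
      ∀ (f : Fin M × Bool → I → c.C m → I × L), (∀ l i β, (f l i β).2 ∈ K) →
      ∀ ρ : G →* Equiv.Perm (I × Y),
      (∀ l i y, ρ (gen σ l) (i, y) = ((f l i (b y)).1, (f l i (b y)).2 • y)) →
      ∀ g ∈ N, ρ g = 1

section

variable {M : ℕ} {I A C L Y : Type} [Group L] [MulAction L Y]

theorem zst_add (f : Fin M × Bool → I → A → C → I × ℤ × L) (α : ℤ → A) (b : Y → C) (p : ℤ)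
    (hp : ∀ z, α (z + p) = α z) (W : List (Fin M × Bool)) (x : I × ℤ × Y) :
    runS (zst f α b) W (x.1, x.2.1 + p, x.2.2) =
      ((runS (zst f α b) W x).1, (runS (zst f α b) W x).2.1 + p, (runS (zst f α b) W x).2.2) := by
  induction W with
  | nil => rfl
  | cons l W ih =>
    rw [runS_cons, ih, runS_cons]
    unfold zst
    simp only
    rw [hp, add_right_comm]

end

theorem stepA {L : Type} [Group L] (c : Cls L) (hUF : UF c) (G : Type) [Group G]
    [Group.IsFinitelyPresented G] (hG : IsMulTorsion G) {M : ℕ} (σ : Fin M → G)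
    (hσ : Subgroup.closure (Set.range σ) = ⊤) (R : Set (FreeGroup (Fin M)))
    (hRk : Subgroup.normalClosure R = (FreeGroup.lift σ : FreeGroup (Fin M) →* G).ker)
    (n m Nm : ℕ) (A : Type) (K : Set L) (hK : K.Finite) :
    ∃ N : Subgroup G, N.Normal ∧ N.FiniteIndex ∧
      ∀ (I : Type) [Finite I], Nat.card I ≤ n →
      ∀ (Y : Type) [MulAction L Y] (b : Y → c.C m), c.P m Y b →
      ∀ (f : Fin M × Bool → I → A → c.C m → I × ℤ × L), (∀ l i β γ, (f l i β γ).2.2 ∈ K) →
      ∀ (α : ℤ → A) (p : ℕ), 0 < p → p ≤ Nm → (∀ z, α (z + p) = α z) →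
      SGood R (zst f α b) → ∀ W : List (Fin M × Bool),
      (FreeGroup.lift σ : FreeGroup (Fin M) →* G) (FreeGroup.mk W) ∈ N →
      ∀ x, runS (zst f α b) W x = x := by
  obtain ⟨N, h1, h2, h3⟩ := hUF G hG M σ hσ (n * Nm) m K hK
  refine ⟨N, h1, h2, ?_⟩
  intro I _ hI Y _ b hb f hf α p hp hpN hper hgood W hW
  haveI : NeZero p := ⟨hp.ne'⟩
  have hper' : ∀ (k : ℤ) z, α (z + p * k) = α z := by
    intro k
    induction k using Int.induction_on with
    | zero => intro z; simp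
    | succ k ih => intro z; rw [← ih z, ← hper (z + p * k)]; congr 1; ring
    | pred k ih => intro z; rw [← ih z, ← hper (z + p * (-k - 1))]; congr 1; ring
  have hα : ∀ z : ℤ, α (((z : ZMod p).val : ℕ) : ℤ) = α z := by
    intro z
    rw [ZMod.val_intCast]
    have e1 := Int.emod_add_mul_ediv z p
    conv_rhs => rw [← e1]
    rw [hper']
  let f' : Fin M × Bool → I × ZMod p → c.C m → (I × ZMod p) × L := fun l i β =>
    (((f l i.1 (α ((i.2.val : ℕ) : ℤ)) β).1, i.2 + ((f l i.1 (α ((i.2.val : ℕ) : ℤ)) β).2.1 : ZMod p)),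
      (f l i.1 (α ((i.2.val : ℕ) : ℤ)) β).2.2)
  let st' : Fin M × Bool → (I × ZMod p) × Y → (I × ZMod p) × Y := fun l x =>
    ((f' l x.1 (b x.2)).1, (f' l x.1 (b x.2)).2 • x.2)
  let π : I × ℤ × Y → (I × ZMod p) × Y := fun x => ((x.1, (x.2.1 : ZMod p)), x.2.2)
  have hπ : ∀ l x, π (zst f α b l x) = st' l (π x) := by
    intro l x
    show (((f l x.1 (α x.2.1) (b x.2.2)).1,
      ((x.2.1 + (f l x.1 (α x.2.1) (b x.2.2)).2.1 : ℤ) : ZMod p)),
      (f l x.1 (α x.2.1) (b x.2.2)).2.2 • x.2.2) = st' l ((x.1, (x.2.1 : ZMod p)), x.2.2)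
    simp only [st', f', hα, Int.cast_add]
  have hπrun : ∀ W x, π (runS (zst f α b) W x) = runS st' W (π x) := by
    intro W x
    induction W with
    | nil => rfl
    | cons l W ih => rw [runS_cons, hπ, ih, runS_cons]
  have hπs : Function.Surjective π := by
    rintro ⟨⟨i, z⟩, y⟩
    exact ⟨(i, ((z.val : ℕ) : ℤ), y), by simp [π]⟩
  have hgood' : SGood R st' := by
    refine ⟨fun i ε x => ?_, fun w hw x => ?_⟩
    · obtain ⟨x, rfl⟩ := hπs x
      rw [← hπ, ← hπ, hgood.inv]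
    · obtain ⟨x, rfl⟩ := hπs x
      rw [← hπrun, hgood.rel w hw]
  obtain ⟨ρ', hρ'⟩ := hom_of_steps σ hσ hRk hgood'
  obtain ⟨ρ, hρ⟩ := hom_of_steps σ hσ hRk hgood
  have hcard : Nat.card (I × ZMod p) ≤ n * Nm := by
    rw [Nat.card_prod, Nat.card_zmod]
    exact Nat.mul_le_mul hI hpN
  have hone := h3 (I × ZMod p) hcard Y b hb f' (fun l i β => hf _ _ _ _) ρ'
    (fun l i y => hρ' l (i, y)) _ hW
  rintro ⟨i, z, y⟩
  have e1 : runS st' W (π (i, z, y)) = π (i, z, y) := by
    rw [← hom_run σ ρ' hρ', hone]; rfl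
  rw [← hπrun] at e1
  set x' := runS (zst f α b) W (i, z, y) with hx'
  have e2 : x'.1 = i := congrArg (fun x : (I × ZMod p) × Y => x.1.1) e1
  have e3 : (x'.2.1 : ZMod p) = (z : ZMod p) := congrArg (fun x : (I × ZMod p) × Y => x.1.2) e1
  have e4 : x'.2.2 = y := congrArg (fun x : (I × ZMod p) × Y => x.2) e1
  have e5 : (p : ℤ) ∣ x'.2.1 - z := by
    rw [← ZMod.intCast_zmod_eq_zero_iff_dvd, Int.cast_sub, e3, sub_self]
  obtain ⟨k, hk⟩ := e5
  have hperk : ∀ j : ℕ, ∀ z, α (z + j * (p * k)) = α z := by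
    intro j z
    have : z + (j : ℤ) * (p * k) = z + p * (j * k) := by ring
    rw [this, hper']
  obtain ⟨t, ht, ht'⟩ := s_period hG σ ρ hρ W
  have hit : ∀ j : ℕ, (runS (zst f α b) W)^[j] (i, z, y) = (i, z + j * (p * k), y) := by
    intro j
    induction j with
    | zero => simp
    | succ j ih =>
      rw [Function.iterate_succ_apply', ih]
      have := zst_add f α b (j * (p * k)) (hperk j) W (i, z, y)
      simp only at this
      rw [this, ← hx', e2, e4]
      have e6 : x'.2.1 = z + p * k := by linarith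
      rw [e6]
      push_cast
      ring_nf
  have e7 := hit t
  rw [ht'] at e7
  have e8 : z = z + t * (p * k) := congrArg (fun x : I × ℤ × Y => x.2.1) e7
  have e9 : (p * k : ℤ) = 0 := by
    have : (t : ℤ) * (p * k) = 0 := by linarith
    rcases mul_eq_zero.1 this with h | h
    · exact absurd (by exact_mod_cast h) ht.ne'
    · exact h
  refine Prod.ext e2 (Prod.ext ?_ e4)
  show x'.2.1 = z
  linarith

end Vale.Agent.P192.H567
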