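import Vale.Agent.P192.H567.ZStepA

set_option linter.all false

/-! Strips of bounded width in `I × ℤ × Y`. -/

namespace Vale.Agent.P192.H567

open Vale.Agent.P192 Vale.Agent.P192.H593 Vale.Agent.P192.H437 Vale.Agent.P192.R2.H360

theorem PP_mono {L : Type} [Group L] (K : Set L) {m n : ℕ} (h : m ≤ n) : PP K m ⊆ PP K n := by
  induction h with
  | refl => exact subset_rfl
  | step _ ih => exact ih.trans Set.subset_union_left

section

variable {M : ℕ} {I A C L Y : Type} [Group L] [MulAction L Y]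

/-- what a word does to the third coordinate -/
theorem run_track {K : Set L} {f : Fin M × Bool → I → A → C → I × ℤ × L}
    (hf : ∀ l i β γ, (f l i β γ).2.2 ∈ K) (α : ℤ → A) (b : Y → C) (W : List (Fin M × Bool))
    (i : I) (z : ℤ) (y : Y) : ∃ (i' : I) (z' : ℤ) (t : L), t ∈ PP K W.length ∧
      ∀ y', (∀ t' ∈ PP K W.length, b (t' • y') = b (t' • y)) →
        runS (zst f α b) W (i, z, y') = (i', z', t • y') := by
  induction W with
  | nil => exact ⟨i, z, 1, rfl, fun y' _ => by simp [runS]⟩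
  | cons l W ih =>
    obtain ⟨i', z', t, ht, h⟩ := ih
    refine ⟨(f l i' (α z') (b (t • y))).1, z' + (f l i' (α z') (b (t • y))).2.1,
      (f l i' (α z') (b (t • y))).2.2 * t, Or.inr ⟨_, hf _ _ _ _, t, ht, rfl⟩, ?_⟩
    intro y' hy'
    rw [runS_cons, h y' (fun t' ht' => hy' t' (Or.inl ht'))]
    unfold zst
    simp only
    rw [hy' t (Or.inl ht), mul_smul]

theorem run_len {κ : ℕ} {f : Fin M × Bool → I → A → C → I × ℤ × L}
    (hf : ∀ l i β γ, |(f l i β γ).2.1| ≤ κ) (α : ℤ → A) (b : Y → C) (W : List (Fin M × Bool))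
    (x : I × ℤ × Y) : |(runS (zst f α b) W x).2.1 - x.2.1| ≤ (κ * W.length : ℕ) := by
  induction W with
  | nil => simp [runS]
  | cons l W ih =>
    rw [runS_cons]
    have h1 := hf l (runS (zst f α b) W x).1 (α (runS (zst f α b) W x).2.1)
      (b (runS (zst f α b) W x).2.2)
    have e : (zst f α b l (runS (zst f α b) W x)).2.1 - x.2.1 =
        ((runS (zst f α b) W x).2.1 - x.2.1) + (f l (runS (zst f α b) W x).1
          (α (runS (zst f α b) W x).2.1) (b (runS (zst f α b) W x).2.2)).2.1 := by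
      unfold zst; simp only; ring
    rw [e]
    refine (abs_add_le _ _).trans ?_
    have h2 : ((κ * (l :: W).length : ℕ) : ℤ) = (κ * W.length : ℕ) + κ := by
      rw [List.length_cons]; push_cast; ring
    rw [h2]
    exact add_le_add ih h1

end

/-- orbits of subgroups of finite index acting trivially -/
theorem orbit_le {G : Type} [Group G] {Z : Type} (ρ : G →* Equiv.Perm Z) (N : Subgroup G)
    [N.FiniteIndex] (h : ∀ g ∈ N, ρ g = 1) (q : Z) :
    (Set.range fun g : G => ρ g q).encard ≤ N.index := by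
  have h1 : (Set.range fun g : G => ρ g q) ⊆
      (fun c : G ⧸ N => ρ c.out q) '' Set.univ := by
    rintro _ ⟨g, rfl⟩
    refine ⟨QuotientGroup.mk g, trivial, ?_⟩
    have h2 : ((QuotientGroup.mk g : G ⧸ N).out)⁻¹ * g ∈ N := by
      have h3 : (QuotientGroup.mk ((QuotientGroup.mk g : G ⧸ N).out) : G ⧸ N) =
          QuotientGroup.mk g := Quotient.out_eq _
      exact QuotientGroup.eq.1 h3
    have h4 := h _ h2
    show ρ (QuotientGroup.mk g : G ⧸ N).out q = ρ g q
    have h5 : ρ g = ρ (QuotientGroup.mk g : G ⧸ N).out *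
        ρ (((QuotientGroup.mk g : G ⧸ N).out)⁻¹ * g) := by
      rw [← map_mul, mul_inv_cancel_left]
    rw [h5, h4, mul_one]
  refine (Set.encard_le_encard h1).trans ((Set.encard_image_le _ _).trans ?_)
  haveI : Finite (G ⧸ N) := Subgroup.finite_quotient_of_finiteIndex
  rw [Set.encard_univ, ENat.card_eq_coe_natCard]
  rfl

theorem stepC {L : Type} [Group L] (c : Cls L) (hUF : UF c) (G : Type) [Group G]
    [Group.IsFinitelyPresented G] (hG : IsMulTorsion G) {M : ℕ} (σ : Fin M → G)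
    (hσ : Subgroup.closure (Set.range σ) = ⊤) (R : Set (FreeGroup (Fin M))) (r : ℕ) (hr : 2 ≤ r)
    (hR : ∀ w ∈ R, w.norm ≤ r)
    (hRk : Subgroup.normalClosure R = (FreeGroup.lift σ : FreeGroup (Fin M) →* G).ker)
    (n m κ Λ : ℕ) (A : Type) [Finite A] (K : Set L) (hK : K.Finite) :
    ∃ KC : ℕ, ∀ (I : Type) [Finite I], Nat.card I ≤ n →
      ∀ (Y : Type) [MulAction L Y] (b : Y → c.C m), c.P m Y b →
      ∀ (f : Fin M × Bool → I → A → c.C m → I × ℤ × L), (∀ l i β γ, |(f l i β γ).2.1| ≤ κ) →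
      (∀ l i β γ, (f l i β γ).2.2 ∈ K) → ∀ (α : ℤ → A), SGood R (zst f α b) →
      ∀ x y : ℤ, x ≤ y → y - x ≤ Λ → ∀ q : I × ℤ × Y,
      {q' | Relation.ReflTransGen (fun a a' : I × ℤ × Y => (x ≤ a.2.1 ∧ a.2.1 ≤ y) ∧
        ∃ l, zst f α b l a = a') q q'}.encard ≤ KC := by
  classical
  obtain ⟨Nm, T, hends⟩ := exists_ends A (κ * r)
  obtain ⟨N, hN1, hN2, hN3⟩ := stepA c hUF G hG σ hσ R hRk n m Nm A K hK
  haveI hNfp : Group.IsFinitelyPresented N := Vale.Agent.P192.fp_of_finiteIndex G N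
  have hNt : IsMulTorsion N := fun g => by
    have := hG (g : G)
    exact Submonoid.isOfFinOrder_coe.1 this
  obtain ⟨MA, σA, -, hσA, -⟩ := exists_tuple N Set.univ Subgroup.closure_univ
  have hsurj : Function.Surjective (FreeGroup.lift σ : FreeGroup (Fin M) →* G) :=
    FreeGroup.lift_surjective_iff_closure_range_eq_top.2 hσ
  choose w hw using fun l : Fin MA × Bool => hsurj ((gen σA l : N) : G)
  let Wl : Fin MA × Bool → List (Fin M × Bool) := fun l => (w l).toWord
  have hWl : ∀ l, (FreeGroup.lift σ : FreeGroup (Fin M) →* G) (FreeGroup.mk (Wl l)) =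
      ((gen σA l : N) : G) := fun l => by
    show (FreeGroup.lift σ) (FreeGroup.mk (w l).toWord) = _
    rw [FreeGroup.mk_toWord, hw]
  obtain ⟨lam, hlam⟩ : ∃ lam, ∀ l, (Wl l).length ≤ lam := by
    obtain ⟨c, hc⟩ := (Set.finite_range (fun l => (Wl l).length)).bddAbove
    exact ⟨c, fun l => hc ⟨l, rfl⟩⟩
  set Jm : ℕ := Λ + 2 * (T + κ * lam) + 1 with hJm
  have hKf := PP_finite hK lam
  obtain ⟨m', hm'⟩ := c.ref m (PP K lam) hKf
  obtain ⟨N', hN1', hN2', hN3'⟩ := hUF N hNt MA σA hσA (n * Jm) m' (PP K lam) hKf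
  set NC : Subgroup G := N'.map N.subtype with hNC
  haveI hNCf : NC.FiniteIndex := by
    have h1 : NC ≤ N := Subgroup.map_subtype_le N'
    refine ⟨?_⟩
    rw [← Subgroup.relIndex_mul_index h1]
    refine Nat.mul_ne_zero ?_ hN2.index_ne_zero
    have h2 : NC.subgroupOf N = N' := by
      rw [hNC]
      exact Subgroup.comap_map_eq_self_of_injective N.subtype_injective N'
    rw [Subgroup.relIndex, h2]
    exact hN2'.index_ne_zero
  refine ⟨NC.index, ?_⟩
  intro I _ hI Y _ b hb f hf1 hf2 α hgood x y hxy hΛ q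
  obtain ⟨α', hα1, hα2, ⟨p, hp, hpN, hpr⟩, ⟨p', hp', hpN', hpl⟩⟩ := hends α x y hxy
  have hgood' : SGood R (zst f α' b) := by
    apply z_good_of_win hr hR hf1 hgood
    intro z'
    obtain ⟨v, hv⟩ := hα2 z'
    exact ⟨v, fun t ht => hv t (by exact_mod_cast ht)⟩
  obtain ⟨ρ, hρ⟩ := hom_of_steps σ hσ hRk hgood'
  -- the interval
  let J : Type := {z : ℤ // x - T - κ * lam ≤ z ∧ z ≤ y + T + κ * lam}
  have hJfin : Finite J := by
    have : Finite (Set.Icc (x - T - κ * lam : ℤ) (y + T + κ * lam)) := inferInstance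
    exact this
  have hJcard : Nat.card J ≤ Jm := by
    have e1 : Nat.card J = Nat.card (Set.Icc (x - T - κ * lam : ℤ) (y + T + κ * lam)) := rfl
    rw [e1, Nat.card_eq_fintype_card, Fintype.card_ofFinset, Int.card_Icc]
    have : (Λ : ℤ) + 2 * (T + κ * lam) + 1 = (Jm : ℕ) := by rw [hJm]; push_cast; ring
    omega
  -- generators of `N` act trivially outside `J`
  have hcont : ∀ (a : ℤ → A), (∀ z, a (z + p) = a z) → Wins ((κ * r : ℕ) : ℤ) a α' →
      ∀ W : List (Fin M × Bool), (FreeGroup.lift σ : FreeGroup (Fin M) →* G) (FreeGroup.mk W) ∈ N →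
      ∀ q, runS (zst f a b) W q = q := by
    intro a ha1 ha2 W hW
    refine hN3 I hI Y b hb f hf2 a p hp hpN ha1 ?_ W hW
    apply z_good_of_win hr hR hf1 hgood'
    intro z'
    obtain ⟨v, hv⟩ := ha2 z'
    exact ⟨v, fun t ht => hv t (by exact_mod_cast ht)⟩
  have hcont' : ∀ (a : ℤ → A), (∀ z, a (z + p') = a z) → Wins ((κ * r : ℕ) : ℤ) a α' →
      ∀ W : List (Fin M × Bool), (FreeGroup.lift σ : FreeGroup (Fin M) →* G) (FreeGroup.mk W) ∈ N →
      ∀ q, runS (zst f a b) W q = q := by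
    intro a ha1 ha2 W hW
    refine hN3 I hI Y b hb f hf2 a p' hp' hpN' ha1 ?_ W hW
    apply z_good_of_win hr hR hf1 hgood'
    intro z'
    obtain ⟨v, hv⟩ := ha2 z'
    exact ⟨v, fun t ht => hv t (by exact_mod_cast ht)⟩
  have hout : ∀ l (q : I × ℤ × Y), ¬ (x - T - κ * lam ≤ q.2.1 ∧ q.2.1 ≤ y + T + κ * lam) →
      runS (zst f α' b) (Wl l) q = q := by
    intro l q hq
    have hWN : (FreeGroup.lift σ : FreeGroup (Fin M) →* G) (FreeGroup.mk (Wl l)) ∈ N := by
      rw [hWl]; exact (gen σA l).2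
    have hlen : ((κ * (Wl l).length : ℕ) : ℤ) ≤ κ * lam := by
      exact_mod_cast Nat.mul_le_mul_left κ (hlam l)
    obtain ⟨i, z, v⟩ := q
    rcases not_and_or.1 hq with h | h
    · obtain ⟨a, ha1, ha2, ha3⟩ := periodic_left (κ * r) α' (x - T) p' hp' hpl
      obtain ⟨i', d, y', -, h2, h3⟩ := z_transfer hf1 α' a b (Wl l) i z z v (fun t ht => by
        rw [ha2]
        have := (abs_le.1 ht).2
        have h4 : z < x - T - κ * lam := not_le.1 h
        linarith)
      rw [h2, ← h3]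
      exact hcont' a ha1 ha3 _ hWN _
    · obtain ⟨a, ha1, ha2, ha3⟩ := periodic_right (κ * r) α' (y + T) p hp hpr
      obtain ⟨i', d, y', -, h2, h3⟩ := z_transfer hf1 α' a b (Wl l) i z z v (fun t ht => by
        rw [ha2]
        have := (abs_le.1 ht).1
        have h4 : y + T + κ * lam < z := not_le.1 h
        linarith)
      rw [h2, ← h3]
      exact hcont a ha1 ha3 _ hWN _
  have hρN : ∀ l q, ρ ((gen σA l : N) : G) q = runS (zst f α' b) (Wl l) q := by
    intro l q
    rw [← hWl, hom_run σ ρ hρ]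
  have houtN : ∀ (g : N) (q : I × ℤ × Y), ¬ (x - T - κ * lam ≤ q.2.1 ∧ q.2.1 ≤ y + T + κ * lam) →
      ρ g q = q := by
    intro g q hq
    have : ∀ g ∈ Subgroup.closure (Set.range σA), ρ (g : G) q = q := by
      intro g hg
      induction hg using Subgroup.closure_induction with
      | mem g hg =>
        obtain ⟨i, rfl⟩ := hg
        have := hρN (i, true) q
        rw [hout _ q hq] at this
        exact this
      | one => simp
      | mul g g' _ _ h h' => rw [Subgroup.coe_mul, map_mul, Equiv.Perm.mul_apply, h', h]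
      | inv g _ h =>
        rw [Subgroup.coe_inv, map_inv, Equiv.Perm.inv_eq_iff_eq]
        exact h.symm
    exact this g (by rw [hσA]; trivial)
  -- the restricted action
  letI : MulAction N (I × ℤ × Y) := MulAction.compHom _ (ρ.comp N.subtype)
  have hsm : ∀ (g : N) (q : I × ℤ × Y), g • q = ρ g q := fun _ _ => rfl
  let j : (I × J) × Y → I × ℤ × Y := fun q => (q.1.1, q.1.2.1, q.2)
  have hj : Function.Injective j := by
    rintro ⟨⟨i, z⟩, v⟩ ⟨⟨i', z'⟩, v'⟩ h
    have e1 : i = i' := congrArg Prod.fst h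
    have e2 : z = z' := Subtype.ext (congrArg (fun q : I × ℤ × Y => q.2.1) h)
    have e3 : v = v' := congrArg (fun q : I × ℤ × Y => q.2.2) h
    rw [e1, e2, e3]
  have hjmem : ∀ q : I × ℤ × Y, (x - T - κ * lam ≤ q.2.1 ∧ q.2.1 ≤ y + T + κ * lam) →
      ∃ q', j q' = q := fun q hq => ⟨((q.1, ⟨q.2.1, hq⟩), q.2.2), rfl⟩
  have hinv : ∀ (g : N) (q : (I × J) × Y), ∃ q', j q' = g • j q := by
    intro g q
    apply hjmem
    by_contra hcon
    have h1 := houtN g⁻¹ (ρ g (j q)) hcon
    have h2 : ρ ((g⁻¹ : N) : G) (ρ g (j q)) = j q := by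
      rw [Subgroup.coe_inv, map_inv]
      exact Equiv.symm_apply_apply _ _
    rw [h2] at h1
    rw [hsm, ← h1] at hcon
    exact hcon q.1.2.2
  obtain ⟨inst, hinst⟩ := exists_restrict j hj hinv
  obtain ⟨b', hb', hbb⟩ := hm' Y b hb
  choose i₁ z₁ t₁ ht₁ hrun using fun (l : Fin MA × Bool) (i : I) (z : ℤ) (v : Y) =>
    run_track hf2 α' b (Wl l) i z v
  have hmem : ∀ l i (z : J) v, x - T - κ * lam ≤ z₁ l i z v ∧ z₁ l i z v ≤ y + T + κ * lam := by
    intro l i z v
    obtain ⟨q', hq'⟩ := hinv (gen σA l) ((i, z), v)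
    have h1 : (gen σA l) • j ((i, z), v) = (i₁ l i z v, z₁ l i z v, t₁ l i z v • v) := by
      rw [hsm, hρN]
      exact hrun l i z v v (fun _ _ => rfl)
    rw [h1] at hq'
    have h2 : (q'.1.2 : ℤ) = z₁ l i z v := congrArg (fun q : I × ℤ × Y => q.2.1) hq'
    rw [← h2]
    exact q'.1.2.2
  let f'' : Fin MA × Bool → I × J → c.C m' → (I × J) × L := fun l q β =>
    if h : ∃ v, b' v = β then
      ((i₁ l q.1 q.2 h.choose, ⟨z₁ l q.1 q.2 h.choose, hmem l q.1 q.2 h.choose⟩),
        t₁ l q.1 q.2 h.choose)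
    else (q, 1)
  have hone : (1 : L) ∈ PP K lam := PP_mono K (Nat.zero_le lam) rfl
  have hcard : Nat.card (I × J) ≤ n * Jm := by
    rw [Nat.card_prod]
    exact Nat.mul_le_mul hI hJcard
  have htriv := hN3' (I × J) hcard Y b' hb' f'' (by
      intro l q β
      by_cases h : ∃ v, b' v = β
      · simp only [f'', dif_pos h]
        exact PP_mono K (hlam l) (ht₁ _ _ _ _)
      · simp only [f'', dif_neg h]
        exact hone) (MulAction.toPermHom N ((I × J) × Y)) (by
      rintro l ⟨i, z⟩ v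
      have h : ∃ v', b' v' = b' v := ⟨v, rfl⟩
      simp only [f'', dif_pos h]
      apply hj
      show j ((gen σA l) • ((i, z), v)) = _
      rw [hinst, hsm, hρN]
      refine hrun l i z h.choose v ?_
      intro t' ht'
      exact (hbb _ _ h.choose_spec t' (PP_mono K (hlam l) ht')).symm)
  have hall : ∀ g ∈ NC, ρ g = 1 := by
    rintro g ⟨g', hg', rfl⟩
    ext1 q
    show ρ (g' : G) q = q
    by_cases hq : x - T - κ * lam ≤ q.2.1 ∧ q.2.1 ≤ y + T + κ * lam
    · obtain ⟨q', rfl⟩ := hjmem q hq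
      rw [← hsm, ← hinst]
      have h1 := htriv g' hg'
      have h2 : g' • q' = (MulAction.toPermHom N ((I × J) × Y) g') q' := rfl
      rw [h2, h1]; rfl
    · exact houtN g' q hq
  refine le_trans (Set.encard_le_encard ?_) (orbit_le ρ NC hall q)
  intro q' hq'
  have hq'' : Relation.ReflTransGen (fun a a' : I × ℤ × Y => (x ≤ a.2.1 ∧ a.2.1 ≤ y) ∧
        ∃ l, zst f α b l a = a') q q' := hq'
  clear hq'
  induction hq'' with
  | refl => exact ⟨1, by simp⟩
  | @tail a a' _ hst ih =>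
    obtain ⟨g, hg⟩ := ih
    obtain ⟨⟨h1, h2⟩, l, hl⟩ := hst
    refine ⟨gen σ l * g, ?_⟩
    show ρ (gen σ l * g) q = a'
    rw [map_mul, Equiv.Perm.mul_apply]
    have hg' : ρ g q = a := hg
    rw [hg', hρ, ← hl]
    unfold zst
    rw [hα1 _ h1 h2]

end Vale.Agent.P192.H567
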